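import Vale.Agent.P073.H429.ThinBands

/-!
# P073, H429, K3C, **[T-BANDS]**, second part: the box map, thin uniform bands off slivers
-/

open Set Metric Topology Filter

namespace P073.H429

open P073 P073.H236 P073.H196

/-! ### the box -/

namespace BS

variable {ι : Type*} [Fintype ι] {al be ς : ℝ} {l h : ι → ℝ} {n : ℕ}

/-- the box of the second staircase -/
noncomputable def hx (H : BS al be l h) (h0 : 0 < ς) (h1 : ς ≤ 1) (j : Fin n)
    (lo hi r : Fin n → ℝ) (hr : ∀ i, 0 < r i) : HX n where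
  j := j
  al := al
  be := be
  k := sgG al be l h ς
  k' := (H.exists_L1 h0 h1).choose
  l1 := (H.exists_L1 h0 h1).choose_spec
  hab := H.hab.le
  lo := lo
  hi := hi
  r := r
  hr := hr
  D := be - al - blen l h
  hD := fun t => H.abs_sub_self_le h0.le h1 t

end BS

/-- **the estimate in the full zone**, for any family which has `sgG` in the box `b` -/
theorem abs_isH_sub_le {n : ℕ} {γ : Type*} {Λ : Set (Fin n → ℝ)} {F : HFam n γ Λ}
    {S : ConHomeo Λ Λ} (hS : F.IsH S) {b : γ} {ι : Type*} [Fintype ι] {ς : ℝ} {l h : ι → ℝ}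
    (H : BS (F.X b).al (F.X b).be l h) (h0 : 0 < ς) (h1 : ς ≤ 1)
    (hk : (F.X b).k = sgG (F.X b).al (F.X b).be l h ς) {y y' : Fin n → ℝ}
    (hy : (F.X b).Full y) (hy' : (F.X b).Full y') :
    |S.toFun y (F.X b).j - S.toFun y' (F.X b).j| ≤
      slG (F.X b).al (F.X b).be l h ς *
        ∑ i, |clam (l i) (h i) (y (F.X b).j) - clam (l i) (h i) (y' (F.X b).j)| +
      ς * |y (F.X b).j - y' (F.X b).j| := by
  rw [hS.full hy, hS.full hy', Function.update_self, Function.update_self, hk]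
  exact H.abs_sub_le h0 h1 hy.1 hy'.1

/-- Lipschitz bound everywhere in the box -/
theorem abs_isH_lip {n : ℕ} {γ : Type*} {Λ : Set (Fin n → ℝ)} {F : HFam n γ Λ}
    {S : ConHomeo Λ Λ} (hS : F.IsH S) {b : γ} {ι : Type*} [Fintype ι] {ς : ℝ} {l h : ι → ℝ}
    (H : BS (F.X b).al (F.X b).be l h) (h0 : 0 < ς) (h1 : ς ≤ 1)
    (hk : (F.X b).k = sgG (F.X b).al (F.X b).be l h ς) {ρ d : ℝ} (hρ : 0 < ρ)
    (hr : ∀ i, ρ ≤ (F.X b).r i) {y y' : Fin n → ℝ}
    (hy : y ∈ (F.X b).K) (hy' : y' ∈ (F.X b).K)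
    (hd : ∀ i, i ≠ (F.X b).j → |y i - y' i| ≤ d) (hd0 : 0 ≤ d) :
    |S.toFun y (F.X b).j - S.toFun y' (F.X b).j| ≤
      slG (F.X b).al (F.X b).be l h ς * |y (F.X b).j - y' (F.X b).j| +
      (F.X b).D * (d / ρ) := by
  rw [hS.on b y hy, hS.on b y' hy']
  exact (F.X b).abs_sub_le (H.one_le_slG h1) (fun s t => by rw [hk]; exact H.lip h0 h1 s t)
    hρ hr hd hd0

/-! ### thin uniform bands -/

/-- the cell `k` meets no sliver -/
def Gd (al om : ℝ) (sl : Finset (ℝ × ℝ)) (k : ℕ) : Prop :=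
  ∀ p ∈ sl, p.2 ≤ al + k * om ∨ al + (k + 1) * om ≤ p.1

/-- the good cells -/
def Ix (al om : ℝ) (sl : Finset (ℝ × ℝ)) (M : ℕ) : Type := {k : Fin M // Gd al om sl k}

noncomputable instance (al om : ℝ) (sl : Finset (ℝ × ℝ)) (M : ℕ) : Fintype (Ix al om sl M) := by
  classical
  unfold Ix
  infer_instance

/-- centre -/
noncomputable def tc (al om : ℝ) (k : ℕ) : ℝ := al + (k + 1 / 2) * om

/-- the bad cells of one sliver -/
theorem card_bad {al om x y : ℝ} (hom : 0 < om) (hx : al ≤ x) (hxy : x ≤ y) {M : ℕ}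
    (T : Finset (Fin M)) (hT : ∀ k ∈ T, x < al + ((k : ℕ) + 1) * om ∧ al + (k : ℕ) * om < y) :
    (T.card : ℝ) ≤ (y - x) / om + 2 := by
  set n0 := ⌊(x - al) / om⌋₊ with hn0
  set n1 := ⌈(y - al) / om⌉₊ with hn1
  have hx0 : 0 ≤ (x - al) / om := div_nonneg (by linarith) hom.le
  have hy0 : 0 ≤ (y - al) / om := div_nonneg (by linarith) hom.le
  have h1 : T.card ≤ (Finset.Ico n0 n1).card := by
    refine Finset.card_le_card_of_injOn (fun k : Fin M => (k : ℕ)) (fun k hk => ?_)
      (fun a _ b _ hab => Fin.ext hab)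
    obtain ⟨h2, h3⟩ := hT k hk
    simp only [Finset.coe_Ico, mem_Ico]
    constructor
    · have h4 : (x - al) / om < (k : ℕ) + 1 := by
        rw [div_lt_iff₀ hom]; linarith
      have h5 : ((n0 : ℕ) : ℝ) < ((k : ℕ) + 1 : ℕ) := by
        push_cast
        exact (Nat.floor_le hx0).trans_lt h4
      have h6 : n0 < (k : ℕ) + 1 := by exact_mod_cast h5
      omega
    · have h4 : ((k : ℕ) : ℝ) < (y - al) / om := by
        rw [lt_div_iff₀ hom]; linarith
      exact_mod_cast h4.trans_le (Nat.le_ceil _)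
  rw [Nat.card_Ico] at h1
  have h2 : ((n1 - n0 : ℕ) : ℝ) ≤ (y - x) / om + 2 := by
    have h3 : ((n1 : ℕ) : ℝ) < (y - al) / om + 1 := Nat.ceil_lt_add_one hy0
    have h4 : (x - al) / om < (n0 : ℕ) + 1 := Nat.lt_floor_add_one _
    have h5 : (y - x) / om = (y - al) / om - (x - al) / om := by ring
    rcases le_total n0 n1 with h6 | h6
    · rw [Nat.cast_sub h6, h5]; linarith
    · rw [Nat.sub_eq_zero_of_le h6, Nat.cast_zero]
      have := div_nonneg (by linarith : 0 ≤ y - x) hom.le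
      linarith
  exact (by exact_mod_cast h1 : (T.card : ℝ) ≤ ((n1 - n0 : ℕ) : ℝ)).trans h2

theorem sub_le_clam {l r t : ℝ} : min t r - l ≤ clam l r t := by
  unfold clam
  refine le_trans (le_of_eq ?_) (le_max_right _ _)
  rw [min_sub_sub_right]

/-- the number of good cells -/
theorem card_good {al be : ℝ} (hab : al < be) {M : ℕ} (hM : 0 < M) (sl : Finset (ℝ × ℝ))
    (hsl : ∀ p ∈ sl, p.1 ≤ p.2) {Lx : ℝ}
    (hL : ∑ p ∈ sl, (clam al be p.2 - clam al be p.1) ≤ Lx) :
    (M : ℝ) - (Lx / ((be - al) / M) + 2 * sl.card) ≤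
      (Fintype.card (Ix al ((be - al) / M) sl M) : ℝ) := by
  classical
  set om := (be - al) / M with hom
  have hM' : (0:ℝ) < M := by exact_mod_cast hM
  have hom0 : 0 < om := div_pos (by linarith) hM'
  have hMom : (M : ℝ) * om = be - al := by rw [hom]; field_simp
  set bad : ℝ × ℝ → Finset (Fin M) := fun p =>
    Finset.univ.filter fun k : Fin M => ¬ (p.2 ≤ al + (k : ℕ) * om ∨ al + ((k : ℕ) + 1) * om ≤ p.1)
    with hbad
  have hb : ∀ p ∈ sl, ((bad p).card : ℝ) ≤ (clam al be p.2 - clam al be p.1) / om + 2 := by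
    intro p hp
    have h1 := clam_mono al be (hsl p hp)
    have := card_bad (al := al) hom0 (x := al + clam al be p.1) (y := al + clam al be p.2)
      (by linarith [clam_nonneg al be p.1]) (by linarith) (bad p) (fun k hk => by
        rw [hbad] at hk
        simp only [Finset.mem_filter, Finset.mem_univ, true_and] at hk
        push Not at hk
        obtain ⟨h2, h3⟩ := hk
        have hk1 : (((k : ℕ) : ℝ) + 1) ≤ M := by exact_mod_cast k.2
        have hk0 : (0:ℝ) ≤ ((k : ℕ) : ℝ) := Nat.cast_nonneg _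
        have h4 : (((k : ℕ) : ℝ) + 1) * om ≤ M * om := mul_le_mul_of_nonneg_right hk1 hom0.le
        have h5 : 0 < (((k : ℕ) : ℝ) + 1) * om := mul_pos (by linarith) hom0
        constructor
        · have h6 : clam al be p.1 < (((k : ℕ) : ℝ) + 1) * om := by
            unfold clam
            exact max_lt h5 ((min_le_left _ _).trans_lt (by linarith))
          linarith
        · have h7 : al + ((k : ℕ) : ℝ) * om < be := by
            have : ((k : ℕ) : ℝ) * om < (((k : ℕ) : ℝ) + 1) * om := by nlinarith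
            linarith
          have h8 : al + ((k : ℕ) : ℝ) * om < min p.2 be := lt_min h2 h7
          have h9 := sub_le_clam (l := al) (r := be) (t := p.2)
          linarith)
    have e : al + clam al be p.2 - (al + clam al be p.1) = clam al be p.2 - clam al be p.1 := by
      ring
    rwa [e] at this
  have h2 : ((sl.biUnion bad).card : ℝ) ≤ Lx / om + 2 * sl.card := by
    calc ((sl.biUnion bad).card : ℝ) ≤ ((∑ p ∈ sl, (bad p).card : ℕ) : ℝ) := by
          exact_mod_cast Finset.card_biUnion_le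
      _ = ∑ p ∈ sl, ((bad p).card : ℝ) := by push_cast; rfl
      _ ≤ ∑ p ∈ sl, ((clam al be p.2 - clam al be p.1) / om + 2) := Finset.sum_le_sum hb
      _ = (∑ p ∈ sl, (clam al be p.2 - clam al be p.1)) / om + 2 * sl.card := by
          rw [Finset.sum_add_distrib, Finset.sum_div, Finset.sum_const, nsmul_eq_mul]; ring
      _ ≤ _ := by
          have := div_le_div_of_nonneg_right hL hom0.le
          linarith
  have h3 : Fintype.card (Ix al om sl M) = (Finset.univ \ sl.biUnion bad).card := by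
    rw [← Fintype.card_coe]
    refine Fintype.card_congr (Equiv.subtypeEquivRight fun k => ?_)
    simp only [Finset.mem_filter, Finset.mem_univ, true_and, Finset.mem_sdiff, Finset.mem_biUnion,
      hbad, not_exists, not_and, not_not]
    exact Iff.rfl
  rw [h3]
  have h4 := Finset.le_card_sdiff (sl.biUnion bad) (Finset.univ : Finset (Fin M))
  rw [Finset.card_univ, Fintype.card_fin] at h4
  have h5 : (M : ℝ) ≤ ((Finset.univ \ sl.biUnion bad).card : ℝ) + ((sl.biUnion bad).card : ℝ) := by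
    have : M ≤ (Finset.univ \ sl.biUnion bad).card + (sl.biUnion bad).card := by omega
    exact_mod_cast this
  linarith

/-- **thin bands** in the window `[al, be]` off the slivers `sl` -/
structure Thn (al be : ℝ) (sl : Finset (ℝ × ℝ)) (μ : ℝ) where
  M : ℕ
  e : ℝ
  hab : al < be
  M0 : 0 < M
  e0 : 0 < e
  eo : 8 * e ≤ (be - al) / M
  fill : be - al ≤ (1 + μ) * (Fintype.card (Ix al ((be - al) / M) sl M) * ((be - al) / M - 2 * e))

namespace Thn

variable {al be : ℝ} {sl : Finset (ℝ × ℝ)} {μ : ℝ} (T : Thn al be sl μ)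

/-- the step -/
noncomputable def om : ℝ := (be - al) / T.M

/-- the index set of the bands -/
abbrev I : Type := Ix al ((be - al) / T.M) sl T.M

/-- centre -/
noncomputable def c (i : T.I) : ℝ := tc al T.om (i.1 : ℕ)

/-- half width -/
noncomputable def w (_ : T.I) : ℝ := T.om / 2 - T.e

theorem om_pos : 0 < T.om := div_pos (by linarith [T.hab]) (by exact_mod_cast T.M0)

theorem w_pos (i : T.I) : 0 < T.w i := by
  have h1 := T.eo
  have h2 := T.om_pos
  have h3 := T.e0
  show 0 < T.om / 2 - T.e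
  change 8 * T.e ≤ T.om at h1
  linarith

theorem M_om : (T.M : ℝ) * T.om = be - al := by
  have : (T.M : ℝ) ≠ 0 := by
    have := T.M0
    positivity
  unfold om
  field_simp

theorem lo_eq (i : T.I) : T.c i - T.w i = al + ((i.1 : ℕ) : ℝ) * T.om + T.e := by
  unfold c w tc; ring

theorem hi_eq (i : T.I) : T.c i + T.w i = al + (((i.1 : ℕ) : ℝ) + 1) * T.om - T.e := by
  unfold c w tc; ring

theorem al_lt (i : T.I) : al < T.c i - T.w i := by
  rw [T.lo_eq]
  have := mul_nonneg (Nat.cast_nonneg (i.1 : ℕ) : (0:ℝ) ≤ _) T.om_pos.le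
  linarith [T.e0]

theorem lt_be (i : T.I) : T.c i + T.w i < be := by
  rw [T.hi_eq]
  have h1 : (((i.1 : ℕ) : ℝ) + 1) ≤ T.M := by exact_mod_cast i.1.2
  have := mul_le_mul_of_nonneg_right h1 T.om_pos.le
  linarith [T.e0, T.M_om]

/-- different bands -/
theorem sep {i j : T.I} (hij : i ≠ j) : T.w i + T.w j < |T.c i - T.c j| := by
  have hne : (i.1 : ℕ) ≠ (j.1 : ℕ) := fun h => hij (Subtype.ext (Fin.ext h))
  have e1 : T.c i - T.c j = (((i.1 : ℕ) : ℝ) - ((j.1 : ℕ) : ℝ)) * T.om := by unfold c tc; ring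
  have e2 : T.w i + T.w j = T.om - 2 * T.e := by unfold w; ring
  have h0 := T.om_pos
  rw [e1, e2, abs_mul, abs_of_pos h0]
  have h3 : (1:ℝ) ≤ |((i.1 : ℕ) : ℝ) - ((j.1 : ℕ) : ℝ)| := by
    rcases lt_or_gt_of_ne hne with h | h
    · have h' : (((i.1 : ℕ) : ℝ) + 1) ≤ ((j.1 : ℕ) : ℝ) := by exact_mod_cast h
      rw [abs_sub_comm]
      exact le_trans (by linarith) (le_abs_self _)
    · have h' : (((j.1 : ℕ) : ℝ) + 1) ≤ ((i.1 : ℕ) : ℝ) := by exact_mod_cast h
      exact le_trans (by linarith) (le_abs_self _)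
  have h4 := mul_le_mul_of_nonneg_right h3 h0.le
  linarith [T.e0]

theorem card_pos : 0 < Fintype.card T.I := by
  rw [Nat.pos_iff_ne_zero]
  intro h0
  have h1 := T.fill
  rw [show Fintype.card (Ix al ((be - al) / T.M) sl T.M) = 0 from h0, Nat.cast_zero, zero_mul,
    mul_zero] at h1
  linarith [T.hab]

/-- **the bands of the second staircase** -/
theorem bs : BS al be (fun i : T.I => T.c i - T.w i) (fun i => T.c i + T.w i) where
  ne := Fintype.card_pos_iff.1 T.card_pos
  lt := fun i => by linarith [T.w_pos i]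
  lo := T.al_lt
  hi := T.lt_be
  dis := fun i j hij => by
    have h1 := T.sep hij
    rcases abs_cases (T.c i - T.c j) with ⟨h2, -⟩ | ⟨h2, -⟩
    · right; linarith
    · left; linarith

theorem blen_eq : blen (fun i : T.I => T.c i - T.w i) (fun i => T.c i + T.w i) =
    Fintype.card T.I * (T.om - 2 * T.e) := by
  unfold blen
  have : ∀ i : T.I, (T.c i + T.w i - (T.c i - T.w i)) = T.om - 2 * T.e := fun i => by
    unfold w; ring
  simp only [this, Finset.sum_const, Finset.card_univ, nsmul_eq_mul]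

/-- the bands fill the window -/
theorem fill' : be - al ≤
    (1 + μ) * blen (fun i : T.I => T.c i - T.w i) (fun i => T.c i + T.w i) := by
  rw [T.blen_eq]; exact T.fill

/-- the slope on the bands -/
theorem slG_le {ς : ℝ} (h0 : 0 ≤ ς) (h1 : ς ≤ 1) (hμ : 0 ≤ μ) :
    slG al be (fun i : T.I => T.c i - T.w i) (fun i => T.c i + T.w i) ς ≤ 1 + μ :=
  T.bs.slG_le h0 h1 hμ T.fill'

/-- the displacement -/
theorem disp_le (hμ : 0 ≤ μ) :
    be - al - blen (fun i : T.I => T.c i - T.w i) (fun i => T.c i + T.w i) ≤ μ * (be - al) := by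
  have h1 := T.fill'
  have h2 := T.bs.blen_le
  have h3 := mul_le_mul_of_nonneg_left h2 hμ
  linarith

/-- a band meets no sliver -/
theorem off {i : T.I} {p : ℝ × ℝ} (hp : p ∈ sl) : p.2 < T.c i - T.w i ∨ T.c i + T.w i < p.1 := by
  rcases i.2 p hp with h | h
  · left; rw [T.lo_eq]
    have : p.2 ≤ al + ((i.1 : ℕ) : ℝ) * T.om := h
    linarith [T.e0]
  · right; rw [T.hi_eq]
    have : al + (((i.1 : ℕ) : ℝ) + 1) * T.om ≤ p.1 := h
    linarith [T.e0]

theorem noSl {i : T.I} {t : ℝ} (ht : |t - T.c i| ≤ T.w i) {p : ℝ × ℝ} (hp : p ∈ sl) :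
    t ∉ Icc p.1 p.2 := by
  obtain ⟨h1, h2⟩ := abs_le.1 ht
  rintro ⟨h3, h4⟩
  rcases T.off (i := i) hp with h | h <;> linarith

end Thn

/-- **existence of thin bands** -/
theorem exists_thn {al be : ℝ} (hab : al < be) (sl : Finset (ℝ × ℝ)) (hsl : ∀ p ∈ sl, p.1 ≤ p.2)
    {μ : ℝ} (hμ : 0 < μ) (hμ1 : μ ≤ 1)
    (hL : ∑ p ∈ sl, (clam al be p.2 - clam al be p.1) ≤ μ / 4 * (be - al)) {δ : ℝ} (hδ : 0 < δ) :
    ∃ M : ℕ, 0 < M ∧ (be - al) / M ≤ δ ∧ ∃ e₀ > 0, ∀ e, 0 < e → e ≤ e₀ →
      ∃ T : Thn al be sl μ, T.M = M ∧ T.e = e := by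
  have hab' : 0 < be - al := by linarith
  obtain ⟨M, hM⟩ := exists_nat_gt (max (32 * sl.card / μ) (max ((be - al) / δ) 1))
  have hM1 : 32 * (sl.card : ℝ) / μ < M := (le_max_left _ _).trans_lt hM
  have hM2 : (be - al) / δ < M := ((le_max_left _ _).trans (le_max_right _ _)).trans_lt hM
  have hM3 : (1:ℝ) < M := ((le_max_right _ _).trans (le_max_right _ _)).trans_lt hM
  have hM0 : 0 < M := by
    have : (0:ℝ) < M := by linarith
    exact_mod_cast this
  have hM' : (0:ℝ) < M := by linarith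
  set om := (be - al) / M with hom
  have hom0 : 0 < om := div_pos hab' hM'
  have hMom : (M : ℝ) * om = be - al := by rw [hom]; field_simp
  refine ⟨M, hM0, ?_, μ * om / 32, by positivity, fun e he hee => ?_⟩
  · rw [div_le_iff₀ hM']
    rw [div_lt_iff₀ hδ] at hM2
    linarith
  · have h8 : 8 * e ≤ om := by nlinarith
    have hcard := card_good hab hM0 sl hsl hL
    rw [← hom] at hcard
    have h1 : μ / 4 * (be - al) / om = μ / 4 * M := by
      rw [← hMom]; field_simp
    rw [h1] at hcard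
    have h2 : 2 * (sl.card : ℝ) ≤ μ / 16 * M := by
      rw [div_lt_iff₀ hμ] at hM1
      linarith
    have h3 : (1 - 5 * μ / 16) * M ≤ (Fintype.card (Ix al om sl M) : ℝ) := by linarith
    refine ⟨⟨M, e, hab, hM0, he, by rw [← hom]; exact h8, ?_⟩, rfl, rfl⟩
    rw [← hom]
    have h4 : (1 - μ / 16) * om ≤ om - 2 * e := by linarith
    have h5 : 0 ≤ (1 - 5 * μ / 16) * M := mul_nonneg (by linarith) hM'.le
    have h6 : (1 - 5 * μ / 16) * M * ((1 - μ / 16) * om) ≤
        Fintype.card (Ix al om sl M) * (om - 2 * e) :=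
      mul_le_mul h3 h4 (mul_nonneg (by linarith) hom0.le) (h5.trans h3)
    have h7 : (1 + μ) * ((1 - 5 * μ / 16) * M * ((1 - μ / 16) * om)) ≤
        (1 + μ) * (Fintype.card (Ix al om sl M) * (om - 2 * e)) :=
      mul_le_mul_of_nonneg_left h6 (by linarith)
    refine le_trans ?_ h7
    have h9 : (1 + μ) * ((1 - 5 * μ / 16) * M * ((1 - μ / 16) * om)) =
        ((1 + μ) * (1 - 5 * μ / 16) * (1 - μ / 16)) * (M * om) := by ring
    rw [h9, hMom]
    have h10 : 1 ≤ (1 + μ) * (1 - 5 * μ / 16) * (1 - μ / 16) := by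
      nlinarith [mul_nonneg hμ.le hμ.le, mul_nonneg hμ.le (by linarith : 0 ≤ 1 - μ),
        mul_nonneg (mul_nonneg hμ.le hμ.le) hμ.le]
    nlinarith

end P073.H429
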