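import Vale.Agent.P073.H919.HookIn
import Vale.Agent.P073.H429.ThinBands2

/-!
# P073, H429, K3C, **[T-HBOX]**: the boxes of the hook of the tubes

`Lat B`: lateral extents (asymmetric). `YB Y e`: the window of `B.E e` times the lateral box.
`thook`: the box of the hook with the thin bands `Thn` in the direction of the edge. `thookIn`: the input of the hook, from the
invariance of the faces of the drawn cells in finitely many zones (the centre, the arms).
-/

open Set Metric Topology Filter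

namespace P073.H429

open P073 P073.H236 P073.H936 P073.H936.K3 P073.H880 P073.H919
open Vale.Agent.P073.St (V)
open Vale.Agent.P073.AB (Idx)
open Vale.Agent.P073.H73 (Mesh)
open Vale.Agent.P073.H471 Vale.Agent.P073.H267
open P073.Net P073.PA691

section inv

variable {ι ι' : Type*} {E : Type} [NormedAddCommGroup E] [NormedSpace ℝ E]
  {side : ι → Bool} {ax : Bool → Fin 3} {c w : ι → ℝ} {side' : ι' → Bool} {ax' : Bool → Fin 3}
  {c' w' : ι' → ℝ} {U M : Set E} {h : E → Fin 3 → ℝ}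

/-- **band invariance from zones**: the points of `M` are in zones which are preserved by the moves
in the bands, and in every zone `M` is invariant in larger bands -/
theorem bandInv_zones {κ : Type*} {Z : κ → Set (Fin 3 → ℝ)}
    (hZ : ∀ x ∈ U, x ∈ M → ∃ a, h x ∈ Z a)
    (hup : ∀ a i, ∀ y ∈ Z a, |y (ax (side i)) - c i| ≤ w i → ∀ t, |t - c i| ≤ w i →
      Function.update y (ax (side i)) t ∈ Z a)
    (hB : ∀ a i, ∀ x ∈ U, ∀ x' ∈ U, h x ∈ Z a → h x' ∈ Z a →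
      |h x (ax (side i)) - c i| ≤ w i → |h x' (ax (side i)) - c i| ≤ w i →
      (∀ l, l ≠ ax (side i) → h x l = h x' l) → x ∈ M → x' ∈ M) :
    BandInv side ax c w U h M := by
  intro i x hx x' hx' h1 h2 h3 hxM
  obtain ⟨a, ha⟩ := hZ x hx hxM
  refine hB a i x hx x' hx' ha ?_ h1 h2 h3 hxM
  have e : h x' = Function.update (h x) (ax (side i)) (h x' (ax (side i))) := by
    funext l
    by_cases hl : l = ax (side i)
    · subst hl; rw [Function.update_self]
    · rw [Function.update_of_ne hl]; exact (h3 l hl).symm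
  rw [e]
  exact hup a i _ ha h1 _ h2

/-- thinner bands -/
theorem bandInv_thin {U' : Set E} (hB : BandInv side' ax' c' w' U' h M)
    (hsub : ∀ i, ∃ i', ax' (side' i') = ax (side i) ∧ ∀ t, |t - c i| ≤ w i → |t - c' i'| ≤ w' i') :
    BandInv side ax c w U' h M := by
  intro i x hx x' hx' h1 h2 h3 hxM
  obtain ⟨i', e, hs⟩ := hsub i
  refine hB i' x hx x' hx' ?_ ?_ ?_ hxM
  · rw [e]; exact hs _ h1
  · rw [e]; exact hs _ h2
  · rw [e]; exact h3

end inv

section tube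

variable {Ω Λ : Set V} {v : V} {K : BoxCx Λ v} {S : Rad K} {W : Wid K S} {B : Boxes W}

/-- lower end of the window of a tube -/
noncomputable def eal (W : Wid K S) (e : K.G) : ℝ := K.w (K.a e) (K.dir e) + W.wv (K.a e) / 2

/-- upper end of the window of a tube -/
noncomputable def ebe (W : Wid K S) (e : K.G) : ℝ := K.w (K.b e) (K.dir e) - W.wv (K.b e) / 2

theorem eal_lt_ebe (W : Wid K S) (e : K.G) : eal W e < ebe W e := by
  have hne : K.a e ≠ K.b e := by
    intro h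
    have := K.ab_dir e
    rw [h] at this
    exact lt_irrefl _ this
  have h1 := vdist S hne (l := K.dir e) fun k hk => K.ab_off e k hk
  have h2 := K.ab_dir e
  rw [abs_of_neg (by linarith)] at h1
  have h3 := W.wv_le (K.a e)
  have h4 := W.wv_le (K.b e)
  have h5 := S.r_pos (K.a e)
  have h6 := S.r_pos (K.b e)
  unfold eal ebe
  linarith

/-- **lateral extents** of the boxes of the tubes: `p` down, `q` up (per coordinate) -/
structure Lat (B : Boxes W) where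
  p : K.G → Fin 3 → ℝ
  q : K.G → Fin 3 → ℝ
  p0 : ∀ e k, 0 < p e k
  q0 : ∀ e k, 0 < q e k
  pT : ∀ e k, p e k ≤ B.T e
  qT : ∀ e k, q e k ≤ B.T e

/-- symmetric extents -/
noncomputable def Lat.sym (B : Boxes W) {c : ℝ} (h0 : 0 < c) (h1 : c ≤ 1) : Lat B where
  p := fun e _ => c * B.T e
  q := fun e _ => c * B.T e
  p0 := fun e _ => mul_pos h0 (B.T_pos e)
  q0 := fun e _ => mul_pos h0 (B.T_pos e)
  pT := fun e _ => by have := mul_le_mul_of_nonneg_right h1 (B.T_pos e).le; linarith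
  qT := fun e _ => by have := mul_le_mul_of_nonneg_right h1 (B.T_pos e).le; linarith

/-- larger extents -/
def Lat.add (Y : Lat B) (r : K.G → Fin 3 → ℝ) (hr : ∀ e k, 0 < r e k)
    (hp : ∀ e k, Y.p e k + r e k ≤ B.T e) (hq : ∀ e k, Y.q e k + r e k ≤ B.T e) : Lat B where
  p := fun e k => Y.p e k + r e k
  q := fun e k => Y.q e k + r e k
  p0 := fun e k => add_pos (Y.p0 e k) (hr e k)
  q0 := fun e k => add_pos (Y.q0 e k) (hr e k)
  pT := hp
  qT := hq

/-- lower corner -/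
noncomputable def ylo (Y : Lat B) (e : K.G) : V := fun k =>
  if k = K.dir e then eal W e else K.w (K.a e) k - Y.p e k

/-- upper corner -/
noncomputable def yhi (Y : Lat B) (e : K.G) : V := fun k =>
  if k = K.dir e then ebe W e else K.w (K.a e) k + Y.q e k

/-- **the box of the hook of a tube** -/
def YB (Y : Lat B) (e : K.G) : Set V := Icc (ylo Y e) (yhi Y e)

variable {Y Y' : Lat B}

theorem mem_YB {e : K.G} {y : V} : y ∈ YB Y e ↔
    (eal W e ≤ y (K.dir e) ∧ y (K.dir e) ≤ ebe W e) ∧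
      ∀ k, k ≠ K.dir e → K.w (K.a e) k - Y.p e k ≤ y k ∧ y k ≤ K.w (K.a e) k + Y.q e k := by
  constructor
  · intro h
    refine ⟨?_, fun k hk => ?_⟩
    · have h1 := h.1 (K.dir e)
      have h2 := h.2 (K.dir e)
      simp only [ylo, yhi, if_true] at h1 h2
      exact ⟨h1, h2⟩
    · have h1 := h.1 k
      have h2 := h.2 k
      simp only [ylo, yhi, if_neg hk] at h1 h2
      exact ⟨h1, h2⟩
  · rintro ⟨h1, h2⟩
    have key : ∀ k, ylo Y e k ≤ y k ∧ y k ≤ yhi Y e k := by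
      intro k
      by_cases hk : k = K.dir e
      · subst hk
        simp only [ylo, yhi, if_true]
        exact h1
      · simp only [ylo, yhi, if_neg hk]
        exact h2 k hk
    exact ⟨fun k => (key k).1, fun k => (key k).2⟩

theorem YB_mono (hp : ∀ e k, Y'.p e k ≤ Y.p e k) (hq : ∀ e k, Y'.q e k ≤ Y.q e k) (e : K.G) :
    YB Y' e ⊆ YB Y e := by
  intro y hy
  obtain ⟨h1, h2⟩ := mem_YB.1 hy
  exact mem_YB.2 ⟨h1, fun k hk => ⟨by linarith [(h2 k hk).1, hp e k],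
    by linarith [(h2 k hk).2, hq e k]⟩⟩

/-- the boxes are in the boxes `E` -/
theorem YB_sub_E (Y : Lat B) (e : K.G) : YB Y e ⊆ B.E e := by
  intro y hy
  obtain ⟨h1, h2⟩ := mem_YB.1 hy
  refine ⟨h1, fun k hk => ?_⟩
  have h3 := Y.pT e k
  have h4 := Y.qT e k
  have := h2 k hk
  show |y k - K.w (K.a e) k| ≤ B.T e
  rw [abs_le]
  constructor <;> linarith [this.1, this.2]

theorem YB_sym_one : YB (Lat.sym B one_pos le_rfl) = B.E := by
  funext e
  refine Subset.antisymm (YB_sub_E _ e) fun y hy => mem_YB.2 ⟨hy.1, fun k hk => ?_⟩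
  have h := abs_le.1 (hy.2 k hk)
  show K.w (K.a e) k - 1 * B.T e ≤ y k ∧ y k ≤ K.w (K.a e) k + 1 * B.T e
  rw [one_mul]
  constructor <;> linarith [h.1, h.2]

theorem YB_sub_se (Y : Lat B) (e : K.G) : YB Y e ⊆ W.se e :=
  (YB_sub_E Y e).trans ((B.E_subset e).trans Ze_subset)

theorem YB_sub (Y : Lat B) (e : K.G) : YB Y e ⊆ Λ :=
  (YB_sub_se Y e).trans ((se_subset e).trans (S.tube_sub e))

theorem YB_dis (Y Y' : Lat B) {e e' : K.G} (hne : e ≠ e') : Disjoint (YB Y e) (YB Y' e') :=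
  (disjoint_se (W := W) hne).mono (YB_sub_se Y e) (YB_sub_se Y' e')

theorem YB_lf (Y : Lat B) : ∀ z ∈ Λ, ∃ U ∈ 𝓝 z, {e | (YB Y e ∩ U).Nonempty}.Finite := by
  intro z hz
  obtain ⟨U, hU, hfin⟩ := S.lfTube z hz
  exact ⟨U, hU, hfin.subset fun e he =>
    he.mono (inter_subset_inter_left _ ((YB_sub_se Y e).trans (se_subset e)))⟩

/-- interior points -/
theorem mem_YB_interior {e : K.G} {y : V} (h1 : eal W e < y (K.dir e))
    (h2 : y (K.dir e) < ebe W e) (h3 : ∀ k, k ≠ K.dir e →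
      K.w (K.a e) k - Y.p e k < y k ∧ y k < K.w (K.a e) k + Y.q e k) :
    y ∈ interior (YB Y e) := by
  refine mem_interior.2 ⟨{z | ∀ k, ylo Y e k < z k ∧ z k < yhi Y e k}, fun z hz =>
    ⟨fun k => (hz k).1.le, fun k => (hz k).2.le⟩, ?_, fun k => ?_⟩
  · have e' : {z : V | ∀ k, ylo Y e k < z k ∧ z k < yhi Y e k} =
        ⋂ k, {z : V | ylo Y e k < z k} ∩ {z : V | z k < yhi Y e k} := by
      ext z; simp only [mem_ofPred_eq, mem_iInter, mem_inter_iff]
    rw [e']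
    exact isOpen_iInter_of_finite fun k =>
      (isOpen_lt continuous_const (continuous_apply k)).inter
        (isOpen_lt (continuous_apply k) continuous_const)
  · by_cases hk : k = K.dir e
    · subst hk
      simp only [ylo, yhi, if_true]
      exact ⟨h1, h2⟩
    · simp only [ylo, yhi, if_neg hk]
      exact h3 k hk

/-- points of the smaller box in the open window are interior points -/
theorem YB_interior (hp : ∀ e k, Y'.p e k < Y.p e k) (hq : ∀ e k, Y'.q e k < Y.q e k) {e : K.G}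
    {y : V} (hy : y ∈ YB Y' e) (h1 : eal W e < y (K.dir e)) (h2 : y (K.dir e) < ebe W e) :
    y ∈ interior (YB Y e) := by
  obtain ⟨-, h5⟩ := mem_YB.1 hy
  exact mem_YB_interior h1 h2 fun k hk => ⟨by linarith [(h5 k hk).1, hp e k],
    by linarith [(h5 k hk).2, hq e k]⟩

/-- moves in the direction of the edge -/
theorem YB_update {e : K.G} {y : V} (hy : y ∈ YB Y e) {t : ℝ}
    (h1 : eal W e ≤ t) (h2 : t ≤ ebe W e) : Function.update y (K.dir e) t ∈ YB Y e := by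
  obtain ⟨-, h4⟩ := mem_YB.1 hy
  refine mem_YB.2 ⟨by rw [Function.update_self]; exact ⟨h1, h2⟩, fun k hk => ?_⟩
  rw [Function.update_of_ne hk]; exact h4 k hk

/-- the two directions of the hook: the direction of the edge is `dax e true` -/
def dax (e : K.G) : Bool → Fin 3 := fun b => if b then K.dir e else K.dir e + 1

theorem dax_ne (e : K.G) : dax e true ≠ dax e false := by
  unfold dax
  simp only [if_true, Bool.false_eq_true, if_false]
  generalize K.dir e = k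
  fin_cases k <;> decide

variable {sl : Finset (ℝ × ℝ)} {μ : ℝ}

/-- **the bands of the hook of a tube** -/
theorem bands_tube {e : K.G} (T : Thn (eal W e) (ebe W e) sl μ) (Y : Lat B) :
    Bands (ι := T.I) (fun _ => true) (dax e) (ylo Y e) (yhi Y e) T.c T.w := by
  refine ⟨fun l => ?_, dax_ne e, fun i => ⟨T.w_pos i, ?_, ?_⟩, fun i j hij _ => T.sep hij⟩
  · by_cases hl : l = K.dir e
    · subst hl
      simp only [ylo, yhi, if_true]
      exact eal_lt_ebe W e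
    · simp only [ylo, yhi, if_neg hl]
      linarith [Y.p0 e l, Y.q0 e l]
  · show ylo Y e (K.dir e) < _
    simp only [ylo, if_true]
    exact T.al_lt i
  · show _ < yhi Y e (K.dir e)
    simp only [yhi, if_true]
    exact T.lt_be i

variable {M : Mesh Ω} {γ : Type*} {φ : γ → K.G}

/-- **the box of a tube** for the hook -/
noncomputable abbrev thook (Y : Lat B) (M : Mesh Ω) (φ : γ → K.G) {sl : γ → Finset (ℝ × ℝ)}
    {μ : γ → ℝ} (T : ∀ b, Thn (eal W (φ b)) (ebe W (φ b)) (sl b) (μ b))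
    (Zb : γ → Set M.ι) (b : γ) : HBox :=
  mbox M (Zb b) (T b).I (fun _ => true) (dax (φ b)) (ylo Y (φ b)) (yhi Y (φ b)) (T b).c
    (T b).w

section hook

variable {sl : γ → Finset (ℝ × ℝ)} {μ : γ → ℝ}
  {T : ∀ b, Thn (eal W (φ b)) (ebe W (φ b)) (sl b) (μ b)} {Zb : γ → Set M.ι}

theorem thook_P {b : γ} : (thook Y M φ T Zb b).P = YB Y (φ b) := rfl

/-- one family -/
theorem thook_one (b : γ) (i j : (thook Y M φ T Zb b).ι) :
    (thook Y M φ T Zb b).side i = (thook Y M φ T Zb b).side j := rfl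

theorem thook_fin (hφ : Function.Injective φ) : ∀ z ∈ Λ, ∃ O ∈ 𝓝 z,
    {b | ((thook Y M φ T Zb b).P ∩ O).Nonempty}.Finite := by
  intro z hz
  obtain ⟨U, hU, hfin⟩ := YB_lf Y z hz
  exact ⟨U, hU, (hfin.preimage (f := φ) hφ.injOn).subset fun b hb => hb⟩

theorem thook_dis (hφ : Function.Injective φ) : ∀ b b', b ≠ b' →
    Disjoint (interior (thook Y M φ T Zb b).P) (thook Y M φ T Zb b').P :=
  fun _ _ hb => (YB_dis Y Y fun e => hb (hφ e)).mono_left interior_subset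

/-- **[T-HBOX]** the input of the hook of the tubes -/
noncomputable def thookIn (Y : Lat B) {f : ConHomeo Ω Λ} {w : V}
    (idx : M.ι → Idx) (hQ : ∀ b, ∀ i ∈ Zb b, M.Q i = dyc w (idx i).1 (idx i).2)
    (hint : ∀ b, ∀ i ∈ Zb b, f.toFun '' M.Q i ⊆ interior (YB Y (φ b)))
    (hF : ∀ b, ∀ i ∈ Zb b, ∀ k, M.F k ⊆ M.Q i → BandInv (ι := (T b).I) (fun _ => true)
      (dax (φ b)) (T b).c (T b).w (f.invFun '' YB Y (φ b)) f.toFun (M.F k)) (b : γ) :
    (thook Y M φ T Zb b).In f :=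
  mboxIn (v := w) (bands_tube (T b) Y) (YB_sub Y (φ b)) idx (hQ b) (hint b) (hF b)

theorem thookIn_C {f : ConHomeo Ω Λ} {w : V}
    {idx : M.ι → Idx} {hQ : ∀ b, ∀ i ∈ Zb b, M.Q i = dyc w (idx i).1 (idx i).2}
    {hint : ∀ b, ∀ i ∈ Zb b, f.toFun '' M.Q i ⊆ interior (YB Y (φ b))}
    {hF : ∀ b, ∀ i ∈ Zb b, ∀ k, M.F k ⊆ M.Q i → BandInv (ι := (T b).I) (fun _ => true)
      (dax (φ b)) (T b).c (T b).w (f.invFun '' YB Y (φ b)) f.toFun (M.F k)} (b : γ)
    (q : (thook Y M φ T Zb b).Q) : (thookIn Y idx hQ hint hF b).K.C q = M.Q q.1 :=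
  mboxIn_C q

/-- **the faces of the drawn cells**: invariance from zones. `Z a`: the centre and the arms; every
zone contains the moves in the direction of the edge inside the window -/
theorem bandInv_tube {b : γ} {f : ConHomeo Ω Λ} {X : Set V} {κ : Type*}
    {Z : κ → Set V}
    (hZ : ∀ x ∈ Ω, x ∈ X → f.toFun x ∈ YB Y (φ b) → ∃ a, f.toFun x ∈ Z a)
    (hup : ∀ a, ∀ y ∈ Z a, y ∈ YB Y (φ b) → ∀ t, eal W (φ b) ≤ t → t ≤ ebe W (φ b) →
      Function.update y (K.dir (φ b)) t ∈ Z a)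
    (hB : ∀ a, ∀ i : (T b).I, ∀ x ∈ Ω, ∀ x' ∈ Ω, f.toFun x ∈ Z a → f.toFun x' ∈ Z a →
      f.toFun x ∈ YB Y (φ b) → f.toFun x' ∈ YB Y (φ b) →
      |f.toFun x (K.dir (φ b)) - (T b).c i| ≤ (T b).w i →
      |f.toFun x' (K.dir (φ b)) - (T b).c i| ≤ (T b).w i →
      (∀ l, l ≠ K.dir (φ b) → f.toFun x l = f.toFun x' l) → x ∈ X → x' ∈ X) :
    BandInv (ι := (T b).I) (fun _ => true) (dax (φ b)) (T b).c (T b).w
      (f.invFun '' YB Y (φ b)) f.toFun X := by
  have hU : ∀ x ∈ f.invFun '' YB Y (φ b), x ∈ Ω ∧ f.toFun x ∈ YB Y (φ b) := by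
    rintro _ ⟨y, hy, rfl⟩
    have hyΛ := YB_sub Y (φ b) hy
    exact ⟨f.mapsTo_inv hyΛ, by rw [f.right_inv hyΛ]; exact hy⟩
  refine bandInv_zones (Z := fun a => Z a ∩ YB Y (φ b)) (fun x hx hxX => ?_)
    (fun a i y hy _ t ht => ?_) (fun a i x hx x' hx' h1 h2 h3 h4 h5 hxX => ?_)
  · obtain ⟨hxΩ, hxY⟩ := hU x hx
    obtain ⟨a, ha⟩ := hZ x hxΩ hxX hxY
    exact ⟨a, ha, hxY⟩
  · obtain ⟨h1, h2⟩ := abs_le.1 ht
    have h3 := (T b).al_lt i
    have h4 := (T b).lt_be i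
    exact ⟨hup a y hy.1 hy.2 t (by linarith) (by linarith),
      YB_update hy.2 (by linarith) (by linarith)⟩
  · exact hB a i x (hU x hx).1 x' (hU x' hx').1 h1.1 h2.1 h1.2 h2.2 h3 h4 h5 hxX

end hook

/-! ### the second staircase of the tubes -/

section stair

variable {sl : γ → Finset (ℝ × ℝ)} {μ : γ → ℝ} {r : K.G → Fin 3 → ℝ} {hr : ∀ e k, 0 < r e k}
  {hp : ∀ e k, Y.p e k + r e k ≤ B.T e} {hq : ∀ e k, Y.q e k + r e k ≤ B.T e}

/-- the box map of the second staircase of a tube: full on `YB Y`, support `YB (Y.add r)` -/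
noncomputable def tX (Y : Lat B) (r : K.G → Fin 3 → ℝ) (hr : ∀ e k, 0 < r e k) {e : K.G}
    {sl : Finset (ℝ × ℝ)} {μ : ℝ} (T : Thn (eal W e) (ebe W e) sl μ) {ς : ℝ} (h0 : 0 < ς)
    (h1 : ς ≤ 1) : HX 3 :=
  T.bs.hx h0 h1 (K.dir e) (ylo Y e) (yhi Y e) (r e) (hr e)

theorem tX_K {e : K.G} {sl : Finset (ℝ × ℝ)} {μ : ℝ} {T : Thn (eal W e) (ebe W e) sl μ}
    {ς : ℝ} {h0 : 0 < ς} {h1 : ς ≤ 1} :
    (tX Y r hr T h0 h1).K = YB (Y.add r hr hp hq) e := by
  ext y
  rw [mem_YB]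
  constructor
  · intro hy
    refine ⟨hy.1, fun k hk => ?_⟩
    have := hy.2 k hk
    change ylo Y e k - r e k ≤ y k ∧ y k ≤ yhi Y e k + r e k at this
    simp only [ylo, yhi, if_neg hk] at this
    show K.w (K.a e) k - (Y.p e k + r e k) ≤ y k ∧ y k ≤ K.w (K.a e) k + (Y.q e k + r e k)
    constructor <;> linarith [this.1, this.2]
  · rintro ⟨h2, h3⟩
    refine ⟨h2, fun k hk => ?_⟩
    have h4 := h3 k hk
    change K.w (K.a e) k - (Y.p e k + r e k) ≤ y k ∧ y k ≤ K.w (K.a e) k + (Y.q e k + r e k) at h4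
    show ylo Y e k - r e k ≤ y k ∧ y k ≤ yhi Y e k + r e k
    have hk' : k ≠ K.dir e := hk
    simp only [ylo, yhi, if_neg hk']
    constructor <;> linarith [h4.1, h4.2]

theorem tX_full {e : K.G} {sl : Finset (ℝ × ℝ)} {μ : ℝ} {T : Thn (eal W e) (ebe W e) sl μ}
    {ς : ℝ} {h0 : 0 < ς} {h1 : ς ≤ 1} {y : V} :
    (tX Y r hr T h0 h1).Full y ↔ y ∈ YB Y e := by
  rw [mem_YB]
  constructor
  · intro hy
    refine ⟨hy.1, fun k hk => ?_⟩
    have := hy.2 k hk
    change ylo Y e k ≤ y k ∧ y k ≤ yhi Y e k at this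
    simp only [ylo, yhi, if_neg hk] at this
    exact this
  · rintro ⟨h2, h3⟩
    refine ⟨h2, fun k hk => ?_⟩
    show ylo Y e k ≤ y k ∧ y k ≤ yhi Y e k
    have hk' : k ≠ K.dir e := hk
    simp only [ylo, yhi, if_neg hk']
    exact h3 k hk

/-- **the family of the second staircase of the tubes**: full on `YB Y`, support
`YB (Y.add r)` -/
noncomputable def tfam (Y : Lat B) (r : K.G → Fin 3 → ℝ) (hr : ∀ e k, 0 < r e k)
    (hp : ∀ e k, Y.p e k + r e k ≤ B.T e) (hq : ∀ e k, Y.q e k + r e k ≤ B.T e)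
    (hφ : Function.Injective φ)
    (T : ∀ b, Thn (eal W (φ b)) (ebe W (φ b)) (sl b) (μ b)) {ς : γ → ℝ} (h0 : ∀ b, 0 < ς b)
    (h1 : ∀ b, ς b ≤ 1) : HFam 3 γ Λ where
  X := fun b => tX Y r hr (T b) (h0 b) (h1 b)
  sub := fun b => by rw [tX_K (hp := hp) (hq := hq)]; exact YB_sub _ (φ b)
  lf := by
    intro z hz
    obtain ⟨U, hU, hfin⟩ := YB_lf (Y.add r hr hp hq) z hz
    refine ⟨U, hU, (hfin.preimage (f := φ) hφ.injOn).subset ?_⟩
    rintro b hb
    simp only [mem_ofPred_eq, tX_K (hp := hp) (hq := hq)] at hb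
    exact hb
  dis := fun b b' hb => by
    rw [tX_K (hp := hp) (hq := hq), tX_K (hp := hp) (hq := hq)]
    exact (YB_dis _ _ fun e => hb (hφ e)).mono_left interior_subset

variable {T : ∀ b, Thn (eal W (φ b)) (ebe W (φ b)) (sl b) (μ b)} {hφ : Function.Injective φ}
  {ς : γ → ℝ} {h0 : ∀ b, 0 < ς b} {h1 : ∀ b, ς b ≤ 1} {S' : ConHomeo Λ Λ}

/-- **the estimate on the box of the hook**: the levels of the bands and a small error -/
theorem abs_tfam_sub_le (hμ : ∀ b, 0 ≤ μ b) (hS : (tfam Y r hr hp hq hφ T h0 h1).IsH S') {b : γ}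
    {y y' : V} (hy : y ∈ YB Y (φ b)) (hy' : y' ∈ YB Y (φ b)) :
    |S'.toFun y (K.dir (φ b)) - S'.toFun y' (K.dir (φ b))| ≤ (1 + μ b) *
      ∑ i : (T b).I, |clam ((T b).c i - (T b).w i) ((T b).c i + (T b).w i) (y (K.dir (φ b))) -
        clam ((T b).c i - (T b).w i) ((T b).c i + (T b).w i) (y' (K.dir (φ b)))| +
      ς b * |y (K.dir (φ b)) - y' (K.dir (φ b))| := by
  refine (abs_isH_sub_le hS (b := b) (T b).bs (h0 b) (h1 b) rfl
    ((tX_full (hr := hr) (h0 := h0 b) (h1 := h1 b)).2 hy)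
    ((tX_full (hr := hr) (h0 := h0 b) (h1 := h1 b)).2 hy')).trans ?_
  refine add_le_add (mul_le_mul_of_nonneg_right ((T b).slG_le (h0 b).le (h1 b) (hμ b))
    (Finset.sum_nonneg fun _ _ => abs_nonneg _)) le_rfl

/-- Lipschitz bound on the support: the fade costs `μ L / ρ` -/
theorem abs_tfam_lip (hμ : ∀ b, 0 ≤ μ b) (hS : (tfam Y r hr hp hq hφ T h0 h1).IsH S') {b : γ}
    {y y' : V} (hy : y ∈ YB (Y.add r hr hp hq) (φ b)) (hy' : y' ∈ YB (Y.add r hr hp hq) (φ b))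
    {ρ : ℝ} (hρ : 0 < ρ) (hρr : ∀ k, ρ ≤ r (φ b) k) {d : ℝ} (hd0 : 0 ≤ d)
    (hd : ∀ i, i ≠ K.dir (φ b) → |y i - y' i| ≤ d) :
    |S'.toFun y (K.dir (φ b)) - S'.toFun y' (K.dir (φ b))| ≤
      (1 + μ b) * |y (K.dir (φ b)) - y' (K.dir (φ b))| +
      μ b * (ebe W (φ b) - eal W (φ b)) * (d / ρ) := by
  have h2 := abs_isH_lip hS (b := b) (T b).bs (h0 b) (h1 b) rfl hρ hρr
    (by show y ∈ (tX Y r hr (T b) (h0 b) (h1 b)).K; rw [tX_K (hp := hp) (hq := hq)]; exact hy)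
    (by show y' ∈ (tX Y r hr (T b) (h0 b) (h1 b)).K; rw [tX_K (hp := hp) (hq := hq)]; exact hy')
    hd hd0
  refine h2.trans (add_le_add (mul_le_mul_of_nonneg_right
    ((T b).slG_le (h0 b).le (h1 b) (hμ b)) (abs_nonneg _)) ?_)
  exact mul_le_mul_of_nonneg_right ((T b).disp_le (hμ b)) (div_nonneg hd0 hρ.le)

/-- the other coordinates are not changed, displacement, off the boxes -/
theorem tfam_ne (hS : (tfam Y r hr hp hq hφ T h0 h1).IsH S') {b : γ} {y : V}
    (hy : y ∈ YB (Y.add r hr hp hq) (φ b)) {i : Fin 3} (hi : i ≠ K.dir (φ b)) :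
    S'.toFun y i = y i :=
  hS.ne (b := b) (by
    show y ∈ (tX Y r hr (T b) (h0 b) (h1 b)).K; rw [tX_K (hp := hp) (hq := hq)]; exact hy) hi

theorem tfam_disp (hμ : ∀ b, 0 ≤ μ b) (hS : (tfam Y r hr hp hq hφ T h0 h1).IsH S') {b : γ} {y : V}
    (hy : y ∈ YB (Y.add r hr hp hq) (φ b)) :
    ‖S'.toFun y - y‖ ≤ μ b * (ebe W (φ b) - eal W (φ b)) :=
  (hS.norm_sub_le (b := b) (by
    show y ∈ (tX Y r hr (T b) (h0 b) (h1 b)).K; rw [tX_K (hp := hp) (hq := hq)]; exact hy)).trans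
    ((T b).disp_le (hμ b))

theorem tfam_off (hS : (tfam Y r hr hp hq hφ T h0 h1).IsH S') {y : V}
    (hy : ∀ b, y ∉ YB (Y.add r hr hp hq) (φ b)) : S'.toFun y = y :=
  hS.off y fun b => by
    show y ∉ (tX Y r hr (T b) (h0 b) (h1 b)).K
    rw [tX_K (hp := hp) (hq := hq)]; exact hy b

/-- the boxes between are preserved -/
theorem tfam_mem (hS : (tfam Y r hr hp hq hφ T h0 h1).IsH S') {b : γ} {y : V} (hyΛ : y ∈ Λ)
    {Z : Lat B} (hZp : ∀ e k, Z.p e k ≤ Y.p e k + r e k) (hZq : ∀ e k, Z.q e k ≤ Y.q e k + r e k) :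
    S'.toFun y ∈ YB Z (φ b) ↔ y ∈ YB Z (φ b) := by
  have hZ : YB Z (φ b) ⊆ YB (Y.add r hr hp hq) (φ b) := YB_mono hZp hZq (φ b)
  have key : ∀ y, y ∈ YB (Y.add r hr hp hq) (φ b) → S'.toFun y ∈ YB (Y.add r hr hp hq) (φ b) :=
      fun y hy => by
    have := hS.mem (b := b) (y := y) (by
      show y ∈ (tX Y r hr (T b) (h0 b) (h1 b)).K; rw [tX_K (hp := hp) (hq := hq)]; exact hy)
    change S'.toFun y ∈ (tX Y r hr (T b) (h0 b) (h1 b)).K at this
    rwa [tX_K (hp := hp) (hq := hq)] at this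
  have key' : S'.toFun y ∈ YB (Y.add r hr hp hq) (φ b) → y ∈ YB (Y.add r hr hp hq) (φ b) :=
      fun h => by
    have h2 := (hS.mem_iff (b := b) hyΛ).1 (by
      show S'.toFun y ∈ (tX Y r hr (T b) (h0 b) (h1 b)).K
      rw [tX_K (hp := hp) (hq := hq)]; exact h)
    change y ∈ (tX Y r hr (T b) (h0 b) (h1 b)).K at h2
    rwa [tX_K (hp := hp) (hq := hq)] at h2
  constructor
  · intro h
    have hy := key' (hZ h)
    obtain ⟨-, h3⟩ := mem_YB.1 h
    obtain ⟨h4, -⟩ := mem_YB.1 hy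
    refine mem_YB.2 ⟨h4, fun k hk => ?_⟩
    rw [← tfam_ne hS hy hk]; exact h3 k hk
  · intro h
    have hy := hZ h
    obtain ⟨h4, -⟩ := mem_YB.1 (key y hy)
    obtain ⟨-, h3⟩ := mem_YB.1 h
    refine mem_YB.2 ⟨h4, fun k hk => ?_⟩
    rw [tfam_ne hS hy hk]; exact h3 k hk

end stair

end tube

end P073.H429
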