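import Vale.Agent.P073.H429.THk
import Vale.Agent.P073.H669.TBd2
import Vale.Agent.P073.H238.RT0
import Vale.Agent.P073.H142.FaceT

/-!
# P073, H429, K3C: the existence of the layer of the tubes

`YT G S₀`: the boxes of the hook (extents `T / 2` in the directions of the processed plates `S₀`,
`uT / 2` in the other directions).  `slF`: the slivers for the thin bands at an edge: the slivers
of ROUND T fattened by `D`, and the gaps of the bands of ROUND P.  `exists_thnF`, `thnF_noSl`,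
`thnF_P`.  `exists_tlayer`: hook and second staircase.
-/

open Set Metric Topology Filter

namespace P073.H429

open P073 P073.H936 P073.H936.K3 P073.H142 P073.H880 P073.H919 P073.H236
open Vale.Agent.P073.St (V)
open Vale.Agent.P073.AB (Idx)
open Vale.Agent.P073.H73 (Mesh)
open Vale.Agent.P073.H471 Vale.Agent.P073.H267
open Vale.Agent.P073.H669 (Bds gap eLo eHi sqE mem_sqE tbSl mem_tbSl tbSl_le gap_le sum_gap_le
  in_band)
open Vale.Agent.P073.H238.K3 (SlIn)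
open P073.Net P073.PA691

/-! ### the extents -/

section extents

variable {Λ : Set V} {v : V} {K : BoxCx Λ v} {S : Rad K} {W : Wid K S} {B : Boxes W}

/-- a plate of `S₀` at the edge `e`, below it in direction `k` -/
def Low (S₀ : Set K.S) (e : K.G) (k : Fin 3) : Prop :=
  ∃ s ∈ S₀, K.edge e ⊆ K.sq s ∧ K.slo s k < K.w (K.a e) k

/-- a plate of `S₀` at the edge `e`, above it in direction `k` -/
def Upp (S₀ : Set K.S) (e : K.G) (k : Fin 3) : Prop :=
  ∃ s ∈ S₀, K.edge e ⊆ K.sq s ∧ K.w (K.a e) k < K.shi s k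

theorem uT_le_T (G : Geo B) (e : K.G) : 16 * G.uT e ≤ B.T e := by
  have h1 := G.uT_lam e
  have h2 := G.lam_T e
  linarith

open Classical in
/-- **the boxes of the hook of the tubes** -/
noncomputable def YT (G : Geo B) (S₀ : Set K.S) : Lat B where
  p := fun e k => if Low S₀ e k then B.T e / 2 else G.uT e / 2
  q := fun e k => if Upp S₀ e k then B.T e / 2 else G.uT e / 2
  p0 := fun e k => by
    have h1 := B.T_pos e
    have h2 := G.uT_pos e
    split_ifs <;> linarith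
  q0 := fun e k => by
    have h1 := B.T_pos e
    have h2 := G.uT_pos e
    split_ifs <;> linarith
  pT := fun e k => by
    have h1 := B.T_pos e
    have h2 := uT_le_T G e
    have h3 := G.uT_pos e
    split_ifs <;> linarith
  qT := fun e k => by
    have h1 := B.T_pos e
    have h2 := uT_le_T G e
    have h3 := G.uT_pos e
    split_ifs <;> linarith

variable (G : Geo B) (S₀ : Set K.S)

theorem YT_p_low {e : K.G} {k : Fin 3} (h : Low S₀ e k) : (YT G S₀).p e k = B.T e / 2 := if_pos h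

theorem YT_q_upp {e : K.G} {k : Fin 3} (h : Upp S₀ e k) : (YT G S₀).q e k = B.T e / 2 := if_pos h

theorem YT_p_not {e : K.G} {k : Fin 3} (h : ¬ Low S₀ e k) : (YT G S₀).p e k = G.uT e / 2 :=
  if_neg h

theorem YT_q_not {e : K.G} {k : Fin 3} (h : ¬ Upp S₀ e k) : (YT G S₀).q e k = G.uT e / 2 :=
  if_neg h

theorem YT_p_le (e : K.G) (k : Fin 3) : (YT G S₀).p e k ≤ B.T e / 2 := by
  have h1 := B.T_pos e
  have h2 := uT_le_T G e
  by_cases h : Low S₀ e k
  · rw [YT_p_low G S₀ h]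
  · rw [YT_p_not G S₀ h]; linarith

theorem YT_q_le (e : K.G) (k : Fin 3) : (YT G S₀).q e k ≤ B.T e / 2 := by
  have h1 := B.T_pos e
  have h2 := uT_le_T G e
  by_cases h : Upp S₀ e k
  · rw [YT_q_upp G S₀ h]
  · rw [YT_q_not G S₀ h]; linarith

theorem YT_p_ge (e : K.G) (k : Fin 3) : G.uT e / 2 ≤ (YT G S₀).p e k := by
  have h1 := B.T_pos e
  have h2 := uT_le_T G e
  by_cases h : Low S₀ e k
  · rw [YT_p_low G S₀ h]; linarith [G.uT_pos e]
  · rw [YT_p_not G S₀ h]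

theorem YT_q_ge (e : K.G) (k : Fin 3) : G.uT e / 2 ≤ (YT G S₀).q e k := by
  have h1 := B.T_pos e
  have h2 := uT_le_T G e
  by_cases h : Upp S₀ e k
  · rw [YT_q_upp G S₀ h]; linarith [G.uT_pos e]
  · rw [YT_q_not G S₀ h]

/-- the width of the fade -/
noncomputable def rT (G : Geo B) (e : K.G) (_ : Fin 3) : ℝ := G.uT e / 4

theorem rT_pos (e : K.G) (k : Fin 3) : 0 < rT G e k := by
  unfold rT; linarith [G.uT_pos e]

theorem YT_p_lt (e : K.G) (k : Fin 3) : (YT G S₀).p e k + rT G e k < B.T e := by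
  have h1 := YT_p_le G S₀ e k
  have h2 := uT_le_T G e
  have h3 := B.T_pos e
  unfold rT
  linarith

theorem YT_q_lt (e : K.G) (k : Fin 3) : (YT G S₀).q e k + rT G e k < B.T e := by
  have h1 := YT_q_le G S₀ e k
  have h2 := uT_le_T G e
  have h3 := B.T_pos e
  unfold rT
  linarith

/-- **the full zone of the last staircase**: extents `T / 2` in all directions.  The fade is off the
boxes of ROUND T in all directions -/
noncomputable def YS (_ : Geo B) : Lat B where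
  p := fun e _ => B.T e / 2
  q := fun e _ => B.T e / 2
  p0 := fun e _ => half_pos (B.T_pos e)
  q0 := fun e _ => half_pos (B.T_pos e)
  pT := fun e _ => by linarith [B.T_pos e]
  qT := fun e _ => by linarith [B.T_pos e]

theorem YS_p (e : K.G) (k : Fin 3) : (YS G).p e k = B.T e / 2 := rfl

theorem YS_q (e : K.G) (k : Fin 3) : (YS G).q e k = B.T e / 2 := rfl

theorem YS_p_lt (e : K.G) (k : Fin 3) : (YS G).p e k + rT G e k < B.T e := by
  have h2 := uT_le_T G e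
  have h3 := B.T_pos e
  rw [YS_p]
  unfold rT
  linarith

theorem YS_q_lt (e : K.G) (k : Fin 3) : (YS G).q e k + rT G e k < B.T e := by
  have h2 := uT_le_T G e
  have h3 := B.T_pos e
  rw [YS_q]
  unfold rT
  linarith

/-- the box of the hook is in the full zone of the staircase -/
theorem YT_YS_p (e : K.G) (k : Fin 3) : (YT G S₀).p e k ≤ (YS G).p e k := YT_p_le G S₀ e k

theorem YT_YS_q (e : K.G) (k : Fin 3) : (YT G S₀).q e k ≤ (YS G).q e k := YT_q_le G S₀ e k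

/-- in a direction without a processed plate the box is in the full zone of ROUND T -/
theorem YT_mem_uT {e : K.G} {y : V} (hy : y ∈ YB ((YT G S₀).add (rT G) (rT_pos G)
      (fun e k => (YT_p_lt G S₀ e k).le) fun e k => (YT_q_lt G S₀ e k).le) e) {k : Fin 3}
    (hk : k ≠ K.dir e) : (¬ Low S₀ e k → K.w (K.a e) k - 3 / 4 * G.uT e ≤ y k) ∧
      (¬ Upp S₀ e k → y k ≤ K.w (K.a e) k + 3 / 4 * G.uT e) := by
  obtain ⟨-, h⟩ := mem_YB.1 hy
  have h1 := h k hk
  change K.w (K.a e) k - ((YT G S₀).p e k + rT G e k) ≤ y k ∧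
    y k ≤ K.w (K.a e) k + ((YT G S₀).q e k + rT G e k) at h1
  unfold rT at h1
  constructor
  · intro h2
    rw [YT_p_not G S₀ h2] at h1
    linarith [h1.1]
  · intro h2
    rw [YT_q_not G S₀ h2] at h1
    linarith [h1.2]

end extents

/-! ### the slivers -/

/-- fattened slivers -/
noncomputable def fat (sl : Finset (ℝ × ℝ)) (D : ℝ) : Finset (ℝ × ℝ) := by
  classical exact sl.image fun p => (p.1 - D, p.2 + D)

theorem mem_fat {sl : Finset (ℝ × ℝ)} {D : ℝ} {p : ℝ × ℝ} :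
    p ∈ fat sl D ↔ ∃ p' ∈ sl, p = (p'.1 - D, p'.2 + D) := by
  classical
  unfold fat
  rw [Finset.mem_image]
  exact ⟨fun ⟨p', h1, h2⟩ => ⟨p', h1, h2.symm⟩, fun ⟨p', h1, h2⟩ => ⟨p', h1, h2.symm⟩⟩

theorem fat_le {sl : Finset (ℝ × ℝ)} {D : ℝ} (hD : 0 ≤ D) (h : ∀ p ∈ sl, p.1 ≤ p.2) :
    ∀ p ∈ fat sl D, p.1 ≤ p.2 := by
  intro p hp
  obtain ⟨p', h1, rfl⟩ := mem_fat.1 hp
  have := h p' h1
  show p'.1 - D ≤ p'.2 + D
  linarith

/-- **the length of the fattened slivers in the window**: the end slivers do not count -/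
theorem sum_fat_le {al be D q₀ q₁ q₂ q₃ : ℝ} {sl inner : Finset (ℝ × ℝ)} (hab : al ≤ be)
    (hD : 0 ≤ D) (h1 : q₁ + D ≤ al) (h2 : be ≤ q₂ - D)
    (hsl : ∀ p ∈ sl, p = (q₀, q₁) ∨ p = (q₂, q₃) ∨ p ∈ inner) (hin : ∀ p ∈ inner, p.1 ≤ p.2) :
    ∑ p ∈ fat sl D, (clam al be p.2 - clam al be p.1) ≤
      ∑ p ∈ inner, (p.2 - p.1) + 2 * D * sl.card := by
  classical
  have e1 : ∑ p ∈ fat sl D, (clam al be p.2 - clam al be p.1) =
      ∑ p ∈ sl, (clam al be (p.2 + D) - clam al be (p.1 - D)) := by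
    unfold fat
    rw [Finset.sum_image]
    intro a _ b _ hab'
    have h3 := congrArg Prod.fst hab'
    have h4 := congrArg Prod.snd hab'
    change a.1 - D = b.1 - D at h3
    change a.2 + D = b.2 + D at h4
    exact Prod.ext (by linarith) (by linarith)
  have key : ∀ p ∈ sl, clam al be (p.2 + D) - clam al be (p.1 - D) ≤
      (if p ∈ inner then p.2 - p.1 else 0) + 2 * D := by
    intro p hp
    by_cases hpi : p ∈ inner
    · rw [if_pos hpi]
      have h3 := hin p hpi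
      have := clam_sub_le (l := al) (r := be) (s := p.1 - D) (t := p.2 + D) (by linarith)
      linarith
    · rw [if_neg hpi]
      rcases hsl p hp with h | h | h
      · have e2 : clam al be (p.2 + D) = 0 := clam_of_le (by rw [h]; exact h1)
        have e3 := clam_nonneg al be (p.1 - D)
        linarith
      · have e2 : clam al be (p.1 - D) = be - al := by
          refine clam_of_ge hab ?_
          rw [h]; exact h2
        have e3 : clam al be (p.2 + D) ≤ be - al := clam_le_len hab _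
        linarith
      · exact absurd h hpi
  rw [e1]
  refine (Finset.sum_le_sum key).trans ?_
  rw [Finset.sum_add_distrib, Finset.sum_const, nsmul_eq_mul, ← Finset.sum_filter]
  have h5 : ∑ p ∈ sl.filter (fun p => p ∈ inner), (p.2 - p.1) ≤ ∑ p ∈ inner, (p.2 - p.1) := by
    refine Finset.sum_le_sum_of_subset_of_nonneg (fun p hp => (Finset.mem_filter.1 hp).2) ?_
    intro p hp _
    have := hin p hp
    linarith
  have h6 : (sl.card : ℝ) * (2 * D) = 2 * D * sl.card := by ring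
  linarith

section slivers

variable {Λ : Set V} {v : V} {K : BoxCx Λ v} {S : Rad K} {W : Wid K S} {B : Boxes W}

/-- a sum over all slivers at an edge -/
theorem sum_tbSl_le' {e : K.G} {gT : Finset (ℝ × ℝ)} {gP : K.S → Finset (ℝ × ℝ)}
    {f : ℝ × ℝ → ℝ} (hf : ∀ p : ℝ × ℝ, p.1 ≤ p.2 → 0 ≤ f p)
    (h1 : ∀ p ∈ gT, p.1 ≤ p.2) (h2 : ∀ s, ∀ p ∈ gP s, p.1 ≤ p.2) :
    ∑ p ∈ tbSl e gT gP, f p ≤ ∑ p ∈ gT, f p + ∑ s ∈ sqE e, ∑ p ∈ gP s, f p := by
  classical
  have key : ∀ (A B : Finset (ℝ × ℝ)), (∀ p ∈ A, p.1 ≤ p.2) →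
      ∑ p ∈ A ∪ B, f p ≤ ∑ p ∈ A, f p + ∑ p ∈ B, f p := by
    intro A B hA
    have h3 := Finset.sum_union_inter (s₁ := A) (s₂ := B) (f := f)
    have h4 : 0 ≤ ∑ p ∈ A ∩ B, f p := Finset.sum_nonneg fun p hp =>
      hf p (hA p (Finset.mem_inter.1 hp).1)
    linarith
  have h5 : ∀ F : Finset K.S, ∑ p ∈ F.biUnion gP, f p ≤ ∑ s ∈ F, ∑ p ∈ gP s, f p := by
    intro F
    induction F using Finset.induction_on with
    | empty => simp
    | insert s F hs ih =>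
      rw [Finset.biUnion_insert, Finset.sum_insert hs]
      have := key (gP s) (F.biUnion gP) (h2 s)
      linarith
  unfold tbSl
  have h6 := key gT ((sqE e).biUnion gP) h1
  have h7 := h5 (sqE e)
  linarith

open Classical in
/-- **the slivers at an edge**: the slivers `sl` of ROUND T, fattened by `D`, and the gaps of the
bands of ROUND P of the squares of `S₀` at the edge -/
noncomputable def slF (S₀ : Set K.S) (e : K.G) (sl : Finset (ℝ × ℝ)) (D : ℝ) (Ns : K.S → ℕ)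
    (P P' : K.S → ℕ → ℝ) : Finset (ℝ × ℝ) :=
  tbSl e (fat sl D) fun s => if s ∈ S₀ ∧ K.edge e ⊆ K.sq s then gap (Ns s) (P s) (P' s) 0 else ∅

variable {S₀ : Set K.S} {e : K.G} {sl : Finset (ℝ × ℝ)} {D : ℝ} {Ns : K.S → ℕ}
  {P P' : K.S → ℕ → ℝ}

theorem slF_le (hD : 0 ≤ D) (hsl : ∀ p ∈ sl, p.1 ≤ p.2)
    (HP : ∀ s ∈ S₀, K.edge e ⊆ K.sq s → Bds (Ns s) (P s) (P' s)) :
    ∀ p ∈ slF S₀ e sl D Ns P P', p.1 ≤ p.2 := by
  classical
  refine tbSl_le (fat_le hD hsl) fun s p hp => ?_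
  split_ifs at hp with hs
  · exact gap_le (HP s hs.1 hs.2) le_rfl p hp
  · exact absurd hp (Finset.notMem_empty p)

/-- **thin bands in the window of the tube**, from the slivers of ROUND T -/
theorem exists_thnF (G : Geo B) {ω : TBx K → ℝ} {σ : ℝ} (hIn : SlIn G ω (.inl e) σ sl)
    (hω : 62 * ω (.inl e) ≤ G.be (K.a e)) (hω' : 62 * ω (.inl e) ≤ G.be (K.b e))
    (hsl : ∀ p ∈ sl, p.1 ≤ p.2) (hD : 0 ≤ D) (hDe : D ≤ G.be (K.a e)) (hDe' : D ≤ G.be (K.b e))
    (HP : ∀ s ∈ S₀, K.edge e ⊆ K.sq s → Bds (Ns s) (P s) (P' s)) {gP : K.S → ℝ}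
    (hgP : ∀ s, 0 ≤ gP s)
    (hP : ∀ s ∈ S₀, K.edge e ⊆ K.sq s → ∀ k, k + 1 < Ns s → P s (k + 1) - P' s k ≤ gP s)
    {μ : ℝ} (hμ : 0 < μ) (hμ1 : μ ≤ 1) (hσ : σ + 2 * D * sl.card ≤ μ / 8 * (eHi W e - eLo W e))
    (hNs : ∀ s ∈ S₀, K.edge e ⊆ K.sq s →
      Ns s * gP s * (8 * ((sqE e).card + 1)) ≤ μ * (eHi W e - eLo W e)) {δ : ℝ} (hδ : 0 < δ) :
    ∃ M : ℕ, 0 < M ∧ (eHi W e - eLo W e) / M ≤ δ ∧ ∃ e₀ > 0, ∀ ε, 0 < ε → ε ≤ e₀ →
      ∃ Th : Thn (eLo W e) (eHi W e) (slF S₀ e sl D Ns P P') μ, Th.M = M ∧ Th.e = ε := by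
  classical
  have hl : 0 < eHi W e - eLo W e := by
    have h1 := Vale.Agent.P073.H669.eLo_lt (W := W) G e
    have h2 := G.be_pos (K.a e)
    linarith
  refine exists_thn (by linarith) _ (slF_le hD hsl HP) hμ hμ1 ?_ hδ
  obtain ⟨q₀, q₁, q₂, q₃, inner, -, -, h1, h2, h3, h4, -, -, -, -, h5, h6, h7⟩ := hIn
  obtain ⟨h8, h9⟩ := Vale.Agent.P073.H669.eLo_T (W := W) G e
  have hba := G.be_pos (K.a e)
  have hbb := G.be_pos (K.b e)
  have hA : ∑ p ∈ fat sl D, (clam (eLo W e) (eHi W e) p.2 - clam (eLo W e) (eHi W e) p.1) ≤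
      ∑ p ∈ inner, (p.2 - p.1) + 2 * D * sl.card :=
    sum_fat_le (by linarith) hD (by
      change q₁ ≤ G.tlo true (.inl e) (K.dir e) + 31 * ω (.inl e) at h2
      linarith) (by
      change G.thi true (.inl e) (K.dir e) - 31 * ω (.inl e) ≤ q₂ at h3
      linarith) h5 h6
  have hc : (0:ℝ) < 8 * ((sqE e).card + 1) := by positivity
  have h2' : ∀ s ∈ sqE e, ∑ p ∈ (if s ∈ S₀ ∧ K.edge e ⊆ K.sq s then gap (Ns s) (P s) (P' s) 0
      else ∅ : Finset (ℝ × ℝ)), (clam (eLo W e) (eHi W e) p.2 - clam (eLo W e) (eHi W e) p.1) ≤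
      μ * (eHi W e - eLo W e) / (8 * ((sqE e).card + 1)) := by
    intro s _
    split_ifs with hs
    · have h3 := sum_gap_le (N := Ns s) (T := P s) (T' := P' s) (D := 0) (e := gP s)
        (by have := hgP s; linarith) (hP s hs.1 hs.2)
      have h4 := hNs s hs.1 hs.2
      have h5 : ∑ p ∈ gap (Ns s) (P s) (P' s) 0,
          (clam (eLo W e) (eHi W e) p.2 - clam (eLo W e) (eHi W e) p.1) ≤
          ∑ p ∈ gap (Ns s) (P s) (P' s) 0, (p.2 - p.1) :=
        Finset.sum_le_sum fun p hp => clam_sub_le (gap_le (HP s hs.1 hs.2) le_rfl p hp)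
      rw [le_div_iff₀ hc]
      have h6 : ∑ p ∈ gap (Ns s) (P s) (P' s) 0,
          (clam (eLo W e) (eHi W e) p.2 - clam (eLo W e) (eHi W e) p.1) ≤ Ns s * gP s := by
        have : (Ns s : ℝ) * (gP s + 2 * 0) = Ns s * gP s := by ring
        linarith
      exact (mul_le_mul_of_nonneg_right h6 hc.le).trans h4
    · rw [Finset.sum_empty]; positivity
  have hB : ∑ s ∈ sqE e, ∑ p ∈ (if s ∈ S₀ ∧ K.edge e ⊆ K.sq s then gap (Ns s) (P s) (P' s) 0
      else ∅ : Finset (ℝ × ℝ)), (clam (eLo W e) (eHi W e) p.2 - clam (eLo W e) (eHi W e) p.1) ≤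
      μ / 8 * (eHi W e - eLo W e) := by
    refine (Finset.sum_le_sum h2').trans ?_
    rw [Finset.sum_const, nsmul_eq_mul, ← mul_div_assoc, div_le_iff₀ hc]
    have h4 : (0:ℝ) ≤ μ * (eHi W e - eLo W e) := by positivity
    nlinarith
  have hC := sum_tbSl_le' (e := e) (gT := fat sl D)
    (gP := fun s => if s ∈ S₀ ∧ K.edge e ⊆ K.sq s then gap (Ns s) (P s) (P' s) 0 else ∅)
    (f := fun p => clam (eLo W e) (eHi W e) p.2 - clam (eLo W e) (eHi W e) p.1)
    (fun p hp => sub_nonneg.2 (clam_mono _ _ hp)) (fat_le hD hsl) (fun s p hp => by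
      split_ifs at hp with hs
      · exact gap_le (HP s hs.1 hs.2) le_rfl p hp
      · exact absurd hp (Finset.notMem_empty p))
  have hD' : ∑ p ∈ slF S₀ e sl D Ns P P',
      (clam (eLo W e) (eHi W e) p.2 - clam (eLo W e) (eHi W e) p.1) ≤
      ∑ p ∈ fat sl D, (clam (eLo W e) (eHi W e) p.2 - clam (eLo W e) (eHi W e) p.1) +
      ∑ s ∈ sqE e, ∑ p ∈ (if s ∈ S₀ ∧ K.edge e ⊆ K.sq s then gap (Ns s) (P s) (P' s) 0
        else ∅ : Finset (ℝ × ℝ)), (clam (eLo W e) (eHi W e) p.2 - clam (eLo W e) (eHi W e) p.1) :=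
    hC
  linarith

variable {μ : ℝ} (Th : Thn (eLo W e) (eHi W e) (slF S₀ e sl D Ns P P') μ)

/-- **the thin bands, fattened by `D`, meet no sliver of ROUND T** -/
theorem thnF_noSl {i : Th.I} {t t' : ℝ} (ht : |t - Th.c i| ≤ Th.w i) (htt : |t' - t| ≤ D) :
    NoSl sl t' := by
  intro p hp ht'
  obtain ⟨h1, h2⟩ := abs_le.1 ht
  obtain ⟨h3, h4⟩ := abs_le.1 htt
  have hp' : (p.1 - D, p.2 + D) ∈ slF S₀ e sl D Ns P P' :=
    mem_tbSl.2 (Or.inl (mem_fat.2 ⟨p, hp, rfl⟩))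
  rcases Th.off (i := i) hp' with h | h
  · change p.2 + D < _ at h
    linarith [ht'.2]
  · change _ < p.1 - D at h
    linarith [ht'.1]

/-- between two points near the same band there is no sliver -/
theorem thnF_noSl_uIcc {i : Th.I} {t₁ t₂ s₁ s₂ : ℝ} (h1 : |t₁ - Th.c i| ≤ Th.w i)
    (h2 : |t₂ - Th.c i| ≤ Th.w i) (h1' : |s₁ - t₁| ≤ D) (h2' : |s₂ - t₂| ≤ D) :
    ∀ r ∈ uIcc s₁ s₂, NoSl sl r := by
  intro r hr p hp hrp
  obtain ⟨a1, a2⟩ := abs_le.1 h1
  obtain ⟨a3, a4⟩ := abs_le.1 h2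
  obtain ⟨a5, a6⟩ := abs_le.1 h1'
  obtain ⟨a7, a8⟩ := abs_le.1 h2'
  have hp' : (p.1 - D, p.2 + D) ∈ slF S₀ e sl D Ns P P' :=
    mem_tbSl.2 (Or.inl (mem_fat.2 ⟨p, hp, rfl⟩))
  rcases Th.off (i := i) hp' with h | h
  · change p.2 + D < _ at h
    have : Th.c i - Th.w i - D ≤ r := by
      rcases mem_uIcc.1 hr with h | h <;> linarith [h.1, h.2]
    linarith [hrp.2]
  · change _ < p.1 - D at h
    have : r ≤ Th.c i + Th.w i + D := by
      rcases mem_uIcc.1 hr with h | h <;> linarith [h.1, h.2]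
    linarith [hrp.1]

/-- **every thin band is contained in a band of ROUND P** of every square -/
theorem thnF_P (HP : ∀ s ∈ S₀, K.edge e ⊆ K.sq s → Bds (Ns s) (P s) (P' s))
    (h0' : ∀ s ∈ S₀, K.edge e ⊆ K.sq s → P s 0 ≤ eLo W e)
    (h1' : ∀ s ∈ S₀, K.edge e ⊆ K.sq s → eHi W e ≤ P' s (Ns s - 1)) (i : Th.I) :
    ∀ s ∈ S₀, K.edge e ⊆ K.sq s → ∃ k < Ns s, P s k ≤ Th.c i - Th.w i ∧
      Th.c i + Th.w i ≤ P' s k := by
  classical
  intro s hs he
  have hx := (Th.al_lt i).le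
  have hy := (Th.lt_be i).le
  obtain ⟨k, hk, h2, h3⟩ := in_band (D := 0) (HP s hs he)
    (by linarith [h0' s hs he] : P s 0 + 0 ≤ Th.c i - Th.w i)
    (by linarith [h1' s hs he] : Th.c i + Th.w i ≤ P' s (Ns s - 1) - 0)
    fun p hp => by
      rcases Th.off (i := i) (p := p) (mem_tbSl.2 (Or.inr ⟨s, he, by
        rw [if_pos ⟨hs, he⟩]; exact hp⟩)) with h | h
      · exact Or.inr h.le
      · exact Or.inl h.le
  exact ⟨k, hk, by linarith, by linarith⟩

end slivers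

/-! ### the layer -/

section layer

variable {Ω Λ : Set V} {v : V} {K : BoxCx Λ v} {S : Rad K} {W : Wid K S} {B : Boxes W}
  {M : Mesh Ω} {γ : Type} {φ : γ → K.G} {sl : γ → Finset (ℝ × ℝ)} {μ : γ → ℝ} {Y : Lat B}
  {T : ∀ b, Thn (eal W (φ b)) (ebe W (φ b)) (sl b) (μ b)} {Zb : γ → Set M.ι}
  {f5 : ConHomeo Ω Λ} {u : V}

/-- a conical homeomorphism has a local Lipschitz constant near the preimage of a compact set -/
theorem exists_lip_pre (hΩ : IsOpen Ω) (f : ConHomeo Ω Λ) {C : Set V} (hC : IsCompact C)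
    (hCΛ : C ⊆ Λ) : ∃ L : ℝ, 0 < L ∧ ∀ x ∈ Ω, f.toFun x ∈ C →
      ∀ᶠ y in 𝓝 x, ‖f.toFun y - f.toFun x‖ ≤ L * ‖y - x‖ := by
  have hD : IsCompact (f.invFun '' C) := hC.image_of_continuousOn (f.cont_inv.mono hCΛ)
  have hDΩ : f.invFun '' C ⊆ Ω := by
    rintro _ ⟨y, hy, rfl⟩
    exact f.mapsTo_inv (hCΛ hy)
  have h1 : ∀ x ∈ f.invFun '' C, ∃ δ > 0, ∃ M : NNReal, LipschitzOnWith M f.toFun (ball x δ) :=
    fun x hx =>
      let ⟨δ, hδ, _, M, hM⟩ := exists_lipschitz_near hΩ f.conical f.cont (hDΩ hx)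
      ⟨δ, hδ, M, hM⟩
  choose! δ hδ L hL using h1
  obtain ⟨T, hT, hcov⟩ := hD.elim_nhds_subcover (fun x => ball x (δ x))
    fun x hx => ball_mem_nhds x (hδ x hx)
  refine ⟨∑ x ∈ T, (L x : ℝ) + 1, by positivity, fun x hx hxC => ?_⟩
  have hxD : x ∈ f.invFun '' C := ⟨_, hxC, f.left_inv hx⟩
  obtain ⟨z, hz, hxz⟩ := mem_iUnion₂.1 (hcov hxD)
  filter_upwards [isOpen_ball.mem_nhds hxz] with y hy
  have h2 := (hL z (hT z hz)).dist_le_mul y hy x hxz
  rw [dist_eq_norm, dist_eq_norm] at h2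
  refine h2.trans (mul_le_mul_of_nonneg_right ?_ (norm_nonneg _))
  have h3 : (L z : ℝ) ≤ ∑ x ∈ T, (L x : ℝ) :=
    Finset.single_le_sum (f := fun x => (L x : ℝ)) (fun _ _ => NNReal.coe_nonneg _) hz
  linarith

/-- **the existence of the layer of the tubes**: the hook (boxes `Y`), then the second staircase
(full on the larger boxes `Y'`); its slope off the bands is small against the Lipschitz constants of
the hooked map -/
theorem exists_tlayer (hΩ : IsOpen Ω) (H : HkT M Y φ T Zb f5 u) {Y' : Lat B}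
    (hYp : ∀ e k, Y.p e k ≤ Y'.p e k) (hYq : ∀ e k, Y.q e k ≤ Y'.q e k)
    {r : K.G → Fin 3 → ℝ} (hr : ∀ e k, 0 < r e k) (hp : ∀ e k, Y'.p e k + r e k < B.T e)
    (hq : ∀ e k, Y'.q e k + r e k < B.T e) :
    ∃ h6 : ConHomeo Ω Λ, HTube hΩ H.hookIn h6 ∧
    ∃ K₂ : γ → ℝ, (∀ b, 0 < K₂ b) ∧
      (∀ b, ∀ x ∈ Ω, h6.toFun x ∈ YB (Y'.add r hr (fun e k => (hp e k).le) fun e k => (hq e k).le)
        (φ b) → ∀ᶠ y in 𝓝 x, ‖h6.toFun y - h6.toFun x‖ ≤ K₂ b * ‖y - x‖) ∧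
    ∀ ε : γ → ℝ, (∀ b, 0 < ε b) →
    ∃ (ς : γ → ℝ) (h0 : ∀ b, 0 < ς b) (h1 : ∀ b, ς b ≤ 1), (∀ b, ς b * K₂ b ≤ ε b) ∧
      (∀ b, ς b ≤ ε b) ∧
    ∃ Sm : ConHomeo Λ Λ,
      (tfam Y' r hr (fun e k => (hp e k).le) (fun e k => (hq e k).le) H.inj T h0 h1).IsH Sm ∧
      TLay B φ (fun b => YB Y (φ b))
        (tfam Y' r hr (fun e k => (hp e k).le) (fun e k => (hq e k).le) H.inj T h0 h1)
        (⋃ b, ⋃ i ∈ Zb b, interior (M.Q i)) (fun b i => (T b).c i - (T b).w i)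
        (fun b i => (T b).c i + (T b).w i) ς f5 h6 Sm := by
  obtain ⟨h6, O⟩ := H.exists_h6 hΩ
  have hL : ∀ b, ∃ L : ℝ, 0 < L ∧ ∀ x ∈ Ω, h6.toFun x ∈ YB (Y'.add r hr (fun e k => (hp e k).le)
      fun e k => (hq e k).le) (φ b) → ∀ᶠ y in 𝓝 x, ‖h6.toFun y - h6.toFun x‖ ≤ L * ‖y - x‖ :=
    fun b => exists_lip_pre hΩ h6 isCompact_Icc (YB_sub _ _)
  choose K₂ hK0 hK using hL
  refine ⟨h6, O, K₂, hK0, hK, fun ε hε => ?_⟩
  refine ⟨fun b => min 1 (min (ε b) (ε b / K₂ b)), fun b => ?_, fun b => min_le_left _ _,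
    fun b => ?_, fun b => (min_le_right _ _).trans (min_le_left _ _), ?_⟩
  · have h1 := hε b
    have h2 := hK0 b
    exact lt_min one_pos (lt_min h1 (div_pos h1 h2))
  · have h2 := hK0 b
    have h3 : min 1 (min (ε b) (ε b / K₂ b)) ≤ ε b / K₂ b :=
      (min_le_right _ _).trans (min_le_right _ _)
    calc min 1 (min (ε b) (ε b / K₂ b)) * K₂ b ≤ ε b / K₂ b * K₂ b :=
          mul_le_mul_of_nonneg_right h3 h2.le
      _ = ε b := div_mul_cancel₀ _ h2.ne'
  · obtain ⟨Sm, hS⟩ := HFam.exists_isH (F := tfam Y' r hr (fun e k => (hp e k).le)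
      (fun e k => (hq e k).le) H.inj T (ς := fun b => min 1 (min (ε b) (ε b / K₂ b)))
      (fun b => lt_min one_pos (lt_min (hε b) (div_pos (hε b) (hK0 b))))
      fun b => min_le_left _ _) H.hΛ
    refine ⟨Sm, hS, ?_⟩
    exact tlay_of hΩ H.hookIn H.hookIn_C O.glued (fun b => by
      obtain ⟨g, h1, h2, -⟩ := O.tube b
      exact ⟨g, h1, h2⟩) hYp hYq hS hp hq

end layer

end P073.H429
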