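import Vale.Agent.P073.H429.Stg3Off
import Vale.Agent.P073.H805.PTile
import Vale.Agent.P073.H919.PEx
import Vale.Agent.P073.H142.FaceT
import Vale.Agent.P073.H228.EdgeP2
import Vale.Agent.P073.H926.DatB
import Vale.Agent.P073.H880.RP4

/-!
# P073, H429, K3C: **[OFF-NEAR3]**, positions of the final map

`Mv G S₀ y y'`: `y' = y`, or both points are in the support of the same processed square.  All maps
of ROUND P move the points in this way.  `MvOut`: the result for the maps `h3, h4, h5, f5`.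
`f5_off`, `f5_near`, `last_off`, `last_near`: the fields `off` and `near` of `Last3`.
-/

open Set Metric Topology Filter

namespace P073.H429

open _root_.P073 _root_.P073.Net _root_.P073.PA691 _root_.P073.H236 _root_.P073.H579
  _root_.P073.H345 _root_.P073.H880 _root_.P073.H880.RP _root_.P073.H919
open Vale.Agent.P073.St (V)
open Vale.Agent.P073.H471 Vale.Agent.P073.H267 Vale.Agent.P073.H267.Geo
open Vale.Agent.P073.H73 (Mesh)
open Vale.Agent.P073.H193 (Edges Cyc)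
open Vale.Agent.P073.H581 (Near near_of_two_tiles sq_sub_cube)
open Vale.Agent.P073.H304 (Nb)
open Vale.Agent.P073.H805 (tile_PK near_PB)
open _root_.P073.H142 (PS3 PS.map TLay)
open P073.H196 (thP theta_mem_PK theta_off)

/-! ### moves in the supports -/

section moves

variable {Ω Λ : Set V} {v : V} {K : BoxCx Λ v} {S : Rad K} {W : Wid K S} {B : Boxes W}
  {G : Geo B} {S₀ : Set K.S} {y y' y'' : V}

/-- `y'` is `y`, or both points are in the support of the same processed square -/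
def Mv (G : Geo B) (S₀ : Set K.S) (y y' : V) : Prop :=
  y' = y ∨ ∃ s ∈ S₀, y ∈ PK G s ∧ y' ∈ PK G s

theorem Mv.refl (y : V) : Mv G S₀ y y := Or.inl rfl

theorem Mv.symm (h : Mv G S₀ y y') : Mv G S₀ y' y := by
  rcases h with h | ⟨s, hs, h1, h2⟩
  · exact Or.inl h.symm
  · exact Or.inr ⟨s, hs, h2, h1⟩

theorem Mv.trans (h : Mv G S₀ y y') (h' : Mv G S₀ y' y'') : Mv G S₀ y y'' := by
  rcases h with rfl | ⟨s, hs, h1, h2⟩
  · exact h'
  · rcases h' with rfl | ⟨s', hs', h3, h4⟩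
    · exact Or.inr ⟨s, hs, h1, h2⟩
    · obtain rfl := PK_unique h2 h3
      exact Or.inr ⟨s, hs, h1, h4⟩

theorem Mv.eq (h : Mv G S₀ y y') (hy : ∀ s ∈ S₀, y ∉ PK G s) : y' = y := by
  rcases h with h | ⟨s, hs, h1, -⟩
  · exact h
  · exact absurd h1 (hy s hs)

/-- a map which is supported in sets `Kf b` of the supports -/
theorem Mv.of_K {γ : Type*} {Kf : γ → Set V} {φ : γ → K.S} (hφ : ∀ b, φ b ∈ S₀)
    (hK : ∀ b, Kf b ⊆ PK G (φ b)) {f : V → V} (hm : ∀ b, y ∈ Kf b → f y ∈ Kf b)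
    (ho : (∀ b, y ∉ Kf b) → f y = y) : Mv G S₀ y (f y) := by
  by_cases h : ∃ b, y ∈ Kf b
  · obtain ⟨b, hb⟩ := h
    exact Or.inr ⟨φ b, hφ b, hK b hb, hK b (hm b hb)⟩
  · exact Or.inl (ho fun b hb => h ⟨b, hb⟩)

variable {L : PLev G}

theorem mv_isQ {β : Bool} {κ : V → V} (h : IsQ (fun s : S₀ => L.bx β s.1) κ) (y : V) :
    Mv G S₀ y (κ y) :=
  Mv.of_K (Kf := fun s : S₀ => (L.bx β s.1).K) (φ := Subtype.val) (fun b => b.2)
    (fun _ _ hy => (PLev.mem_bxK.1 hy).1) (fun _ hb => h.mapsK hb) fun ho => h.off y ho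

theorem mv_kP {κ₀ κ₁ : V → V} (h₀ : IsQ (fun s : S₀ => L.bx false s.1) κ₀)
    (h₁ : IsQ (fun s : S₀ => L.bx true s.1) κ₁) (y : V) : Mv G S₀ y ((κ₁ ∘ κ₀) y) :=
  (mv_isQ h₀ y).trans (mv_isQ h₁ (κ₀ y))

theorem mv_PSt {F : Bool → BFam 3 S₀ Λ} {T : Bool → ConHomeo Λ Λ}
    (P : PSt L (Subtype.val : S₀ → K.S) F T) (y : V) :
    Mv G S₀ y ((T true).toFun ((T false).toFun y)) := by
  have key : ∀ β y, Mv G S₀ y ((T β).toFun y) := fun β y =>
    Mv.of_K (Kf := fun s : S₀ => ((F β).B s).K) (φ := Subtype.val) (fun b => b.2)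
      (fun b _ hy => (PLev.mem_bxK.1 ((P.B β b).sub_K hy)).1) (fun _ hb => (P.isS β).mem hb)
      fun ho => (P.isS β).off y ho
  exact (key false y).trans (key true _)

theorem mv_sg3 {F : Bool → BFam 3 S₀ Λ} {ς : Bool → S₀ → ℝ} {T : Bool → ConHomeo Λ Λ}
    (P : Sg3 L S₀ F ς T) (y : V) : Mv G S₀ y (PS.map T y) := by
  have key : ∀ β y, Mv G S₀ y ((T β).toFun y) := fun β y =>
    Mv.of_K (Kf := fun s : S₀ => ((F β).B s).K) (φ := Subtype.val) (fun b => b.2)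
      (fun b _ hy => P.mem_K hy) (fun _ hb => (P.isS β).mem hb)
      fun ho => (P.isS β).off y ho
  exact (key false y).trans (key true _)

theorem mv_theta {c : K.S → Bool → ℝ} {h0 : ∀ s β, 0 < c s β} {h1 : ∀ s β, c s β ≤ L.c s β}
    {hΛ : IsOpen Λ} {Θ : Bool → ConHomeo Λ Λ} (hΘ : ∀ β, (thP L c h0 h1 hΛ S₀ β).IsH (Θ β))
    (y : V) : Mv G S₀ y (((Θ false).trans (Θ true)).toFun y) := by
  have key : ∀ β y, Mv G S₀ y ((Θ β).toFun y) := fun β y =>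
    Mv.of_K (Kf := fun s : S₀ => PK G s.1) (φ := Subtype.val) (fun b => b.2)
      (fun _ _ hy => hy) (fun b hb => theta_mem_PK (hΘ β) b hb)
      fun ho => theta_off (hΘ β) fun s hs => ho ⟨s, hs⟩
  exact (key false y).trans (key true _)

variable {M : Mesh Ω} {E : Edges M}

theorem mv_exchange {D : Dat K M} {h1 h2 : ConHomeo Ω Λ} {L : K.S → Fin 3 → Finset ℝ} {ι : Type}
    {F : ι → Set V} (R : ROut3 G E D h1 h2 L F) (hPE : ∀ s ∈ D.S₀, D.PE G s ⊆ PK G s) {x : V}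
    (hx : x ∈ Ω) : Mv G D.S₀ (h1.toFun x) (h2.toFun x) := by
  by_cases h : ∃ s ∈ D.S₀, h1.toFun x ∈ D.PE G s
  · obtain ⟨s, hs, h3⟩ := h
    exact Or.inr ⟨s, hs, hPE s hs h3, hPE s hs ((R.box s hs x hx).2 h3)⟩
  · push Not at h
    exact Or.inl (R.off x hx fun s hs h3 => h s hs (interior_subset h3))

/-- the hook in the plates -/
theorem mv_hook {F : Bool → BFam 3 S₀ Λ} {T : Bool → ConHomeo Λ Λ} {κ₀ κ₁ : V → V} {c d : ℝ}
    {Zb : S₀ → Set M.ι} {h2 h3 h4 h5 : ConHomeo Ω Λ} {u : V}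
    {H : HkG M L (Subtype.val : S₀ → K.S) F T κ₀ κ₁ c d Zb h2 h3 h4 u} {hΩ : IsOpen Ω}
    {r : S₀ → ℝ} (O : HkGO H hΩ r h5) {x : V} (hx : x ∈ Ω) :
    Mv G S₀ (h4.toFun x) (h5.toFun x) := by
  have hsub : ∀ s : S₀, HB G c d s.1 ⊆ PK G s.1 := fun s =>
    (HB_PB H.hc H.hd s.1).trans (PB_sub_PK (by norm_num) s.1)
  by_cases h : ∃ s : S₀, h4.toFun x ∈ HB G c d s.1
  · obtain ⟨s, hs⟩ := h
    exact Or.inr ⟨s.1, s.2, hsub s hs, hsub s ((O.mem s hx).2 hs)⟩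
  · push Not at h
    exact Or.inl (O.off hx fun s hs => h s (interior_subset hs))

/-- **positions in ROUND P**: `f` is one of the maps `h3, h4, h5, f5` -/
structure MvOut (G : Geo B) (S₀ : Set K.S) (M : Mesh Ω) (Pr : Set M.ι) (h1 f : ConHomeo Ω Λ) :
    Prop where
  cell : ∀ i, ∀ x ∈ M.Q i, ∃ x' ∈ M.Q i, Mv G S₀ (h1.toFun x') (f.toFun x)
  prot : ∀ i ∈ Pr, ∀ x ∈ M.Q i, Mv G S₀ (h1.toFun x) (f.toFun x)
  miss : ∀ i, Miss G S₀ h1 (M.Q i) → EqOn f.toFun h1.toFun (M.Q i)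

theorem MvOut.step {Pr : Set M.ι} {h1 f g : ConHomeo Ω Λ} (H : MvOut G S₀ M Pr h1 f)
    (hg : ∀ x ∈ Ω, Mv G S₀ (f.toFun x) (g.toFun x)) : MvOut G S₀ M Pr h1 g where
  cell := fun i x hx => by
    obtain ⟨x', hx', h2⟩ := H.cell i x hx
    exact ⟨x', hx', h2.trans (hg x (M.sub i hx))⟩
  prot := fun i hi x hx => (H.prot i hi x hx).trans (hg x (M.sub i hx))
  miss := fun i hi x hx => by
    have e1 := H.miss i hi hx
    have e2 := (hg x (M.sub i hx)).eq fun s hs => by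
      rw [e1]; exact hi x hx s hs
    rw [e2, e1]

/-- **positions after the insertion** -/
theorem mvOut_h3 {D : Dat K M} {h1 h2 h3 : ConHomeo Ω Λ} {Lv : K.S → Fin 3 → Finset ℝ}
    {ι : Type} {F : ι → Set V} (R : ROut3 G E D h1 h2 Lv F)
    (hPE : ∀ s ∈ D.S₀, D.PE G s ⊆ PK G s) {κ : V → V} (hκ : ∀ y, Mv G D.S₀ y (κ y))
    (hcell : ∀ i, h3.toFun '' M.Q i = Pre κ Λ h2 (M.Q i)) {Θ : V → V}
    (hΘ : ∀ y, Mv G D.S₀ y (Θ y))
    (hgiv : ∀ i ∈ D.Gc G h1, ∀ x ∈ M.Q i, h3.toFun x = Θ (h1.toFun x))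
    (hmiss : ∀ i, Miss G D.S₀ h1 (M.Q i) → EqOn h3.toFun h1.toFun (M.Q i)) :
    MvOut G D.S₀ M D.Pr h1 h3 where
  cell := fun i x hx => by
    have h4 : h3.toFun x ∈ Pre κ Λ h2 (M.Q i) := by
      rw [← hcell i]; exact mem_image_of_mem _ hx
    obtain ⟨-, x', hx', e⟩ := h4
    refine ⟨x', hx', (mv_exchange R hPE (M.sub i hx')).trans ?_⟩
    rw [e]
    exact (hκ _).symm
  prot := fun i hi x hx => by
    rw [hgiv i (Or.inl hi) x hx]
    exact hΘ _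
  miss := hmiss

/-- **positions of the map `f5`** -/
theorem mvOut_f5 {Pr : Set M.ι} {F Fσ : Bool → BFam 3 S₀ Λ} {T Tσ : Bool → ConHomeo Λ Λ}
    {κ₀ κ₁ : V → V} {c d : ℝ} {Zb : S₀ → Set M.ι} {h1 h2 h3 h4 h5 f5 : ConHomeo Ω Λ} {u : V}
    {H : HkG M L (Subtype.val : S₀ → K.S) F T κ₀ κ₁ c d Zb h2 h3 h4 u} {hΩ : IsOpen Ω}
    {r : S₀ → ℝ} (O : HkGO H hΩ r h5) {ς : Bool → S₀ → ℝ} {L' : PLev G}
    (P : Sg3 L' S₀ Fσ ς Tσ) (hf5 : ∀ x ∈ Ω, f5.toFun x = PS.map Tσ (h5.toFun x))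
    (H3 : MvOut G S₀ M Pr h1 h3) : MvOut G S₀ M Pr h1 f5 :=
  ((H3.step fun x hx => by rw [H.map x hx]; exact mv_PSt H.P _).step fun _ hx =>
    mv_hook O hx).step fun x hx => by rw [hf5 x hx]; exact mv_sg3 P _

end moves

/-! ### points in one box -/

section pos

variable {Ω Λ : Set V} {ρ : V → ℝ} {v : V} {K : BoxCx Λ v} {S : Rad K} {W : Wid K S}
  {B : Boxes W} {G : Geo B} {S₀ : Set K.S} {y y' : V}

/-- two points in touching tiles -/
theorem near_of_cube (C : Cells ρ v K) (hρ : SizeFn Λ ρ) {q q' : K.T} (hq : y ∈ K.cube q)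
    (hq' : y' ∈ K.cube q') (hne : (K.cube q ∩ K.cube q').Nonempty) : Near 16 ρ y y' := by
  refine near_of_two_tiles (w := v) hρ (Or.inr ⟨_, _, _, _, C.tile q, C.tile q', ?_, ?_, ?_⟩)
    (K.sub q hq)
  · rw [← C.cube_eq, ← C.cube_eq]; exact hne
  · left; rw [← C.cube_eq]; exact hq
  · right; rw [← C.cube_eq]; exact hq'

theorem near_PK (C : Cells ρ v K) (hρ : SizeFn Λ ρ) {s : K.S} (hy : y ∈ PK G s)
    (hy' : y' ∈ PK G s) : Near 16 ρ y y' := by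
  have hs := (PK_sub_ss (G := G) s).trans (ss_subset s)
  obtain ⟨q, hq⟩ := K.cover _ (hs hy)
  obtain ⟨q', hq'⟩ := K.cover _ (hs hy')
  have h3 : K.slo s ∈ K.sq s := ⟨le_rfl, fun j => _root_.P073.TM.slo_le_shi K s j⟩
  exact near_of_cube C hρ hq hq' ⟨_, sq_sub_cube (tile_PK hy hq) h3,
    sq_sub_cube (tile_PK hy' hq') h3⟩

theorem near_Mv (C : Cells ρ v K) (hρ : SizeFn Λ ρ) (h : Mv G S₀ y y') (hy : y ∈ Λ) :
    Near 16 ρ y y' := by
  rcases h with rfl | ⟨s, -, h1, h2⟩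
  · obtain ⟨q, hq⟩ := K.cover _ hy
    exact near_of_cube C hρ hq hq ⟨_, hq, hq⟩
  · exact near_PK C hρ h1 h2

/-- two points in a box at an edge -/
theorem near_EB (C : Cells ρ v K) (hρ : SizeFn Λ ρ) {e : K.G} (hy : y ∈ B.E e)
    (hy' : y' ∈ B.E e) : Near 16 ρ y y' := by
  have hs := ((B.E_subset e).trans (Ze_subset.trans (se_subset e))).trans (S.tube_sub e)
  obtain ⟨q, hq⟩ := K.cover _ (hs hy)
  obtain ⟨q', hq'⟩ := K.cover _ (hs hy')
  have h1 := (inTube_of_se (Ze_subset (B.E_subset e hy))).tile hq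
  have h2 := (inTube_of_se (Ze_subset (B.E_subset e hy'))).tile hq'
  exact near_of_cube C hρ hq hq' ⟨_, h1 (_root_.P073.TM.wa_mem K e),
    h2 (_root_.P073.TM.wa_mem K e)⟩

end pos

/-! ### the theorems -/

section main

open Vale.Agent.P073.H926 Vale.Agent.P073.H926.KIn3

variable {c₀ n δ : ℝ} {j : ℕ} {Ω Λ : Set V} {v w : V} {ρ : V → ℝ} {M : Mesh Ω}
  {h h1 f5 : ConHomeo Ω Λ} {J₀ J : Set (ℕ × (Fin 3 → ℤ))} {P Z : Set M.ι} {K : BoxCx Λ w}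
  {y z : V} {q t : K.T}

/-- a point close to a point near the boundary of a tile -/
theorem nb_of_near (D : KIn3 c₀ n j δ v w ρ M h J₀ J P Z) (C : Cells ρ w K)
    (hq : y ∈ K.cube q) (hyz : ‖z - y‖ ≤ (D.G C).om q)
    (hz : z ∈ Nb w {C.fT t} (c₀ / 2)) : y ∈ Nb w {C.fT t} (3 / 4 * c₀) := by
  obtain ⟨x, hx, hxz⟩ := (mem_Nb_one C).1 hz
  have hT := C.sT_pos t
  have hTq := C.sT_pos q
  have ho := o3_pos D.pos
  have hκo := o3_eq (n := n)
  have hκ := D.κ_lt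
  have hκ0 := κ3_pos D.pos
  have hκc := D.κ_le_c₀
  have hc0 := D.c₀_pos
  have hc1 := D.le
  have hom : (D.G C).om q = o3 n * C.sT q := rfl
  rw [hom] at hyz
  -- sizes
  have b1 := (_root_.P073.KW.tile_bounds D.hρ (C.tile q) (by rw [← C.cube_eq]; exact hq)).1
  have hxt := isClosed_Icc.frontier_subset hx
  have b2 := (_root_.P073.KW.tile_bounds D.hρ (C.tile t) (x := x)
    (by rw [← C.cube_eq]; exact hxt)).2
  have e1 : C.sT q = 1 / 2 ^ (C.fT q).1 := rfl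
  have e2 : C.sT t = 1 / 2 ^ (C.fT t).1 := rfl
  have e3 : (4:ℝ) / 2 ^ (C.fT t).1 = 4 * C.sT t := by rw [e2]; ring
  rw [← e1] at b1
  rw [e3] at b2
  have b3 := D.hρ.lip y x
  have b4 : ‖y - x‖ ≤ o3 n * C.sT q + c₀ / 2 * C.sT t := by
    have : y - x = (z - x) - (z - y) := by abel
    rw [this]
    refine (norm_sub_le _ _).trans ?_
    linarith
  have b5 : C.sT q ≤ 8 * C.sT t := by nlinarith
  refine (mem_Nb_one C).2 ⟨x, hx, b4.trans ?_⟩
  have b6 : o3 n * C.sT q ≤ o3 n * (8 * C.sT t) := mul_le_mul_of_nonneg_left b5 ho.le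
  have b7 : o3 n * (8 * C.sT t) ≤ c₀ / 4 * C.sT t := by
    have : o3 n * 8 ≤ c₀ / 4 := by linarith
    have := mul_le_mul_of_nonneg_right this hT.le
    linarith
  linarith

/-- **a cell which is not protected and meets the support of a processed square (under `h1`)** is
near the tile, and small -/
theorem cell_of_PK (D : KIn3 c₀ n j δ v w ρ M h J₀ J P Z) (C : Cells ρ w K)
    (hn : ∀ x ∈ Ω, ∀ q, h.toFun x ∈ K.cube q → ‖h1.toFun x - h.toFun x‖ ≤ (D.G C).om q)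
    {i : M.ι} (hi : i ∉ P) (hm : ¬ Miss (D.G C) (pS C J₀) h1 (M.Q i)) :
    ∃ t ∈ pT C J₀, ∀ x ∈ M.Q i, h.toFun x ∈ Nb w {C.fT t} c₀ ∧
      ∀ x' ∈ M.Q i, ‖h.toFun x - h.toFun x'‖ ≤ δ * C.sT t := by
  unfold Miss at hm
  push Not at hm
  obtain ⟨z, hz, s, hs, hzs⟩ := hm
  obtain ⟨t, ht, hts⟩ := exists_of_pS hs
  have hzΩ := M.sub i hz
  obtain ⟨q, hq⟩ := K.cover _ (h.mapsTo hzΩ)
  have h2 := nb_of_near D C hq (hn z hzΩ q hq) (D.supp_S C (PK_sub_ss s hzs) hts)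
  have hc0 := D.c₀_pos
  have h3 : 3 / 4 * c₀ ≤ c₀ := by linarith
  have hδ : δ ≤ c₀ / 4 := by
    have h1 := D.δ_le
    have h2 := δ3_eq (n := n)
    have h4 := o3_eq (n := n)
    have h5 := D.κ_le_c₀
    have h6 := D.δpos
    have h7 := o3_pos D.pos
    linarith
  have hsm : ∀ x ∈ M.Q i, ∀ x' ∈ M.Q i, ‖h.toFun x - h.toFun x'‖ ≤ δ * C.sT t :=
    D.small C hi ht ⟨_, mem_image_of_mem _ hz, Vale.Agent.P073.H304.Nb.mono h3 h2⟩
  refine ⟨t, ht, fun x hx => ⟨?_, hsm x hx⟩⟩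
  obtain ⟨p, hp, hpz⟩ := (mem_Nb_one C).1 h2
  refine (mem_Nb_one C).2 ⟨p, hp, ?_⟩
  have h5 := hsm x hx z hz
  have h6 := norm_sub_le_norm_sub_add_norm_sub (h.toFun x) (h.toFun z) p
  have h7 := mul_le_mul_of_nonneg_right hδ (C.sT_pos t).le
  linarith

/-- nothing changes far from the processed tiles, for the map `f5` -/
theorem f5_off (D : KIn3 c₀ n j δ v w ρ M h J₀ J P Z) (C : Cells ρ w K)
    (hn : ∀ x ∈ Ω, ∀ q, h.toFun x ∈ K.cube q → ‖h1.toFun x - h.toFun x‖ ≤ (D.G C).om q)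
    (ho : ∀ x ∈ Ω, h.toFun x ∉ Nb w J₀ c₀ → h1.toFun x = h.toFun x)
    (H : MvOut (D.G C) (pS C J₀) M P h1 f5) {x : V} (hx : x ∈ Ω)
    (hx0 : h.toFun x ∉ Nb w J₀ c₀) : f5.toFun x = h.toFun x := by
  obtain ⟨i, hi⟩ := M.cover x hx
  have e1 := ho x hx hx0
  by_cases hP : i ∈ P
  · have h2 := (H.prot i hP x hi).eq fun s hs hxs => hx0 (D.PK_sub_Nb C hs (by rwa [← e1]))
    rw [h2, e1]
  · by_cases hm : Miss (D.G C) (pS C J₀) h1 (M.Q i)
    · rw [H.miss i hm hi, e1]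
    · obtain ⟨t, ht, h2⟩ := cell_of_PK D C hn hP hm
      exact absurd (mem_Nb_of C ht (h2 x hi).1) hx0

/-- **closeness for the map `f5`** -/
theorem f5_near (D : KIn3 c₀ n j δ v w ρ M h J₀ J P Z) (C : Cells ρ w K)
    (hn : ∀ x ∈ Ω, ∀ q, h.toFun x ∈ K.cube q → ‖h1.toFun x - h.toFun x‖ ≤ (D.G C).om q)
    (H : MvOut (D.G C) (pS C J₀) M P h1 f5) {x : V} (hx : x ∈ Ω) :
    Near 256 ρ (h.toFun x) (f5.toFun x) := by
  have hρ0 : ∀ y ∈ Λ, 0 ≤ ρ y := fun y hy => (D.hρ.pos y hy).le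
  have near1 : ∀ x ∈ Ω, Near 2 ρ (h.toFun x) (h1.toFun x) := by
    intro x hx
    have hxΛ := h.mapsTo hx
    obtain ⟨q, hq⟩ := K.cover _ hxΛ
    refine Near.of_dist D.hρ ((hn x hx q hq).trans ?_) (hρ0 _ hxΛ)
    have h5 : (D.G C).om q = o3 n * C.sT q := rfl
    have h6 := (_root_.P073.KW.tile_bounds D.hρ (C.tile q) (by rw [← C.cube_eq]; exact hq)).1
    have h7 : C.sT q = 1 / 2 ^ (C.fT q).1 := rfl
    have h8 := C.sT_pos q
    have h9 : o3 n ≤ 1 / 2 := by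
      have := o3_eq (n := n)
      have := D.κ_lt
      have := o3_pos D.pos
      linarith
    rw [h5]
    rw [← h7] at h6
    nlinarith [mul_le_mul_of_nonneg_right h9 h8.le]
  obtain ⟨i, hi⟩ := M.cover x hx
  -- a point of the same cell
  obtain ⟨x', hx', h2, h3⟩ : ∃ x' ∈ M.Q i, Mv (D.G C) (pS C J₀) (h1.toFun x') (f5.toFun x) ∧
      Near 2 ρ (h.toFun x) (h.toFun x') := by
    have self : Near 2 ρ (h.toFun x) (h.toFun x) := Near.of_dist D.hρ (by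
      rw [sub_self, norm_zero]
      have := hρ0 _ (h.mapsTo hx)
      positivity) (hρ0 _ (h.mapsTo hx))
    by_cases hP : i ∈ P
    · exact ⟨x, hi, H.prot i hP x hi, self⟩
    · by_cases hm : Miss (D.G C) (pS C J₀) h1 (M.Q i)
      · exact ⟨x, hi, Or.inl (H.miss i hm hi), self⟩
      · obtain ⟨t, ht, h2⟩ := cell_of_PK D C hn hP hm
        obtain ⟨x', hx', h3⟩ := H.cell i x hi
        refine ⟨x', hx', h3, Near.of_dist D.hρ ?_ (hρ0 _ (h.mapsTo hx))⟩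
        obtain ⟨q, hq⟩ := K.cover _ (h.mapsTo hx)
        obtain ⟨p, hp, hpx⟩ := (mem_Nb_one C).1 (h2 x hi).1
        have h4 := (D.comp C (by linarith [D.le]) hp hq hpx).2
        have h5 := (h2 x hi).2 x' hx'
        rw [norm_sub_rev]
        refine h5.trans ?_
        have h6 := (_root_.P073.KW.tile_bounds D.hρ (C.tile q)
          (by rw [← C.cube_eq]; exact hq)).1
        have h7 : C.sT q = 1 / 2 ^ (C.fT q).1 := rfl
        have h8 := C.sT_pos q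
        have h9 := C.sT_pos t
        have h10 : δ ≤ 1 / 8 := by
          have := D.δle
          have := D.η_le_one
          linarith
        rw [← h7] at h6
        have h11 := D.δpos
        nlinarith [mul_le_mul_of_nonneg_right h10 h9.le]
  have hx'Ω := M.sub i hx'
  have h4 := h3.trans (near1 x' hx'Ω) (by norm_num) (by norm_num) (hρ0 _ (h.mapsTo hx))
    (hρ0 _ (h1.mapsTo hx'Ω))
  have h5 := h4.trans (near_Mv C D.hρ h2 (h1.mapsTo hx'Ω)) (by norm_num) (by norm_num)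
    (hρ0 _ (h.mapsTo hx)) (hρ0 _ (f5.mapsTo hx))
  norm_num at h5
  exact h5

/-- the last layer: nothing changes, or both points are in the same box at an edge -/
theorem tlay_mv {S : Rad K} {Wd : Wid K S} {B : Boxes Wd} {γ : Type} {φ : γ → K.G}
    {Pb : γ → Set V} {F : HFam 3 γ Λ} {Dr : Set V} {ι : γ → Type} [∀ b, Fintype (ι b)]
    {l hh : ∀ b, ι b → ℝ} {ς : γ → ℝ} {h6 : ConHomeo Ω Λ} {Sm : ConHomeo Λ Λ}
    (H : TLay B φ Pb F Dr l hh ς f5 h6 Sm) {x : V} (hx : x ∈ Ω) :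
    Sm.toFun (h6.toFun x) = f5.toFun x ∨
      ∃ b, f5.toFun x ∈ B.E (φ b) ∧ Sm.toFun (h6.toFun x) ∈ B.E (φ b) := by
  by_cases hb : ∃ b, f5.toFun x ∈ (F.X b).K
  · obtain ⟨b, hb⟩ := hb
    have h2 := (H.memK (b := b) hx).2 hb
    refine Or.inr ⟨b, H.KE b hb, H.KE b ?_⟩
    rw [H.isH.on b _ h2]
    exact (F.X b).supp.maps h2
  · push Not at hb
    have e1 := H.off x hx fun b h3 => hb b (H.PK b (interior_subset h3))
    left
    rw [H.isH.off _ fun b => by rw [e1]; exact hb b, e1]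

/-- **`Last3.off`** -/
theorem last_off {γ : Type} (D : KIn3 c₀ n j δ v w ρ M h J₀ J P Z) (C : Cells ρ w K)
    {φ : γ → K.G}
    {Pb : γ → Set V} {F : HFam 3 γ Λ} {Dr : Set V} {ι : γ → Type} [∀ b, Fintype (ι b)]
    {l hh : ∀ b, ι b → ℝ} {ς : γ → ℝ} {h6 : ConHomeo Ω Λ} {Sm : ConHomeo Λ Λ}
    (H6 : TLay (D.B C) φ Pb F Dr l hh ς f5 h6 Sm) (hφ : ∀ b, φ b ∈ pG C J₀)
    (h5 : ∀ x ∈ Ω, h.toFun x ∉ Nb w J₀ c₀ → f5.toFun x = h.toFun x) {x : V} (hx : x ∈ Ω)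
    (hx0 : h.toFun x ∉ Nb w J₀ c₀) : Sm.toFun (h6.toFun x) = h.toFun x := by
  have e1 := h5 x hx hx0
  rcases tlay_mv H6 hx with h2 | ⟨b, h2, -⟩
  · rw [h2, e1]
  · rw [e1] at h2
    exact absurd ((D.supp C).2.1 _ (hφ b) (Ze_subset ((D.B C).E_subset _ h2))) hx0

/-- **`Last3.near`** -/
theorem last_near {γ : Type} (D : KIn3 c₀ n j δ v w ρ M h J₀ J P Z) (C : Cells ρ w K)
    {φ : γ → K.G}
    {Pb : γ → Set V} {F : HFam 3 γ Λ} {Dr : Set V} {ι : γ → Type} [∀ b, Fintype (ι b)]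
    {l hh : ∀ b, ι b → ℝ} {ς : γ → ℝ} {h6 : ConHomeo Ω Λ} {Sm : ConHomeo Λ Λ}
    (H6 : TLay (D.B C) φ Pb F Dr l hh ς f5 h6 Sm)
    (h5 : ∀ x ∈ Ω, Near 256 ρ (h.toFun x) (f5.toFun x)) {x : V} (hx : x ∈ Ω) :
    Near 8192 ρ (h.toFun x) (Sm.toFun (h6.toFun x)) := by
  have hρ0 : ∀ y ∈ Λ, 0 ≤ ρ y := fun y hy => (D.hρ.pos y hy).le
  have hxΛ := f5.mapsTo hx
  have h2 : Near 16 ρ (f5.toFun x) (Sm.toFun (h6.toFun x)) := by
    rcases tlay_mv H6 hx with h2 | ⟨b, h2, h3⟩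
    · rw [h2]
      obtain ⟨q, hq⟩ := K.cover _ hxΛ
      exact near_of_cube C D.hρ hq hq ⟨_, hq, hq⟩
    · exact near_EB C D.hρ h2 h3
  have h3 := (h5 x hx).trans h2 (by norm_num) (by norm_num) (hρ0 _ (h.mapsTo hx))
    (hρ0 _ (Sm.mapsTo (h6.mapsTo hx)))
  norm_num at h3
  exact h3

end main

end P073.H429
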