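import Vale.Agent.P073.H267.K3St2
import Vale.Agent.P073.H196.ThetaQ2
import Vale.Agent.P073.H190.TwoP
import Vale.Agent.P073.H429.Near3

/-!
# P073, H429, K3C: the two-stage staircases of `S3`

`mv_PT2`: positions; `S3.pt2 : PT2 ..`, `S3.thp2 : ThP2 ..` for the maps `T2` of `S3`.
-/

open Set Metric Topology Filter

set_option linter.unusedSectionVars false

namespace P073.H429

open _root_.P073 _root_.P073.Net _root_.P073.PA691 _root_.P073.H236 _root_.P073.H579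
  _root_.P073.H345 _root_.P073.H880 _root_.P073.H880.RP _root_.P073.H919 _root_.P073.H190
open Vale.Agent.P073.St (V)
open Vale.Agent.P073.H471 Vale.Agent.P073.H267 Vale.Agent.P073.H267.Geo
open _root_.P073.H142 (PS3 PS.map)

theorem mv_PT2 {Λ : Set V} {v : V} {K : BoxCx Λ v} {S : Rad K} {W : Wid K S} {B : Boxes W}
    {G : Geo B} {S₀ : Set K.S} {L : PLev G} {F : Bool → BFam 3 S₀ Λ} {μ : Bool → S₀ → ℝ}
    {T : Bool → ConHomeo Λ Λ} (P : PT2 L S₀ F μ T) (y : V) : Mv G S₀ y (PS.map T y) := by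
  have key : ∀ β y, Mv G S₀ y ((T β).toFun y) := fun β y =>
    Mv.of_K (Kf := fun s : S₀ => ((F β).B s).K) (φ := Subtype.val) (fun b => b.2)
      (fun b _ hy => P.mem_K hy) (fun _ hb => (P.isS β).mem (P.μ0 β _) hb)
      fun ho => (P.isS β).off y ho
  exact (key false y).trans (key true _)

end P073.H429

namespace Vale.Agent.P073.H267.K3

open _root_.P073 _root_.P073.Net _root_.P073.PA691 _root_.P073.H236 _root_.P073.H579
open _root_.P073.H936 _root_.P073.H936.K3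
open _root_.P073.H142
open _root_.P073.H196 (ThP ThP2)
open _root_.P073.H190 (PT2)
open Vale.Agent.P073.St (V)
open Vale.Agent.P073.H471 Vale.Agent.P073.H267
open Vale.Agent.P073.H73 (Mesh)
open Vale.Agent.P073.H926

variable {c₀ n δ : ℝ} {j : ℕ} {Ω Λ : Set V} {v w : V} {ρ : V → ℝ} {M : Mesh Ω} {h : ConHomeo Ω Λ}
  {J₀ J : Set (ℕ × (Fin 3 → ℤ))} {P Z : Set M.ι} {K : BoxCx Λ w}
  {D : KIn3 c₀ n j δ v w ρ M h J₀ J P Z} {C : Cells ρ w K} {C₀ μT : ℝ}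
  {X : S1 D C C₀ μT} {Y₂ : S2 X} {Ys : Set M.κ} {sc : Sharp}

theorem S2.mu_pos (Y₂ : S2 X) (s : K.S) : 0 < Y₂.muP s := by
  have h1 := Y₂.Lw.δ0 s
  have h2 := Y₂.Lw.δμ s
  linarith

/-- the two-stage staircases of ROUND P -/
theorem S3.pt2 (Y₃ : S3 Y₂ Ys sc) :
    PT2 Y₃.Lt (D.dat C).S₀ Y₃.F (fun _ s => Y₂.muP s.1) Y₃.T2 where
  B := Y₃.ps.B
  isS := Y₃.isT2
  μ0 := fun _ s => (Y₂.mu_pos s.1).le
  μD := fun β s => Y₃.muD β s

/-- the two-stage staircases after `Θ` -/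
theorem S3.thp2 (Y₃ : S3 Y₂ Ys sc) :
    ThP2 Y₂.L Y₃.c Y₃.c0 Y₃.c1 D.bΛ.1 (D.dat C).S₀ Y₃.F (fun _ s => Y₂.muP s.1) Y₃.T2 Y₃.Θ 10 :=
  Y₃.thp.two Y₃.isT2 (fun _ s => (Y₂.mu_pos s.1).le) fun β s => Y₃.muD β s

end Vale.Agent.P073.H267.K3
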