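import Vale.Agent.P073.H880.RP1
import Vale.Agent.P073.H805.Inv3

/-!
# P073, H429, K3C: the insertion step of ROUND P with the clause `off`

`exists_stage3o`: `exists_stage3` of H880, and the output is `h1` on the faces and cells whose images
under `h1` miss the supports `PK s` of the processed squares.
-/

open Set Metric Topology Filter

namespace P073.H429

open _root_.P073 _root_.P073.Net _root_.P073.PA691 _root_.P073.H236 _root_.P073.H579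
  _root_.P073.H345 _root_.P073.H880 _root_.P073.H880.RP
open Vale.Agent.P073.St (V)
open Vale.Agent.P073.H471 Vale.Agent.P073.H267 Vale.Agent.P073.H267.Geo
open Vale.Agent.P073.H73 (Mesh)
open Vale.Agent.P073.H193 (Edges Cyc)
open P073.H196 (MvInv)

variable {Ω Λ : Set V} {v : V} {K : BoxCx Λ v} {S : Rad K} {W : Wid K S} {B : Boxes W}
  {M : Mesh Ω} {E : Edges M}

/-- the set `X` misses the supports of the processed squares -/
def Miss (G : Geo B) (S₀ : Set K.S) (h : ConHomeo Ω Λ) (X : Set V) : Prop :=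
  ∀ x ∈ X, ∀ s ∈ S₀, h.toFun x ∉ PK G s

theorem Miss.mono {G : Geo B} {S₀ : Set K.S} {h : ConHomeo Ω Λ} {X Y : Set V}
    (H : Miss G S₀ h X) (hY : Y ⊆ X) : Miss G S₀ h Y := fun x hx => H x (hY hx)

/-- sets which miss the supports are invariant -/
theorem inv_of_miss {G : Geo B} {L : PLev G} {S₀ : Set K.S} {A : Set V}
    (H : ∀ y ∈ A, ∀ s ∈ S₀, y ∉ PK G s) : Inv L S₀ A := by
  intro s hs β n hn y hy hyn t ht
  have h2 : |t - L.a s β n| ≤ 2 * L.c s β := by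
    rw [abs_le]; constructor <;> linarith [ht.1, ht.2]
  exact ⟨fun h3 => absurd (Vale.Agent.P073.H805.update_mem_PK hn hy h2) (H _ h3 s hs),
    fun h3 => absurd hy (H _ h3 s hs)⟩

theorem Miss.inv {G : Geo B} {L : PLev G} {S₀ : Set K.S} {h : ConHomeo Ω Λ} {X : Set V}
    (H : Miss G S₀ h X) : Inv L S₀ (h.toFun '' X) := inv_of_miss fun y hy s hs => by
  obtain ⟨x, hx, rfl⟩ := hy
  exact H x hx s hs

/-- **ROUND P for `K3C`, the insertion step**, with the clause `off` -/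
theorem exists_stage3o (hΩ : IsOpen Ω) {G : Geo B} {D : Dat K M} {L : PLev G}
    {h1 h2 : ConHomeo Ω Λ} {κ : V → V} {Θ : ConHomeo Λ Λ} (hInv : InvIn G E D L h1)
    (hoff : ∀ k ∈ D.WF G h1, EqOn h2.toFun h1.toFun (M.F k))
    (hoffc : ∀ i ∈ D.Gc G h1, EqOn h2.toFun h1.toFun (M.Q i))
    (hoffm : ∀ x ∈ Ω, (∀ s ∈ D.S₀, h1.toFun x ∉ PK G s) → h2.toFun x = h1.toFun x)
    (hpk : ∀ k ∈ D.Peel G h1, ∀ x ∈ M.F k, ∃ s ∈ D.S₀, h1.toFun x ∈ PK G s)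
    (hI : InsMap κ Λ Λ) (hκ : ∀ A, Inv L D.S₀ A → ∀ y ∈ Λ, (κ y ∈ A ↔ y ∈ A))
    (hΘ : ∀ A, Inv L D.S₀ A → ∀ y ∈ Λ, (Θ.toFun y ∈ A ↔ y ∈ A))
    (hN : ∀ x ∈ E.verts, (Pre κ Λ h2 {x}).Subsingleton)
    (hpass : ∀ k, k ∉ D.WF G h1 → k ∉ D.Peel G h1 → ¬ Miss G D.S₀ h1 (M.F k) →
      PassFace M E h2 κ k)
    (GE : E.ε → (V → V) → Prop) (GF : M.κ → (V → V) → Prop)
    (hGE : ∀ e (f g : V → V), EqOn f g (E.seg e) → GE e f → GE e g)
    (hshared : ∀ k ∈ D.Peel G h1, ∀ l ∈ D.WF G h1, ∀ e, E.seg e ⊆ M.F k →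
      E.seg e ⊆ M.F l → GE e fun x => Θ.toFun (h1.toFun x))
    (hedge : ∀ k ∈ D.Peel G h1, ∀ e, E.seg e ⊆ M.F k →
      (∀ l ∈ D.WF G h1, ¬ E.seg e ⊆ M.F l) →
      ∃ Φ : ConHomeo (E.seg e) (Pre κ Λ h2 (E.seg e)),
      GE e Φ.toFun ∧ ∀ x ∈ E.seg e, x ∈ E.verts → κ (Φ.toFun x) = h2.toFun x)
    (hface : ∀ k ∈ D.Peel G h1,
      ∀ Φe : ∀ e, E.seg e ⊆ M.F k → ConHomeo (E.seg e) (Pre κ Λ h2 (E.seg e)),
      (∀ e he, GE e (Φe e he).toFun) →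
      (∀ e he e' he', EqOn (Φe e he).toFun (Φe e' he').toFun (E.seg e ∩ E.seg e')) →
      (∀ e he, ∀ x ∈ E.seg e, x ∈ E.verts → κ ((Φe e he).toFun x) = h2.toFun x) →
      ∃ Φ : ConHomeo (M.F k) (Pre κ Λ h2 (M.F k)), GF k Φ.toFun ∧
        ∀ e he, EqOn Φ.toFun (Φe e he).toFun (E.seg e)) :
    ∃ h3 : ConHomeo Ω Λ, Out3 G E D h1 h2 κ Θ GE GF h3 ∧
      (∀ k, Miss G D.S₀ h1 (M.F k) → EqOn h3.toFun h1.toFun (M.F k)) ∧
      ∀ i, Miss G D.S₀ h1 (M.Q i) → EqOn h3.toFun h1.toFun (M.Q i) := by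
  classical
  have hFΩ : ∀ k, M.F k ⊆ Ω := Vale.Agent.P073.H193.mesh_sub M
  have hQΩ : ∀ i, M.Q i ⊆ Ω := fun i => M.sub i
  -- the maps are the identity off the supports
  have hΘid : ∀ y ∈ Λ, (∀ s ∈ D.S₀, y ∉ PK G s) → Θ.toFun y = y := fun y hy hs =>
    (hΘ {y} (inv_of_miss (L := L) fun z hz s hs' => by
      rw [mem_singleton_iff.1 hz]; exact hs s hs') y hy).2 rfl
  have hκid : ∀ y ∈ Λ, (∀ s ∈ D.S₀, y ∉ PK G s) → κ y = y := fun y hy hs =>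
    (hκ {y} (inv_of_miss (L := L) fun z hz s hs' => by
      rw [mem_singleton_iff.1 hz]; exact hs s hs') y hy).2 rfl
  set WF' : Set M.κ := {k | k ∈ D.WF G h1 ∨ Miss G D.S₀ h1 (M.F k)} with hWF'
  set Gc' : Set M.ι := {i | i ∈ D.Gc G h1 ∨ Miss G D.S₀ h1 (M.Q i)} with hGc'
  have hInvF : ∀ k ∈ WF', Inv L D.S₀ (h1.toFun '' M.F k) := fun k hk =>
    hk.elim (hInv.face k) fun h => h.inv
  have hInvE : ∀ k ∈ WF', ∀ e, E.seg e ⊆ M.F k → Inv L D.S₀ (h1.toFun '' E.seg e) :=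
    fun k hk e he => hk.elim (fun h => hInv.edge k h e he) fun h => (h.mono he).inv
  have hInvV : ∀ k ∈ WF', ∀ x ∈ E.verts, x ∈ M.F k → Inv L D.S₀ {h1.toFun x} :=
    fun k hk x hx hxk => hk.elim (fun h => hInv.vert k h x hx hxk) fun h =>
      inv_of_miss fun z hz s hs => by
        rw [mem_singleton_iff.1 hz]; exact h x hxk s hs
  have hInvC : ∀ i ∈ Gc', Inv L D.S₀ (h1.toFun '' M.Q i) := fun i hi =>
    hi.elim (hInv.cell i) fun h => h.inv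
  have hoff' : ∀ k ∈ WF', EqOn h2.toFun h1.toFun (M.F k) := fun k hk =>
    hk.elim (hoff k) fun h x hx => hoffm x (hFΩ k hx) (h x hx)
  have hoffc' : ∀ i ∈ Gc', EqOn h2.toFun h1.toFun (M.Q i) := fun i hi =>
    hi.elim (hoffc i) fun h x hx => hoffm x (hQΩ i hx) (h x hx)
  have hface_Gc : ∀ i ∈ Gc', ∀ k, M.F k ⊆ M.Q i → k ∈ WF' := fun i hi k hk =>
    hi.elim (fun h => Or.inl (Dat.face_Gc h hk)) fun h => Or.inr (h.mono hk)
  have hpeel : ∀ k ∈ D.Peel G h1, ¬ Miss G D.S₀ h1 (M.F k) := by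
    intro k hk hm
    have hne : (M.F k).Nonempty := by
      by_contra hne
      rw [not_nonempty_iff_eq_empty] at hne
      obtain ⟨d, hd⟩ := exists_ne (0 : V)
      refine (Vale.Agent.P073.H193.pgn_of_fat (M.fat k)).nl ⟨d, hd, fun x hx => ?_⟩
      rw [hne] at hx
      exact absurd hx (notMem_empty x)
    obtain ⟨x, hx⟩ := hne
    obtain ⟨s, hs, h4⟩ := hpk k hk x hx
    exact hm x hx s hs h4
  have hsub : ∀ {X Y : Set V}, Y ⊆ X → EqOn h2.toFun h1.toFun X → h2.toFun '' Y = h1.toFun '' Y :=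
    fun hYX he => image_congr fun x hx => he (hYX hx)
  have hpre : ∀ X Y : Set V, Y ⊆ X → EqOn h2.toFun h1.toFun X → Pre κ Λ h1 Y = Pre κ Λ h2 Y := by
    intro X Y hYX he
    have e1 := hsub hYX he
    ext y
    show (y ∈ Λ ∧ κ y ∈ h1.toFun '' Y) ↔ (y ∈ Λ ∧ κ y ∈ h2.toFun '' Y)
    rw [e1]
  -- given faces
  have hW : ∀ k ∈ WF', ∃ Φ : ConHomeo (M.F k) (Pre κ Λ h2 (M.F k)),
      ∀ x, Φ.toFun x = Θ.toFun (h1.toFun x) := by
    intro k hk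
    obtain ⟨Φ, hΦ, -⟩ := P073.H196.exists_theta (κ := κ) h1 Θ (hFΩ k)
      (Vale.Agent.P073.H244.conBall_face M k).conicalSet (hκ _ (hInvF k hk))
      (hΘ _ (hInvF k hk))
    exact ⟨Φ.cast rfl (hpre _ _ Subset.rfl (hoff' k hk)), hΦ⟩
  choose ΦW hΦW using hW
  have hC : ∀ i ∈ Gc', ∃ Φ : ConHomeo (M.Q i) (Pre κ Λ h2 (M.Q i)),
      ∀ x, Φ.toFun x = Θ.toFun (h1.toFun x) := by
    intro i hi
    obtain ⟨Φ, hΦ, -⟩ := P073.H196.exists_theta (κ := κ) h1 Θ (hQΩ i)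
      (Vale.Agent.P073.H244.conBall_cell M i).conicalSet (hκ _ (hInvC i hi)) (hΘ _ (hInvC i hi))
    exact ⟨Φ.cast rfl (hpre _ _ Subset.rfl (hoffc' i hi)), hΦ⟩
  choose Ψ hΨ using hC
  have hnot : ∀ k ∈ D.Peel G h1, ∀ e, E.seg e ⊆ M.F k → ∀ l, E.seg e ⊆ M.F l →
      ¬ Miss G D.S₀ h1 (M.F l) := by
    intro k hk e he l hl hm
    obtain ⟨s, hs, h4⟩ := hpk k hk _ (he (left_mem_segment ℝ (E.a e) (E.b e)))
    exact hm _ (hl (left_mem_segment ℝ (E.a e) (E.b e))) s hs h4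
  obtain ⟨h3, a1, a2, a3⟩ := exists_stage2G hΩ M E h2 hI hN WF' ΦW
    { agree := fun k hk l hl x hx => by rw [hΦW, hΦW]
      edge := fun k hk e he => by
        have h3 : (ΦW k hk).toFun '' E.seg e = (fun x => Θ.toFun (h1.toFun x)) '' E.seg e :=
          image_congr fun x _ => hΦW k hk x
        rw [h3, ← hpre _ _ he (hoff' k hk)]
        exact P073.H196.theta_image (he.trans (hFΩ k)) (hκ _ (hInvE k hk e he))
          (hΘ _ (hInvE k hk e he))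
      vert := fun k hk x hx hxk => by
        have hv := hInvV k hk x hx hxk
        have hxΛ := h1.mapsTo (hFΩ k hxk)
        have e1 : Θ.toFun (h1.toFun x) = h1.toFun x := (hΘ _ hv _ hxΛ).2 rfl
        have e2 : κ (h1.toFun x) = h1.toFun x := (hκ _ hv _ hxΛ).2 rfl
        rw [hΦW, e1, e2, hoff' k hk hxk] }
    (D.Peel G h1) (fun k hk h => h.elim (Dat.peel_not_WF hk) (hpeel k hk))
    (fun k hk hk' => hpass k (fun h => hk (Or.inl h)) hk' fun h => hk (Or.inr h)) GE GF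
    (fun k hk e he ⟨l, hl, hel⟩ => by
      refine hGE e _ _ (fun x _ => (hΦW k hk x).symm) ?_
      rcases hk with hk | hk
      · exact hshared l hl k hk e hel he
      · exact absurd hk (hnot l hl e hel k he))
    (fun k hk e he hno => hedge k hk e he fun l hl => hno l (Or.inl hl)) hface Gc' Ψ
    (fun i hi k hk => ⟨hface_Gc i hi k hk, fun x _ => by rw [hΨ, hΦW]⟩)
  refine ⟨h3, ⟨a1, fun k hk x hx => (a2 k (Or.inl hk) hx).trans (hΦW k (Or.inl hk) x),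
    fun i hi x hx => (a3 i (Or.inl hi) hx).trans (hΨ i (Or.inl hi) x)⟩, fun k hk x hx => ?_,
    fun i hi x hx => ?_⟩
  · rw [a2 k (Or.inr hk) hx, hΦW k (Or.inr hk) x]
    exact hΘid _ (h1.mapsTo (hFΩ k hx)) (hk x hx)
  · rw [a3 i (Or.inr hi) hx, hΨ i (Or.inr hi) x]
    exact hΘid _ (h1.mapsTo (hQΩ i hx)) (hi x hx)

/-- the hypothesis `hoffm`, from the output of the exchange -/
theorem ROut3.off_PK {G : Geo B} {D : Dat K M} {h1 h2 : ConHomeo Ω Λ}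
    {L : K.S → Fin 3 → Finset ℝ} {ι : Type} {F : ι → Set V} (R : ROut3 G E D h1 h2 L F)
    (hPE : ∀ s ∈ D.S₀, D.PE G s ⊆ PK G s) {x : V} (hx : x ∈ Ω)
    (h : ∀ s ∈ D.S₀, h1.toFun x ∉ PK G s) : h2.toFun x = h1.toFun x :=
  R.off x hx fun s hs h3 => h s hs (hPE s hs (interior_subset h3))

/-- the hypothesis `hpk`, from the output of the exchange -/
theorem ROut3.peel_PK {G : Geo B} {D : Dat K M} {h1 h2 : ConHomeo Ω Λ}
    {L : K.S → Fin 3 → Finset ℝ} {ι : Type} {F : ι → Set V} (R : ROut3 G E D h1 h2 L F)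
    {k : M.κ} (hk : k ∈ D.Peel G h1) {x : V} (hx : x ∈ M.F k) :
    ∃ s ∈ D.S₀, h1.toFun x ∈ PK G s := by
  obtain ⟨s, hs⟩ := hk
  exact ⟨s, hs.1, PB_sub_PK (by norm_num) s (R.near s k hs x hx).1⟩

end P073.H429
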