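import Vale.Agent.P073.H429.THBox
import Vale.Agent.P073.H919.HookG
import Vale.Agent.P073.H936.RTGlob

/-!
# P073, H429, K3C, **[T-HK]**: the hook of the tubes

`HkT`: the hypotheses of the hook in the tubes (the map before the hook is `f5`).  The output is
936's `HTube`.  `HkT.old_le`: the levels of `f5` are controlled by the coordinate of `f5`.
`HkT.faceData`: the face data of the drawn cells.  `HkT.loc`: the new levels.  `HkT.abs_sub_le`,
`HkT.eventually_le`: the composition with the second staircase `tfam`.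
-/

open Set Metric Topology Filter MeasureTheory
open scoped ENNReal

set_option linter.unusedSectionVars false

namespace P073.H429

open P073 P073.H936 P073.H936.K3 P073.H142 P073.H880 P073.H919 P073.H236 P073.H950
open Vale.Agent.P073.St (V)
open Vale.Agent.P073.AB (Idx squ)
open Vale.Agent.P073.H73 (Mesh)
open Vale.Agent.P073.H471 Vale.Agent.P073.H267
open P073.Net P073.PA691

/-! ### levels and clamps -/

/-- the clamp of a band is the clipped level -/
theorem clam_eq_clp {c w : ℝ} (hw : 0 < w) (t : ℝ) :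
    clam (c - w) (c + w) t = w * (H880.clp 1 ((t - c) / w) + 1) := by
  have e1 : t - (c - w) = w * ((t - c) / w + 1) := by field_simp; ring
  have e2 : c + w - (c - w) = w * 2 := by ring
  unfold clam H880.clp
  rw [e1, e2]
  rcases le_total ((t - c) / w) 1 with h | h
  · rw [min_eq_left (mul_le_mul_of_nonneg_left (by linarith) hw.le), min_eq_left h]
    rcases le_total (-1) ((t - c) / w) with h2 | h2
    · rw [max_eq_right h2, max_eq_right (mul_nonneg hw.le (by linarith))]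
    · rw [max_eq_left h2, max_eq_left (mul_nonpos_of_nonneg_of_nonpos hw.le (by linarith))]
      ring
  · rw [min_eq_right (mul_le_mul_of_nonneg_left (by linarith) hw.le), min_eq_right h,
      max_eq_right (by norm_num : (-1:ℝ) ≤ 1), max_eq_right (by positivity)]
    ring

theorem abs_clam_sub {c w : ℝ} (hw : 0 < w) (s t : ℝ) :
    |clam (c - w) (c + w) s - clam (c - w) (c + w) t| =
      w * |H880.clp 1 ((s - c) / w) - H880.clp 1 ((t - c) / w)| := by
  rw [clam_eq_clp hw, clam_eq_clp hw, ← mul_sub, abs_mul, abs_of_pos hw]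
  congr 2
  ring

namespace Thn

variable {al be : ℝ} {sl : Finset (ℝ × ℝ)} {μ : ℝ} (T : Thn al be sl μ)

/-- half width of the bands -/
noncomputable def hw : ℝ := T.om / 2 - T.e

theorem w_eq (i : T.I) : T.w i = T.hw := rfl

theorem hw_pos : 0 < T.hw := by
  have h1 := T.eo
  have h2 := T.om_pos
  have h3 := T.e0
  show 0 < T.om / 2 - T.e
  change 8 * T.e ≤ T.om at h1
  linarith

/-- the clipped levels of the bands are controlled by the coordinate -/
theorem sum_clam_le (s t : ℝ) :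
    ∑ i : T.I, |clam (T.c i - T.w i) (T.c i + T.w i) s - clam (T.c i - T.w i) (T.c i + T.w i) t| ≤
      |s - t| := by
  have key : ∀ s t : ℝ, s ≤ t → ∑ i : T.I, |clam (T.c i - T.w i) (T.c i + T.w i) t -
      clam (T.c i - T.w i) (T.c i + T.w i) s| ≤ t - s := by
    intro s t hst
    have h1 : ∀ i : T.I, |clam (T.c i - T.w i) (T.c i + T.w i) t -
        clam (T.c i - T.w i) (T.c i + T.w i) s| = clam (T.c i - T.w i) (T.c i + T.w i) t -
        clam (T.c i - T.w i) (T.c i + T.w i) s := fun i =>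
      abs_of_nonneg (sub_nonneg.2 (clam_mono _ _ hst))
    rw [Finset.sum_congr rfl fun i _ => h1 i, Finset.sum_sub_distrib]
    have h2 := T.bs.bt_sub_le hst
    unfold bt at h2
    exact h2.trans (clam_sub_le hst)
  rcases le_total s t with h | h
  · have e : ∀ i : T.I, |clam (T.c i - T.w i) (T.c i + T.w i) s -
        clam (T.c i - T.w i) (T.c i + T.w i) t| = |clam (T.c i - T.w i) (T.c i + T.w i) t -
        clam (T.c i - T.w i) (T.c i + T.w i) s| := fun i => abs_sub_comm _ _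
    rw [Finset.sum_congr rfl fun i _ => e i, abs_sub_comm s t, abs_of_nonneg (by linarith)]
    exact key s t h
  · rw [abs_of_nonneg (by linarith : 0 ≤ s - t)]
    exact key t s h

end Thn

section tube

variable {Ω Λ : Set V} {v : V} {K : BoxCx Λ v} {S : Rad K} {W : Wid K S} {B : Boxes W}
  {M : Mesh Ω} {γ : Type*} {φ : γ → K.G} {sl : γ → Finset (ℝ × ℝ)} {μ : γ → ℝ} {Y : Lat B}
  {T : ∀ b, Thn (eal W (φ b)) (ebe W (φ b)) (sl b) (μ b)} {Zb : γ → Set M.ι}
  {f5 : ConHomeo Ω Λ}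

/-- **the hypotheses of the hook in the tubes**: `f5` before the hook; `Zb b` are the cells drawn
in the box `YB Y (φ b)` -/
structure HkT (M : Mesh Ω) (Y : Lat B) (φ : γ → K.G)
    (T : ∀ b, Thn (eal W (φ b)) (ebe W (φ b)) (sl b) (μ b)) (Zb : γ → Set M.ι)
    (f5 : ConHomeo Ω Λ) (u : V) : Prop where
  hΛ : IsOpen Λ
  inj : Function.Injective φ
  cube : ∀ b, ∀ i ∈ Zb b, ∃ m z, M.Q i = dyc u m z
  int : ∀ b, ∀ i ∈ Zb b, f5.toFun '' M.Q i ⊆ interior (YB Y (φ b))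
  inv : ∀ b, ∀ i ∈ Zb b, ∀ k, M.F k ⊆ M.Q i → BandInv (ι := (T b).I) (fun _ => true)
    (dax (φ b)) (T b).c (T b).w (f5.invFun '' YB Y (φ b)) f5.toFun (M.F k)

namespace HkT

variable {u : V} (H : HkT M Y φ T Zb f5 u)

include H

open Classical in
/-- the dyadic index of a drawn cell -/
noncomputable def idx (i : M.ι) : Idx :=
  if h : ∃ b, i ∈ Zb b then
    ((H.cube _ i h.choose_spec).choose, (H.cube _ i h.choose_spec).choose_spec.choose)
  else (0, 0)

theorem idx_spec {b : γ} {i : M.ι} (h : i ∈ Zb b) : M.Q i = dyc u (H.idx i).1 (H.idx i).2 := by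
  have h' : ∃ b, i ∈ Zb b := ⟨b, h⟩
  have h1 := (H.cube _ i h'.choose_spec).choose_spec.choose_spec
  have e : H.idx i = ((H.cube _ i h'.choose_spec).choose,
      (H.cube _ i h'.choose_spec).choose_spec.choose) := by
    unfold idx; rw [dif_pos h']
  rw [e]
  exact h1

/-- the input of the hook -/
noncomputable def hookIn (b : γ) : (thook Y M φ T Zb b).In f5 :=
  thookIn Y (fun i => H.idx i) (fun _ _ hi => H.idx_spec hi) H.int H.inv b

theorem hookIn_C (b : γ) (q : (thook Y M φ T Zb b).Q) : (H.hookIn b).K.C q = M.Q q.1 :=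
  (H.idx_spec q.2).symm

/-- the chart of a drawn cell -/
theorem hookIn_chart (b : γ) (q : (thook Y M φ T Zb b).Q) :
    (H.hookIn b).K.chart q = (_root_.P073.H950.Chart.dya u (H.idx q.1)).cast rfl
      (P073.H142.frontier_dyc' u _ _).symm := rfl

theorem fin : ∀ z ∈ Λ, ∃ O ∈ 𝓝 z, {b | ((thook Y M φ T Zb b).P ∩ O).Nonempty}.Finite :=
  thook_fin H.inj

theorem dis : ∀ b b', b ≠ b' →
    Disjoint (interior (thook Y M φ T Zb b).P) (thook Y M φ T Zb b').P :=
  thook_dis H.inj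

/-- **the hooked map** -/
theorem exists_h6 (hΩ : IsOpen Ω) : ∃ h6 : ConHomeo Ω Λ, HTube hΩ H.hookIn h6 :=
  exists_htube hΩ H.hΛ f5 (thook Y M φ T Zb) H.hookIn H.fin H.dis thook_one

/-- no point of a passive cell or of a face is in a drawn open cell -/
theorem off {Z : Set V} {b : γ} (hZ : (∃ i, i ∉ Zb b ∧ Z ⊆ M.Q i) ∨ ∃ k, Z ⊆ M.F k)
    (q : (thook Y M φ T Zb b).Q) {x : V} (hx : x ∈ Z) :
    x ∉ interior ((H.hookIn b).K.C q) := by
  rw [H.hookIn_C b q]
  rcases hZ with ⟨i, hi, hZi⟩ | ⟨k, hZk⟩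
  · exact not_interior_of_cell M (fun e => hi (by rw [e]; exact q.2)) (hZi hx)
  · exact not_interior_of_face M _ (hZk hx)

theorem U_sub (b : γ) : (thook Y M φ T Zb b).U f5 ⊆ Ω := HBox.U_sub (H.hookIn b)

theorem mem_U (b : γ) {x : V} (hx : x ∈ Ω) :
    x ∈ (thook Y M φ T Zb b).U f5 ↔ f5.toFun x ∈ YB Y (φ b) :=
  HBox.mem_U (H.hookIn b) hx

/-- a drawn cell is in the domain of the box -/
theorem cell_sub_U {b : γ} {i : M.ι} (hi : i ∈ Zb b) :
    M.Q i ⊆ (thook Y M φ T Zb b).U f5 := fun x hx =>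
  (H.mem_U b (M.sub i hx)).2 (interior_subset (H.int b i hi ⟨x, hx, rfl⟩))

/-- **the levels of `f5` are controlled by the coordinate of `f5`** in the direction of the edge -/
theorem old_le (hΩ : IsOpen Ω) (b : γ) (x y : V) :
    (T b).hw * dsum (old ((H.hookIn b).boxK hΩ)) x y ≤
      |f5.toFun x (K.dir (φ b)) - f5.toFun y (K.dir (φ b))| := by
  refine le_trans (le_of_eq ?_) ((T b).sum_clam_le _ _)
  unfold dsum
  rw [Finset.mul_sum]
  refine Finset.sum_congr rfl fun i _ => ?_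
  rw [abs_clam_sub ((T b).w_pos i), abs_sub_comm]
  rfl

theorem old_le_mul (hΩ : IsOpen Ω) (b : γ) {om ρ : ℝ} (hρ : 0 ≤ ρ) (hom : om ≤ ρ * (T b).hw)
    (x y : V) : om * dsum (old ((H.hookIn b).boxK hΩ)) x y ≤
      ρ * |f5.toFun x (K.dir (φ b)) - f5.toFun y (K.dir (φ b))| := by
  have h0 : 0 ≤ dsum (old ((H.hookIn b).boxK hΩ)) x y :=
    Finset.sum_nonneg fun _ _ => abs_nonneg _
  calc om * dsum (old ((H.hookIn b).boxK hΩ)) x y
      ≤ ρ * (T b).hw * dsum (old ((H.hookIn b).boxK hΩ)) x y :=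
        mul_le_mul_of_nonneg_right hom h0
    _ = ρ * ((T b).hw * dsum (old ((H.hookIn b).boxK hΩ)) x y) := by ring
    _ ≤ _ := mul_le_mul_of_nonneg_left (H.old_le hΩ b x y) hρ

end HkT

end tube

/-! ### the face data from a cost -/

/-- **[FACEDATA]** from any cost which controls the old levels: finitely many closed pieces of the
squares with cone estimates, and paths -/
theorem faceData_of_cost {ι : Type*} [Fintype ι] {side : ι → Bool} {ax : Bool → Fin 3}
    {lo hi : Fin 3 → ℝ} {c w : ι → ℝ} {U : Set V} {Q : Type} (D : BoxK side ax lo hi c w U Q)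
    {cst : V → V → ℝ} {om ρ : ℝ} (hρ : 0 ≤ ρ)
    (key : ∀ x ∈ U, ∀ y ∈ U, om * dsum (old D) x y ≤ ρ * cst x y) {u : V}
    {𝓢 : Finset (Idx × Fin 3)} (h𝓢 : ∀ t ∈ 𝓢, squ u t ⊆ U) {n : Idx × Fin 3 → ℕ}
    {A : Idx × Fin 3 → ℝ} {R : ∀ t, Fin (n t) → Set V} {k : ∀ t, Fin (n t) → ℝ}
    (hS : ∀ t ∈ 𝓢, ∀ i, IsClosed (R t i)) (hcov : ∀ t ∈ 𝓢, squ u t ⊆ ⋃ i, R t i)
    (hA : ∀ t ∈ 𝓢, 0 ≤ A t)
    (hcone : ∀ t ∈ 𝓢, ∀ i, ∀ x ∈ R t i, x ∈ squ u t → ∀ y ∈ R t i, y ∈ squ u t →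
      cst x y ≤ k t i * ‖x - y‖)
    (hpath : ∀ t ∈ 𝓢, ∀ x ∈ squ u t, ∀ y ∈ squ u t, ∃ γ : ℝ → V, ContinuousOn γ (Icc 0 3) ∧
      MapsTo γ (Icc 0 3) (squ u t) ∧ γ 0 = x ∧ γ 3 = y ∧
      cvar (fun a a' => ENNReal.ofReal (cst (γ a) (γ a'))) 0 3 ≤ ENNReal.ofReal (A t)) :
    FaceData D u om 𝓢 (fun t x => ρ * pm (R t) (fun i _ => k t i) x) (fun t => ρ * A t) := by
  refine ⟨fun s hs => ?_, fun s _ x _ => mul_nonneg hρ (pm_nonneg x), fun s hs x hx => ?_,
    fun s hs => mul_nonneg hρ (hA s hs), fun s hs x hx y hy => ?_⟩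
  · have h1 : UpperSemicontinuous (pm (R s) (fun i (_ : V) => k s i)) :=
      upperSemicontinuous_pm (hS s hs) fun i => upperSemicontinuous_const.upperSemicontinuousOn _
    have hc : Continuous fun x : ℝ => ρ * x := by fun_prop
    exact (hc.comp_upperSemicontinuous h1 fun a b hab =>
      mul_le_mul_of_nonneg_left hab hρ).upperSemicontinuousOn _
  · have h1 := eventually_le_pm (A := squ u s) (G := fun i (_ : V) => k s i)
      (d := fun y => cst x y) (r := fun y => dist y x) (x := x) (hS s hs) (hcov s hs)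
      (fun y => dist_nonneg) (by
        intro i hi
        filter_upwards [self_mem_nhdsWithin] with y hy
        rw [dist_eq_norm, norm_sub_rev]
        exact hcone s hs i x hi hx y hy.1 hy.2)
    filter_upwards [h1, self_mem_nhdsWithin] with y hy hys
    calc om * dsum (old D) x y ≤ ρ * cst x y := key x (h𝓢 s hs hx) y (h𝓢 s hs hys)
      _ ≤ ρ * (pm (R s) (fun i _ => k s i) x * dist y x) := mul_le_mul_of_nonneg_left hy hρ
      _ = ρ * pm (R s) (fun i _ => k s i) x * dist y x := by ring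
  · obtain ⟨γ, h1, h2, h3, h4, h5⟩ := hpath s hs x hx y hy
    refine ⟨γ, 0, 3, by norm_num, h1, h2, h3, h4, ?_⟩
    refine (cvar_mul_le (K := ENNReal.ofReal ρ) (c' := fun t t' => ENNReal.ofReal
      (cst (γ t) (γ t'))) fun t ht t' ht' _ => ?_).trans ?_
    · rw [← ENNReal.ofReal_mul hρ]
      exact ENNReal.ofReal_le_ofReal (key _ (h𝓢 s hs (h2 ht)) _ (h𝓢 s hs (h2 ht')))
    · rw [ENNReal.ofReal_mul hρ]
      gcongr

section tube

variable {Ω Λ : Set V} {v : V} {K : BoxCx Λ v} {S : Rad K} {W : Wid K S} {B : Boxes W}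
  {M : Mesh Ω} {γ : Type*} {φ : γ → K.G} {sl : γ → Finset (ℝ × ℝ)} {μ : γ → ℝ} {Y : Lat B}
  {T : ∀ b, Thn (eal W (φ b)) (ebe W (φ b)) (sl b) (μ b)} {Zb : γ → Set M.ι}
  {f5 : ConHomeo Ω Λ} {u : V}

/-- **the face data of a drawn cell of a tube**, from the cone estimates and paths of the
coordinate of `f5` in the direction of the edge -/
theorem HkT.faceData (H : HkT M Y φ T Zb f5 u) (hΩ : IsOpen Ω) {b : γ} {i : M.ι} (hi : i ∈ Zb b)
    {om ρ : ℝ} (hρ : 0 ≤ ρ) (hom : om ≤ ρ * (T b).hw)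
    {𝓢 : Finset (Idx × Fin 3)} (h𝓢 : ∀ t ∈ 𝓢, squ u t ⊆ M.Q i) {n : Idx × Fin 3 → ℕ}
    {A : Idx × Fin 3 → ℝ} {R : ∀ t, Fin (n t) → Set V} {k : ∀ t, Fin (n t) → ℝ}
    (hS : ∀ t ∈ 𝓢, ∀ i, IsClosed (R t i)) (hcov : ∀ t ∈ 𝓢, squ u t ⊆ ⋃ i, R t i)
    (hA : ∀ t ∈ 𝓢, 0 ≤ A t)
    (hcone : ∀ t ∈ 𝓢, ∀ i, ∀ x ∈ R t i, x ∈ squ u t → ∀ y ∈ R t i, y ∈ squ u t →
      |f5.toFun x (K.dir (φ b)) - f5.toFun y (K.dir (φ b))| ≤ k t i * ‖x - y‖)
    (hpath : ∀ t ∈ 𝓢, ∀ x ∈ squ u t, ∀ y ∈ squ u t, ∃ γ : ℝ → V, ContinuousOn γ (Icc 0 3) ∧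
      MapsTo γ (Icc 0 3) (squ u t) ∧ γ 0 = x ∧ γ 3 = y ∧
      cvar (fun a a' => ENNReal.ofReal |f5.toFun (γ a) (K.dir (φ b)) -
        f5.toFun (γ a') (K.dir (φ b))|) 0 3 ≤ ENNReal.ofReal (A t)) :
    FaceData ((H.hookIn b).boxK hΩ) u om 𝓢 (fun t x => ρ * pm (R t) (fun i _ => k t i) x)
      (fun t => ρ * A t) :=
  faceData_of_cost ((H.hookIn b).boxK hΩ)
    (cst := fun x y => |f5.toFun x (K.dir (φ b)) - f5.toFun y (K.dir (φ b))|) hρ
    (fun x _ y _ => H.old_le_mul hΩ b hρ hom x y)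
    (fun t ht => (h𝓢 t ht).trans (H.cell_sub_U hi)) hS hcov hA hcone hpath

/-! ### the output of the hook -/

namespace HkT

variable {H : HkT M Y φ T Zb f5 u} {hΩ : IsOpen Ω} {h6 : ConHomeo Ω Λ}

theorem mem (O : HTube hΩ H.hookIn h6) (b : γ) {x : V} (hx : x ∈ Ω) :
    h6.toFun x ∈ YB Y (φ b) ↔ f5.toFun x ∈ YB Y (φ b) :=
  O.glued.mem b x hx

theorem off_box (O : HTube hΩ H.hookIn h6) {x : V} (hx : x ∈ Ω)
    (h : ∀ b : γ, f5.toFun x ∉ interior (YB Y (φ b))) : h6.toFun x = f5.toFun x :=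
  O.glued.off x hx h

/-- larger sets which contain the boxes they meet are preserved -/
theorem mem_iff (O : HTube hΩ H.hookIn h6) {A : Set V}
    (hA : ∀ b : γ, (A ∩ YB Y (φ b)).Nonempty → YB Y (φ b) ⊆ A)
    {x : V} (hx : x ∈ Ω) : h6.toFun x ∈ A ↔ f5.toFun x ∈ A := by
  by_cases h : ∃ b : γ, f5.toFun x ∈ YB Y (φ b)
  · obtain ⟨s, hs⟩ := h
    have hs' := (mem O s hx).2 hs
    exact ⟨fun h => hA s ⟨_, h, hs'⟩ hs, fun h => hA s ⟨_, h, hs⟩ hs'⟩
  · push Not at h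
    rw [off_box O hx fun s hs => h s (interior_subset hs)]

/-- the images of the drawn cells -/
theorem cell (O : HTube hΩ H.hookIn h6) {b : γ} {i : M.ι} (hi : i ∈ Zb b) {x : V}
    (hx : x ∈ M.Q i) : h6.toFun x ∈ YB Y (φ b) :=
  (mem O b (M.sub i hx)).2 (interior_subset (H.int b i hi ⟨x, hx, rfl⟩))

/-- **the new levels** are locally controlled by the levels of the drawn sheets: input of
`Loc.rest`, `Loc.rest_cvar`, `Loc.cell`, `Loc.cellp` -/
theorem loc (O : HTube hΩ H.hookIn h6) (b : γ) :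
    Loc ((H.hookIn b).boxK hΩ) (wlev (ι := (T b).I) (fun _ => true) (dax (φ b)) 1
      (T b).c (T b).w h6.toFun) := by
  obtain ⟨g, hg, h1, -⟩ := O.tube b
  intro x hx
  filter_upwards [Loc.of_tube hg x hx, self_mem_nhdsWithin] with y h7 hy
  refine le_trans (le_of_eq ?_) h7
  unfold dsum
  refine Finset.sum_congr rfl fun i _ => ?_
  show |cl _ _ _ i (h6.toFun y _) - cl _ _ _ i (h6.toFun x _)| = _
  rw [h1 hx, h1 hy]
  rfl

end HkT

/-! ### the second staircase after the hook -/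

variable {r : K.G → Fin 3 → ℝ} {hr : ∀ e k, 0 < r e k}
  {hp : ∀ e k, Y.p e k + r e k ≤ B.T e} {hq : ∀ e k, Y.q e k + r e k ≤ B.T e}
  {hφ : Function.Injective φ} {ς : γ → ℝ} {h0 : ∀ b, 0 < ς b} {h1 : ∀ b, ς b ≤ 1}
  {S' : ConHomeo Λ Λ}

/-- the clamps of the bands and the clipped levels -/
theorem sum_clam_eq (b : γ) (h : V → V) (x y : V) :
    ∑ i : (T b).I, |clam ((T b).c i - (T b).w i) ((T b).c i + (T b).w i) (h y (K.dir (φ b))) -
        clam ((T b).c i - (T b).w i) ((T b).c i + (T b).w i) (h x (K.dir (φ b)))| =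
      (T b).hw * dsum (wlev (ι := (T b).I) (fun _ => true) (dax (φ b)) 1 (T b).c (T b).w h)
        x y := by
  unfold dsum
  rw [Finset.mul_sum]
  refine Finset.sum_congr rfl fun i _ => ?_
  rw [abs_clam_sub ((T b).w_pos i)]
  rfl

/-- **the second staircase after any map**, on the boxes of the hook -/
theorem abs_tfam_comp_le (hμ : ∀ b, 0 ≤ μ b) (hS : (tfam Y r hr hp hq hφ T h0 h1).IsH S')
    {b : γ} {h : V → V} {x y : V} (hx : h x ∈ YB Y (φ b)) (hy : h y ∈ YB Y (φ b)) :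
    |S'.toFun (h y) (K.dir (φ b)) - S'.toFun (h x) (K.dir (φ b))| ≤
      (1 + μ b) * ((T b).hw * dsum (wlev (ι := (T b).I) (fun _ => true) (dax (φ b)) 1 (T b).c
        (T b).w h) x y) + ς b * |h y (K.dir (φ b)) - h x (K.dir (φ b))| := by
  have := abs_tfam_sub_le hμ hS hy hx
  rwa [sum_clam_eq b h x y] at this

/-- **on passive sets**, in the boxes of the hook: the coordinate of the last map is controlled by
the coordinate of the map before the hook -/
theorem HkT.eventually_le {H : HkT M Y φ T Zb f5 u} {hΩ : IsOpen Ω} {h6 : ConHomeo Ω Λ}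
    (O : HTube hΩ H.hookIn h6) (hμ : ∀ b, 0 ≤ μ b)
    (hS : (tfam Y r hr hp hq hφ T h0 h1).IsH S') {b : γ} {x : V}
    (hx : x ∈ (thook Y M φ T Zb b).U f5) :
    ∀ᶠ y in 𝓝[(thook Y M φ T Zb b).U f5] x, (∀ q, y ∉ interior ((H.hookIn b).K.C q)) →
      |S'.toFun (h6.toFun y) (K.dir (φ b)) - S'.toFun (h6.toFun x) (K.dir (φ b))| ≤
        (1 + μ b) * |f5.toFun y (K.dir (φ b)) - f5.toFun x (K.dir (φ b))| +
          ς b * |h6.toFun y (K.dir (φ b)) - h6.toFun x (K.dir (φ b))| := by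
  have hxΩ := H.U_sub b hx
  filter_upwards [(HkT.loc O b).rest hx, self_mem_nhdsWithin] with y h2 hy hV
  have hyΩ := H.U_sub b hy
  have h3 := h2 hV
  have h4 := abs_tfam_comp_le hμ hS (h := h6.toFun) ((HkT.mem O b hxΩ).2 ((H.mem_U b hxΩ).1 hx))
    ((HkT.mem O b hyΩ).2 ((H.mem_U b hyΩ).1 hy))
  refine h4.trans (add_le_add (mul_le_mul_of_nonneg_left ?_ (by linarith [hμ b])) le_rfl)
  refine (mul_le_mul_of_nonneg_left h3 (T b).hw_pos.le).trans ?_
  rw [abs_sub_comm]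
  exact H.old_le hΩ b x y

end tube

end P073.H429
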