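import Vale.Agent.P073.H429.Prot3D

/-!
# P073, H429, K3C: **[PROT-L3]**, part 5: the map before the soft collapse, tolerances, numbers
-/

open Set Metric Topology Filter

set_option linter.unusedSectionVars false

namespace Vale.Agent.P073.H267.K3

open _root_.P073 _root_.P073.Net _root_.P073.PA691 _root_.P073.H236 _root_.P073.H579
open _root_.P073.H936 _root_.P073.H936.K3
open _root_.P073.H142
open _root_.P073.H345 (PK tg PLev)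
open Vale.Agent.P073.H669 (PK_compact PK_sub)
open _root_.P073.H919 (sfam sfam_e bw_pos')
open _root_.P073.H429
open _root_.P073.H237.Cov (pst)
open Vale.Agent.P073.St (V)
open Vale.Agent.P073.H471 Vale.Agent.P073.H267
open Vale.Agent.P073.H73 (Mesh)
open Vale.Agent.P073.H193 (Edges Cyc edges)
open Vale.Agent.P073.H304 (Nb In Zmax)
open Vale.Agent.P073.H926
open Vale.Agent.P073.H238.K3
open Vale.Agent.P073.H233 (LAt Xp PSet)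

variable {c₀ n δ : ℝ} {j : ℕ} {Ω Λ : Set V} {v w : V} {ρ : V → ℝ} {M : Mesh Ω} {h : ConHomeo Ω Λ}
  {J₀ J : Set (ℕ × (Fin 3 → ℤ))} {P Z : Set M.ι} {K : BoxCx Λ w}
  {D : KIn3 c₀ n j δ v w ρ M h J₀ J P Z} {C : Cells ρ w K} {C₀ μT : ℝ}
  {X : S1 D C C₀ μT} {Y₂ : S2 X} {Ys : Set M.κ} {sc : Sharp} {Y₃ : S3 Y₂ Ys sc}
  {Y₄ : S4 Y₃}

/-! ### the map before the soft collapse -/

/-- **`PreQ.prot`** for `Sm' ∘ h4`, where `Sm'` is any staircase of the tubes -/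
theorem S3.prot_aux (Y₃ : S3 Y₂ Ys sc) (hC : 1 ≤ C₀)
    (hθ : ∀ (s : (D.dat C).S₀) (β : Bool),
      (6 * (Y₃.F β).D s + Y₂.L.c s.1 β) * (4 / (D.B C).τ s.1) ≤ 1)
    {Pb : pG C J₀ → Set V} {Ft : HFam 3 (pG C J₀) Λ} {Dr : Set V} {ι' : pG C J₀ → Type}
    [∀ b, Fintype (ι' b)] {l hh : ∀ b, ι' b → ℝ} {ςt : pG C J₀ → ℝ} {Sm : ConHomeo Λ Λ}
    (HT : TLay (D.B C) (Subtype.val : pG C J₀ → K.G) Pb Ft Dr l hh ςt Y₃.h4 Y₃.h4 Sm)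
    (NT : TLn (D.G C) (Subtype.val : pG C J₀ → K.G) Ft l hh ςt)
    (hDr : ∀ i ∈ P, Disjoint (M.Q i) Dr) {D₁ : ℝ} (hD₁ : 84 * C₀ ≤ D₁) :
    ∀ i ∈ P, ∀ q > 0, (∀ x ∈ M.Q i, ∀ y ∈ M.Q i, ‖h.toFun x - h.toFun y‖ = q * ‖x - y‖) →
      ∀ x ∈ M.Q i, LAt (D.B C) (Xp C J₀) (D₁ * q) (M.Q i)
        (fun y => Sm.toFun (Y₃.h4.toFun y)) x := by
  intro i hi q hq hiso x hx
  have hQ := M.sub i
  have hD := hDr i hi
  have hC0 : 0 ≤ 21 * C₀ * q := by positivity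
  refine LAt.mono (L := (3 * 1 + 1) * (21 * C₀ * q)) ?_ Subset.rfl ?_
  · have := mul_le_mul_of_nonneg_right hD₁ hq.le
    linarith
  rcases Y₃.prot4 hC hθ hi hiso hx with h1 | ⟨hoff, ⟨k, hk, h2, h3⟩ | ⟨e, hee, h2, h3, h4, h5⟩⟩
  · refine lat_full HT NT hQ hD hx zero_le_one hC0 (fun b hb => ?_) xp_b ?_
    · refine ⟨21 * C₀ * q, hC0, mul_le_of_le_one_left hC0 (HT.ς1 b), ?_⟩
      filter_upwards [h1] with y h2 using h2 _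
    · filter_upwards [h1] with y h2 l
      rw [one_mul]
      exact h2 l
  · exact lat_zv HT NT hQ hD hx zero_le_one hC0
      (fun b hb => absurd (HT.KE b hb) (h3 b.1)) hk h2 h3
  · refine lat_v HT NT hQ hD hx zero_le_one hC0 (fun b hb => ?_) (e := e) (xp_b ⟨e, hee⟩) h2 h3
      h4 ?_
    · have hbe : b.1 = e := by
        by_contra hne
        exact Set.disjoint_left.1 (disjoint_se (W := D.W C) hne) (HT.Ese b hb) h2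
      refine ⟨21 * C₀ * q, hC0, mul_le_of_le_one_left hC0 (HT.ς1 b), ?_⟩
      rw [HT.j b, hbe]
      exact h5
    · rw [one_mul]
      exact h5

/-! ### tolerances and numbers -/

/-- **tolerances over the plates** -/
theorem exists_tol4 (D : KIn3 c₀ n j δ v w ρ M h J₀ J P Z) (C : Cells ρ w K)
    (f : ConHomeo Ω Λ) : ∃ t : (D.dat C).S₀ → ℝ, (∀ s, 0 < t s) ∧
      ∀ i ∈ P, ∀ q > 0, (∀ x ∈ M.Q i, ∀ y ∈ M.Q i, ‖h.toFun x - h.toFun y‖ = q * ‖x - y‖) →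
      ∀ s : (D.dat C).S₀, (∃ x ∈ M.Q i, f.toFun x ∈ PK (D.G C) s.1) → t s ≤ q := by
  have h1 : ∀ s : (D.dat C).S₀, ∃ t > 0, ∀ i ∈ P, ∀ q > 0,
      (∀ x ∈ M.Q i, ∀ y ∈ M.Q i, ‖h.toFun x - h.toFun y‖ = q * ‖x - y‖) →
      (∃ x ∈ M.Q i, f.toFun x ∈ PK (D.G C) s.1) → t ≤ q := fun s =>
    exists_tolP h.toFun P f (PK_compact (D.G C) s.1) (PK_sub (D.G C) s.1)
  choose t ht0 ht using h1
  exact ⟨t, ht0, fun i hi q hq hiso s hs => ht s i hi q hq hiso hs⟩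

/-- **tolerances over the tubes** -/
theorem exists_tol5 (D : KIn3 c₀ n j δ v w ρ M h J₀ J P Z) (C : Cells ρ w K)
    (f : ConHomeo Ω Λ) : ∃ t : pG C J₀ → ℝ, (∀ b, 0 < t b) ∧
      ∀ i ∈ P, ∀ q > 0, (∀ x ∈ M.Q i, ∀ y ∈ M.Q i, ‖h.toFun x - h.toFun y‖ = q * ‖x - y‖) →
      ∀ b : pG C J₀, (∃ x ∈ M.Q i, f.toFun x ∈ (D.B C).E b.1) → t b ≤ q := by
  have h1 : ∀ b : pG C J₀, ∃ t > 0, ∀ i ∈ P, ∀ q > 0,
      (∀ x ∈ M.Q i, ∀ y ∈ M.Q i, ‖h.toFun x - h.toFun y‖ = q * ‖x - y‖) →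
      (∃ x ∈ M.Q i, f.toFun x ∈ (D.B C).E b.1) → t ≤ q := fun b => by
    have h2 : IsCompact ((D.B C).E b.1) := by
      rw [← YB_sym_one]
      exact isCompact_Icc
    have h3 : (D.B C).E b.1 ⊆ Λ := by
      rw [← YB_sym_one]
      exact YB_sub _ _
    exact exists_tolP h.toFun P f h2 h3
  choose t ht0 ht using h1
  exact ⟨t, ht0, fun i hi q hq hiso s hs => ht s i hi q hq hiso hs⟩

/-- the number of `h4` from bounds by `oS` -/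
theorem S3.theta_of (Y₃ : S3 Y₂ Ys sc) (hD : ∀ (s : (D.dat C).S₀) (β : Bool),
      (Y₃.F β).D s ≤ (D.G C).oS s.1)
    (hc : ∀ (s : (D.dat C).S₀) (β : Bool), Y₂.L.c s.1 β ≤ (D.G C).oS s.1)
    (s : (D.dat C).S₀) (β : Bool) :
    (6 * (Y₃.F β).D s + Y₂.L.c s.1 β) * (4 / (D.B C).τ s.1) ≤ 1 := by
  have h1 := hD s β
  have h2 := hc s β
  have h3 := (D.G C).oS_τ s.1
  have h4 := (D.B C).τ_pos s.1
  rw [mul_div_assoc', div_le_one h4]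
  linarith

/-- the number of the second staircases from a bound by `oS` -/
theorem S4.tausg_of (Y₄ : S4 Y₃)
    (hst : ∀ (s : (D.dat C).S₀) (β : Bool), pst Y₃.Lt s.1 β ≤ (D.G C).oS s.1)
    (s : (D.dat C).S₀) (β : Bool) :
    4 * (sfam (Y₃.F β) (fun s => Y₄.q s * Y₄.r s) Y₄.p0 Y₄.p1).e s / (D.B C).τ s.1 ≤ 1 := by
  have h1 := hst s β
  have h3 := (D.G C).oS_τ s.1
  have h4 := (D.B C).τ_pos s.1
  have h5 := sfam_e Y₃.pst' Y₄.p0 Y₄.p1 β s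
  have h6 := mul_pos (Y₄.p0 s) (bw_pos' Y₃.pst' β s)
  have h7 : (sfam (Y₃.F β) (fun s => Y₄.q s * Y₄.r s) Y₄.p0 Y₄.p1).e s ≤
      pst Y₃.Lt s.1 β / 2 := by
    rw [h5]
    show pst Y₃.Lt s.1 β / 2 - _ ≤ _
    linarith
  have h8 := Y₃.pst_pos s.1 β
  rw [div_le_one h4]
  linarith

theorem S4.rq_of (Y₄ : S4 Y₃) (hr : ∀ s, 3 / 4 ≤ Y₄.r s) (hq : ∀ s, 3 / 4 ≤ Y₄.q s)
    (s : (D.dat C).S₀) : 1 / 2 ≤ Y₄.q s * Y₄.r s := by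
  have h1 := hr s
  have h2 := hq s
  nlinarith

/-- **`Last3.prot`**, with the numbers bounded by `oS` and the tolerances of `exists_tol4`,
`exists_tol5` -/
theorem S5.protN (Y₅ : S5 Y₄) (hC : 1 ≤ C₀)
    (hD : ∀ (s : (D.dat C).S₀) (β : Bool), (Y₃.F β).D s ≤ (D.G C).oS s.1)
    (hc : ∀ (s : (D.dat C).S₀) (β : Bool), Y₂.L.c s.1 β ≤ (D.G C).oS s.1)
    (hst : ∀ (s : (D.dat C).S₀) (β : Bool), pst Y₃.Lt s.1 β ≤ (D.G C).oS s.1)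
    (hr : ∀ s, 3 / 4 ≤ Y₄.r s) (hq : ∀ s, 3 / 4 ≤ Y₄.q s)
    {t4 : (D.dat C).S₀ → ℝ}
    (ht4 : ∀ i ∈ P, ∀ q > 0, (∀ x ∈ M.Q i, ∀ y ∈ M.Q i, ‖h.toFun x - h.toFun y‖ = q * ‖x - y‖) →
      ∀ s : (D.dat C).S₀, (∃ x ∈ M.Q i, Y₄.h5.toFun x ∈ PK (D.G C) s.1) → t4 s ≤ q)
    (hε4 : ∀ s, Y₄.ε s ≤ t4 s)
    (μ0 : ∀ b, 0 ≤ Y₅.μ b) (μ1 : ∀ b, Y₅.μ b ≤ 1)
    (μu : ∀ b : pG C J₀, Y₅.μ b * (ebe (D.W C) b.1 - eal (D.W C) b.1) ≤ (D.G C).uT b.1 / 4)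
    {t5 : pG C J₀ → ℝ}
    (ht5 : ∀ i ∈ P, ∀ q > 0, (∀ x ∈ M.Q i, ∀ y ∈ M.Q i, ‖h.toFun x - h.toFun y‖ = q * ‖x - y‖) →
      ∀ b : pG C J₀, (∃ x ∈ M.Q i, Y₅.h6.toFun x ∈ (D.B C).E b.1) → t5 b ≤ q)
    (hε5 : ∀ b, Y₅.ε b ≤ t5 b) {D₁ : ℝ} (hD₁ : 1642 * C₀ ≤ D₁) :
    ∀ i ∈ P, ∀ q > 0, (∀ x ∈ M.Q i, ∀ y ∈ M.Q i, ‖h.toFun x - h.toFun y‖ = q * ‖x - y‖) →
      ∀ x ∈ M.Q i, LAt (D.B C) (Xp C J₀) (D₁ * q) (M.Q i) Y₅.f.toFun x := by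
  exact Y₅.prot hC (Y₃.theta_of hD hc) (Y₄.rq_of hr hq) (Y₄.tausg_of hst)
    (fun i hi q hq hiso s hs => (hε4 s).trans (ht4 i hi q hq hiso s hs)) μ0 μ1 μu
    (fun i hi q hq hiso b hb => (hε5 b).trans (ht5 i hi q hq hiso b hb)) hD₁

end Vale.Agent.P073.H267.K3
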