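import Vale.Agent.P073.H429.Prot3D
import Vale.Agent.P073.H193.CellPT

/-!
# P073, H429, K3C: `f5` on the protected cells, in the direction of a tube
-/

open Set Metric Topology Filter

set_option linter.unusedSectionVars false

namespace Vale.Agent.P073.H267.K3

open _root_.P073 _root_.P073.Net _root_.P073.PA691 _root_.P073.H236 _root_.P073.H579
open _root_.P073.H936 _root_.P073.H936.K3
open _root_.P073.H142
open _root_.P073.H345 (PK tg PLev bt tg_bt)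
open _root_.P073.H919 (sfam HB HB_PB mem_HB)
open _root_.P073.H228 _root_.P073.H228.EP
open _root_.P073.H880.RP
open _root_.P073.H429
open Vale.Agent.P073.St (V)
open Vale.Agent.P073.H471 Vale.Agent.P073.H267
open Vale.Agent.P073.H73 (Mesh)
open Vale.Agent.P073.H193 (Edges Cyc edges plate_tube)
open Vale.Agent.P073.H304 (Nb In Zmax)
open Vale.Agent.P073.H926
open Vale.Agent.P073.H238.K3
open Vale.Agent.P073.H190.Tvp (wP)

variable {c₀ n δ : ℝ} {j : ℕ} {Ω Λ : Set V} {v w : V} {ρ : V → ℝ} {M : Mesh Ω} {h : ConHomeo Ω Λ}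
  {J₀ J : Set (ℕ × (Fin 3 → ℤ))} {P Z : Set M.ι} {K : BoxCx Λ w}
  {D : KIn3 c₀ n j δ v w ρ M h J₀ J P Z} {C : Cells ρ w K} {C₀ μT : ℝ}
  {X : S1 D C C₀ μT} {Y₂ : S2 X} {Ys : Set M.κ} {sc : Sharp} {Y₃ : S3 Y₂ Ys sc}
  {Y₄ : S4 Y₃}

/-- **`f5` on a protected cell, in the direction of a tube** -/
theorem S4.f5_tube_prot (Y₄ : S4 Y₃) (hC : 1 ≤ C₀)
    (hθ : ∀ (s : (D.dat C).S₀) (β : Bool),
      (6 * (Y₃.F β).D s + Y₂.L.c s.1 β) * (4 / (D.B C).τ s.1) ≤ 1)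
    (hrq : ∀ s : (D.dat C).S₀, 1 / 2 ≤ Y₄.q s * Y₄.r s)
    (hτσ : ∀ (s : (D.dat C).S₀) (β : Bool),
      4 * (sfam (Y₃.F β) (fun s => Y₄.q s * Y₄.r s) Y₄.p0 Y₄.p1).e s / (D.B C).τ s.1 ≤ 1)
    {i : M.ι} (hi : i ∈ P) {q : ℝ} (hq : 0 < q)
    (hiso : ∀ x ∈ M.Q i, ∀ y ∈ M.Q i, ‖h.toFun x - h.toFun y‖ = q * ‖x - y‖)
    (hε : ∀ s : (D.dat C).S₀, (∃ x ∈ M.Q i, Y₄.h5.toFun x ∈ PK (D.G C) s.1) → Y₄.ε s ≤ q)
    {b : pG C J₀} {x : V} (hx : x ∈ M.Q i)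
    (hb : Y₄.f5.toFun x ∈ YB ((YS (D.G C)).add (rT (D.G C)) (rT_pos (D.G C))
      (fun e k => (YS_p_lt (D.G C) e k).le) fun e k => (YS_q_lt (D.G C) e k).le) b.1)
    {D₁ : ℝ} (hD₁ : 547 * C₀ ≤ D₁) :
    ∀ᶠ y in 𝓝[M.Q i] x, |Y₄.f5.toFun y (K.dir b.1) - Y₄.f5.toFun x (K.dir b.1)| ≤
      D₁ * q * ‖y - x‖ := by
  have hQ := M.sub i
  have hxΩ := hQ hx
  have hC0 : 0 ≤ C₀ := by linarith
  have hmul : ∀ {a : ℝ}, a ≤ D₁ → ∀ y : V, a * q * ‖y - x‖ ≤ D₁ * q * ‖y - x‖ := fun ha y =>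
    mul_le_mul_of_nonneg_right (mul_le_mul_of_nonneg_right ha hq.le) (norm_nonneg _)
  have hcont : ContinuousWithinAt Y₄.f5.toFun (M.Q i) x := (Y₄.f5.cont.mono hQ) x hx
  rcases Y₃.prot4 hC hθ hi hiso hx with h1 | ⟨hoff, hz⟩
  · by_cases hB : ∃ s : (D.dat C).S₀, Y₃.h4.toFun x ∈ HB (D.G C) (29 / 32) (3 / 4) s.1
    · obtain ⟨s, hs⟩ := hB
      have hPK := hB_PK Y₄.H s hs
      have h5B := (Y₄.hko.mem s hxΩ).2 hs
      have hp5 : Y₄.h5.toFun x ∈ (D.G C).PB (7 / 8) s.1 := HB_PB Y₄.H.hc Y₄.H.hd s.1 h5B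
      have hfP : Y₄.f5.toFun x ∈ (D.G C).PB (7 / 8) s.1 := by
        rw [Y₄.map5 x hxΩ]
        exact Y₄.sg.mem_PB le_rfl (by norm_num) hp5
      obtain ⟨-, hne, hwin, -, -⟩ := plate_tube hfP hb
      obtain ⟨β, hβ⟩ : ∃ β, K.dir b.1 = tg s.1 β := ⟨bt s.1 (K.dir b.1), (tg_bt s.1 hne).symm⟩
      have hwin' : ∀ᶠ y in 𝓝[M.Q i] x,
          K.slo s.1 (K.dir b.1) + (D.G C).a s.1 < Y₄.f5.toFun y (K.dir b.1) ∧
          Y₄.f5.toFun y (K.dir b.1) < K.shi s.1 (K.dir b.1) - (D.G C).a s.1 := by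
        have hc : ContinuousWithinAt (fun y => Y₄.f5.toFun y (K.dir b.1)) (M.Q i) x :=
          (continuous_apply (K.dir b.1)).continuousAt.comp_continuousWithinAt hcont
        exact (hc.eventually (lt_mem_nhds hwin.1)).and (hc.eventually (gt_mem_nhds hwin.2))
      have h5 : Y₄.h5.toFun x ∈ PK (D.G C) s.1 := (hkGO_PK Y₄.hko hxΩ s.1).2 hPK
      have h6 := hε s ⟨x, hx, h5⟩
      filter_upwards [Y₄.f5_in hrq hτσ hi hx hPK h1 β, hwin'] with y h7 h8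
      have a1 : wP (D.G C) s.1 β (Y₄.f5.toFun x (tg s.1 β)) = Y₄.f5.toFun x (tg s.1 β) := by
        rw [hβ] at hwin
        exact Y₄.sg.wP_eq ⟨hwin.1.le, hwin.2.le⟩
      have a2 : wP (D.G C) s.1 β (Y₄.f5.toFun y (tg s.1 β)) = Y₄.f5.toFun y (tg s.1 β) := by
        rw [hβ] at h8
        exact Y₄.sg.wP_eq ⟨h8.1.le, h8.2.le⟩
      rw [a1, a2] at h7
      rw [hβ]
      refine h7.trans ((?_ : _ ≤ 547 * C₀ * q * ‖y - x‖).trans (hmul hD₁ y))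
      have h9 := mul_le_mul_of_nonneg_right h6 (norm_nonneg (y - x))
      have h10 : 0 ≤ q * ‖y - x‖ := mul_nonneg hq.le (norm_nonneg _)
      nlinarith
    · push Not at hB
      filter_upwards [Y₄.f5_far hrq hτσ hQ hx hB h1] with y h3
      refine (h3 _).trans ((?_ : _ ≤ 547 * C₀ * q * ‖y - x‖).trans (hmul hD₁ y))
      have h10 : 0 ≤ q * ‖y - x‖ := mul_nonneg hq.le (norm_nonneg _)
      nlinarith
  · have h4off : ∀ s : (D.dat C).S₀, Y₃.h4.toFun x ∉ PK (D.G C) s.1 := fun s h2 =>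
      hoff s.1 s.2 ((Y₃.h4_PK hi hx).1 h2)
    have he : ∀ᶠ y in 𝓝[M.Q i] x, Y₄.f5.toFun y = Y₃.h4.toFun y := by
      filter_upwards [hkGO_rel_off Y₄.hko Y₄.sg hQ hx h4off, self_mem_nhdsWithin] with y h2 hy
      rw [Y₄.map5 y (hQ hy), h2]
    have h0 : Y₄.f5.toFun x = Y₃.h4.toFun x := he.self_of_nhdsWithin hx
    have hbE : Y₃.h4.toFun x ∈ (D.B C).E b.1 := by
      rw [← h0]
      exact YB_sub_E _ _ hb
    rcases hz with ⟨k, hk, h2, h3⟩ | ⟨e, hee, h2, h3, h4, h5⟩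
    · exact absurd hbE (h3 b.1)
    · have hbe : b.1 = e := by
        by_contra hne
        exact Set.disjoint_left.1 (disjoint_se (W := D.W C) hne)
          (Ze_subset ((D.B C).E_subset b.1 hbE)) h2
      rw [hbe]
      filter_upwards [h5, he] with y h6 h7
      rw [h7, h0]
      refine h6.trans (hmul (by linarith) y)

end Vale.Agent.P073.H267.K3
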