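import Vale.Agent.P073.H193.CellG
import Vale.Agent.P073.H237.LatP
import Vale.Agent.P073.H429.Prot3F

/-!
# P073, H429, [CELL3]: the faces of a cell drawn in a tube which are in a protected cell, or peeled
-/

open Set Metric Topology Filter
open scoped ENNReal

set_option linter.unusedSectionVars false

namespace Vale.Agent.P073.H267.K3

open _root_.P073 _root_.P073.Net _root_.P073.PA691 _root_.P073.H236 _root_.P073.H579
open _root_.P073.H936 _root_.P073.H936.K3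
open _root_.P073.H142
open _root_.P073.H345 (PK tg PLev bt tg_bt)
open _root_.P073.H880 _root_.P073.H880.RP
open _root_.P073.H919 (sfam HB HB_PB mem_HB bw_pos' sfam_e slAK_sfam_plate)
open _root_.P073.H429
open _root_.P073.H228 _root_.P073.H228.EP
open Vale.Agent.P073.St (V)
open Vale.Agent.P073.AB (Idx squ)
open Vale.Agent.P073.H471 Vale.Agent.P073.H267
open Vale.Agent.P073.H73 (Mesh)
open Vale.Agent.P073.H193 (Edges edges plate_tube FaceCl prot_sim faceCl_of_loc con_mono)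
open Vale.Agent.P073.H926
open Vale.Agent.P073.H238.K3

variable {c₀ n δ : ℝ} {j : ℕ} {Ω Λ : Set V} {v w : V} {ρ : V → ℝ} {M : Mesh Ω} {h : ConHomeo Ω Λ}
  {J₀ J : Set (ℕ × (Fin 3 → ℤ))} {P Z : Set M.ι} {K : BoxCx Λ w}
  {D : KIn3 c₀ n j δ v w ρ M h J₀ J P Z} {C : Cells ρ w K} {C₀ μT : ℝ}
  {X : S1 D C C₀ μT} {Y₂ : S2 X} {Ys : Set M.κ} {sc : Sharp} {Y₃ : S3 Y₂ Ys sc}
  {Y₄ : S4 Y₃} {b : pG C J₀} {i : M.ι} {k : M.κ}

/-- a cell drawn in a tube is in the support of the last staircase -/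
theorem mem_YS_of_ZbT (hi : i ∈ ZbT Y₄ b) {x : V} (hx : x ∈ M.Q i) :
    Y₄.f5.toFun x ∈ YB ((YS (D.G C)).add (rT (D.G C)) (rT_pos (D.G C))
      (fun e k => (YS_p_lt (D.G C) e k).le) fun e k => (YS_q_lt (D.G C) e k).le) b.1 := by
  refine YB_mono (fun e k => (YT_YS_p (D.G C) (pS C J₀) e k).trans ?_)
    (fun e k => (YT_YS_q (D.G C) (pS C J₀) e k).trans ?_) _
    (interior_subset (hi.2.2 (mem_image_of_mem _ hx)))
  · show (YS (D.G C)).p e k ≤ (YS (D.G C)).p e k + rT (D.G C) e k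
    linarith [rT_pos (D.G C) e k]
  · show (YS (D.G C)).q e k ≤ (YS (D.G C)).q e k + rT (D.G C) e k
    linarith [rT_pos (D.G C) e k]

/-- **the faces of a cell drawn in a tube which are in a protected cell** -/
theorem faceCl_Tprot (Y₄ : S4 Y₃) (hC : 1 ≤ C₀)
    (hθ : ∀ (s : (D.dat C).S₀) (β : Bool),
      (6 * (Y₃.F β).D s + Y₂.L.c s.1 β) * (4 / (D.B C).τ s.1) ≤ 1)
    (hrq : ∀ s : (D.dat C).S₀, 1 / 2 ≤ Y₄.q s * Y₄.r s)
    (hτσ : ∀ (s : (D.dat C).S₀) (β : Bool),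
      4 * (sfam (Y₃.F β) (fun s => Y₄.q s * Y₄.r s) Y₄.p0 Y₄.p1).e s / (D.B C).τ s.1 ≤ 1)
    (hε4 : ∀ i ∈ P, ∀ q > 0, (∀ x ∈ M.Q i, ∀ y ∈ M.Q i, ‖h.toFun x - h.toFun y‖ = q * ‖x - y‖) →
      ∀ s : (D.dat C).S₀, (∃ x ∈ M.Q i, Y₄.h5.toFun x ∈ PK (D.G C) s.1) → Y₄.ε s ≤ q)
    (hi : i ∈ ZbT Y₄ b) (hk : M.F k ⊆ M.Q i) {i' : M.ι} (hi' : i' ∈ P) (hk' : M.F k ⊆ M.Q i')
    {sq : Idx × Fin 3} (hsq : M.F k = squ v sq) {bb : (edges M).ε → ℝ}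
    (hb : ∀ e, (edges M).seg e ⊆ M.F k →
      ‖h.toFun ((edges M).b e) - h.toFun ((edges M).a e)‖ ≤ bb e)
    {D₁ : ℝ} (hD₁ : 547 * C₀ ≤ D₁) :
    FaceCl M k (X.T k) bb D₁ D₁ (fun x y =>
      1 * |Y₄.f5.toFun x (K.dir b.1) - Y₄.f5.toFun y (K.dir b.1)|) := by
  obtain ⟨q, hq0, hq⟩ := prot_sim D hi'
  have hcv : Convex ℝ (M.F k) := (H193.pgn_of_fat (M.fat k)).convex
  have hD0 : 0 ≤ D₁ := by linarith
  have hloc : ∀ x ∈ M.F k, ∀ᶠ y in 𝓝[M.F k] x,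
      ‖Y₄.f5.toFun y (K.dir b.1) - Y₄.f5.toFun x (K.dir b.1)‖ ≤ D₁ * q * ‖y - x‖ := by
    intro x hx
    have h1 := Y₄.f5_tube_prot hC hθ hrq hτσ hi' hq0 hq (hε4 i' hi' q hq0 hq) (hk' hx)
      (mem_YS_of_ZbT hi (hk hx)) hD₁
    filter_upwards [nhdsWithin_mono x hk' h1] with y hy
    rw [Real.norm_eq_abs]
    exact hy
  have hlip := _root_.P073.H142.lip_of_local hcv (g := fun x => Y₄.f5.toFun x (K.dir b.1)) hloc
  refine FaceCl.of_lip (q := q) (L := D₁ * q) hq0.le (by positivity) hsq (fun e he => ?_)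
    (fun x hx y hy => ?_) le_rfl le_rfl hD0 hD0
  · have ha : (edges M).a e ∈ M.Q i' := hk' (he (left_mem_segment ℝ _ _))
    have hb' : (edges M).b e ∈ M.Q i' := hk' (he (right_mem_segment ℝ _ _))
    rw [← hq _ hb' _ ha]
    exact hb e he
  · rw [one_mul]
    exact hlip x hx y hy

/-! ### the peeled faces -/

/-- the clauses of a peeled face for the bands -/
theorem faceCl_pk (Y₃ : S3 Y₂ Ys sc) {s : K.S} (hs : (D.dat C).PkS (D.G C) X.h1 s k)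
    {bb : (edges M).ε → ℝ} (hb : ∀ e, (edges M).seg e ⊆ M.F k → 0 ≤ bb e) {r q C₁ C₂ : ℝ}
    (hr : 0 ≤ r)
    (hLa : ∀ e, (edges M).seg e ⊆ M.F k →
      Y₃.La e * ‖(edges M).b e - (edges M).a e‖ ≤ q * bb e)
    (hWe : ∀ e, (edges M).seg e ⊆ M.F k → Y₃.We e ≤ q * bb e)
    (h1 : k ∉ Ys → 156 * (1 + (X.T k).R / (X.T k).rho) * (r * q) ≤ C₁ ∧ 8 * (r * q) ≤ C₂)
    (h2 : k ∈ Ys → FW31.DK sc.K * (1 + (X.T k).R / (X.T k).rho) * (r * q) ≤ C₁ ∧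
      FW31.DK sc.K * (r * q) ≤ C₂) :
    FaceCl M k (X.T k) bb C₁ C₂ (fun x y => r * bandD (Y₂.L.lv s) (Y₃.Lt.loP s) (Y₃.Lt.hiP s)
      (Y₃.Lt.omP s) (Y₃.h3.toFun x) (Y₃.h3.toFun y)) := by
  obtain ⟨Φ, hΦ, hg⟩ := Y₃.ins.out.face k ⟨s, hs⟩
  by_cases hY : k ∈ Ys
  · obtain ⟨h3, h4⟩ := h2 hY
    exact FW31.GFY.faceCl hΦ hs hr hb hLa hWe h3 h4 hg
  · obtain ⟨h3, h4⟩ := h1 hY
    exact GFP.faceCl (hΦ.1 hY) hs hr hb hLa hWe h3 h4 hg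

/-- **the peeled faces of a cell drawn in a tube** -/
theorem faceCl_Tpeel (Y₄ : S4 Y₃) (hi : i ∈ ZbT Y₄ b) (hk : M.F k ⊆ M.Q i) {s : K.S}
    (hs : (D.dat C).PkS (D.G C) X.h1 s k) {sq : Idx × Fin 3} (hsq : M.F k = squ v sq)
    (hrq : 1 / 2 ≤ Y₄.q ⟨s, hs.1⟩ * Y₄.r ⟨s, hs.1⟩)
    {bb : (edges M).ε → ℝ} (hb : ∀ e, (edges M).seg e ⊆ M.F k → 0 ≤ bb e) {q Cc : ℝ}
    (hq : 0 ≤ q)
    (hLa : ∀ e, (edges M).seg e ⊆ M.F k →
      Y₃.La e * ‖(edges M).b e - (edges M).a e‖ ≤ q * bb e)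
    (hWe : ∀ e, (edges M).seg e ⊆ M.F k → Y₃.We e ≤ q * bb e)
    (hε : ∀ e, (edges M).seg e ⊆ M.F k →
      Y₄.ε ⟨s, hs.1⟩ * ‖(edges M).b e - (edges M).a e‖ ≤ bb e)
    (h1 : k ∉ Ys → 55 * (624 * q + 1) ≤ Cc)
    (h2 : k ∈ Ys → 55 * (4 * (FW31.DK sc.K * q) + 1) ≤ Cc) :
    FaceCl M k (X.T k) bb Cc Cc (fun x y =>
      1 * |Y₄.f5.toFun x (K.dir b.1) - Y₄.f5.toFun y (K.dir b.1)|) := by
  set sS : (D.dat C).S₀ := ⟨s, hs.1⟩ with hsS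
  have hkΩ : M.F k ⊆ Ω := Vale.Agent.P073.H193.mesh_sub M k
  have PST := _root_.P073.H919.PSt.of_PS3 Y₃.ps
  have hfsq := _root_.P073.H950.face_eq hsq
  have hσ : (0:ℝ) < 1 / 2 / 2 ^ sq.1.1 := by positivity
  have hRr : (X.T k).R / (X.T k).rho = 1 := by
    obtain ⟨-, e1, e2⟩ := (X.T k).sq _ _ _ hσ hfsq
    rw [e1, e2, div_self hσ.ne']
  have hDK0 : 0 ≤ FW31.DK sc.K := by linarith [FW31.DK_ge sc.K]
  -- the constant of the bands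
  obtain ⟨Cb, hCb0, hCb, hCc⟩ : ∃ Cb : ℝ, 0 ≤ Cb ∧ FaceCl M k (X.T k) bb Cb Cb (fun x y =>
      1 * bandD (Y₂.L.lv s) (Y₃.Lt.loP s) (Y₃.Lt.hiP s) (Y₃.Lt.omP s) (Y₃.h3.toFun x)
        (Y₃.h3.toFun y)) ∧ 55 * (2 * Cb + 1) ≤ Cc := by
    by_cases hY : k ∈ Ys
    · refine ⟨2 * (FW31.DK sc.K * q), by positivity, faceCl_pk Y₃ hs hb zero_le_one hLa hWe
        (fun h => absurd hY h) (fun _ => ⟨?_, ?_⟩), ?_⟩
      · rw [hRr]; linarith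
      · have := mul_nonneg hDK0 hq
        linarith
      · have := h2 hY
        linarith
    · refine ⟨312 * q, by positivity, faceCl_pk Y₃ hs hb zero_le_one hLa hWe
        (fun _ => ⟨?_, ?_⟩) (fun h => absurd h hY), ?_⟩
      · rw [hRr]; linarith
      · linarith
      · have := h1 hY
        linarith
  have hpos : ∀ y ∈ M.F k, Y₃.h4.toFun y ∈ (D.G C).PB (7 / 8) s := fun y hy =>
    HB_PB (by norm_num) (by norm_num) s (Y₃.pk_HB hs hy)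
  have hh5 : ∀ y ∈ M.F k, Y₄.h5.toFun y ∈ PK (D.G C) s := fun y hy =>
    (hkGO_PK Y₄.hko (hkΩ hy) s).2 (_root_.P073.H345.PB_sub_PK (by norm_num) s (hpos y hy))
  have hst : ∀ β, stp (Y₃.Lt.N s β) (K.slo s (tg s β) + (D.G C).a s)
      (K.shi s (tg s β) - (D.G C).a s) = Y₂.Lw.om s true := fun β => Y₂.Lw.om_eq s β true
  have h00 : 0 < Y₂.Lw.om s true := by
    rw [← hst true]
    exact stp_pos (Y₃.Lt.bx true s)
  have hlv : Y₃.Lt.lv s = Y₂.L.lv s := funext fun j => thinL_lv s j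
  -- positions of `f5`
  have hf5 : ∀ y ∈ M.F k, Y₄.f5.toFun y ∈ (D.G C).PB (7 / 8) s := fun y hy => by
    rw [Y₄.map5 y (hkΩ hy)]
    exact Y₄.sg.mem_PB le_rfl (by norm_num) (hkGO_pos (s := sS) Y₄.hko hpos hy)
  have hwin : ∀ y ∈ M.F k, K.dir b.1 ≠ K.nrm s ∧ Y₄.f5.toFun y (K.dir b.1) ∈
      pwin (D.G C) s (K.dir b.1) := fun y hy => by
    obtain ⟨-, a1, a2, -, -⟩ := plate_tube (hf5 y hy) (mem_YS_of_ZbT hi (hk hy))
    exact ⟨a1, a2.1.le, a2.2.le⟩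
  have hfc := faceCl_of_loc (T := X.T k) hsq hb (C := 2 * Cb + 1) (ρ := 1) (by positivity)
    zero_le_one (g := fun x => Y₄.f5.toFun x (K.dir b.1)) (fun e he x hx => ?_)
  · refine hfc.mono hb (fun _ _ _ _ => le_rfl) ?_ ?_
    · linarith
    · linarith
  · have hsub : coneSetAt (X.T k).O ((edges M).seg e) ⊆ M.F k := fun y hy =>
      (X.T k).cone_sub he hy
    have hcvx := _root_.P073.H142.convex_cone_seg (X.T k).O e
    have hlip5 := _root_.P073.H142.lip_of_local hcvx (g := Y₄.h5.toFun) (K := Y₄.K₂ sS)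
      (fun x hx => nhdsWithin_le_nhds (Y₄.lip5 sS x (hkΩ (hsub hx)) (hh5 x (hsub hx))))
    have hel := _root_.P073.H142.elen_pos (edges M) e
    have hcon : 2 * (X.T k).con Cb bb e + Y₄.ε sS ≤ (X.T k).con (2 * Cb + 1) bb e := by
      have a1 : Y₄.ε sS ≤ bb e / ‖(edges M).b e - (edges M).a e‖ :=
        (le_div_iff₀ hel).2 (hε e he)
      have a2 : 0 ≤ (∑ e ∈ ((edges M).fin_face k).toFinset, bb e) / (X.T k).rho :=
        div_nonneg (Finset.sum_nonneg fun e he =>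
          hb e (((edges M).fin_face k).mem_toFinset.1 he)) (X.T k).rho_pos.le
      unfold FStar.con
      nlinarith
    have key := hkGO_face_cone (s := sS) Y₄.hko Y₄.sg (r' := Y₄.q sS * Y₄.r sS) (Y₄.p0 sS)
      (mul_le_of_le_one_left (Y₄.r0 sS).le (Y₄.q1 sS).le) (Y₄.r1 sS) (k := k) hpos
      (fun β => bw_pos' PST β sS) (fun β => sfam_e PST Y₄.p0 Y₄.p1 β sS) (a := 1)
      (om := Y₂.Lw.om s true) (ρ := 1) (fun β => ?_) zero_le_one h00.le zero_le_one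
      (fun β => ?_) (A := coneSetAt (X.T k).O ((edges M).seg e)) hsub
      (K₁ := (X.T k).con Cb bb e) (K₂ := Y₄.K₂ sS) (ε := Y₄.ε sS)
      (Lc := (X.T k).con (2 * Cb + 1) bb e) (fun x hx y hy => ?_) hlip5 (Y₄.ςK · sS) ?_ hx
    · filter_upwards [key, self_mem_nhdsWithin] with y h3 hy
      obtain ⟨b1, b2⟩ := hwin x (hsub hx)
      obtain ⟨-, b4⟩ := hwin y (hsub hy)
      have h5 := h3 (K.dir b.1) b1
      rw [← Y₄.map5 x (hkΩ (hsub hx)), ← Y₄.map5 y (hkΩ (hsub hy))] at h5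
      exact h5 b2 b4
    · have e1 := slAK_sfam_plate PST Y₄.p0 Y₄.p1 (ς := Y₄.ς β) (fun b => (Y₄.ς0 β b).le) β sS
      have e2 : stp (Y₃.Lt.N sS.1 β) (K.slo sS.1 (tg sS.1 β) + (D.G C).a sS.1)
        (K.shi sS.1 (tg sS.1 β) - (D.G C).a sS.1) = Y₂.Lw.om s true := hst β
      rw [e2] at e1
      refine e1.trans ?_
      rw [div_le_iff₀ (Y₄.p0 sS)]
      nlinarith
    · have e2 : stp (Y₃.Lt.N sS.1 β) (K.slo sS.1 (tg sS.1 β) + (D.G C).a sS.1)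
        (K.shi sS.1 (tg sS.1 β) - (D.G C).a sS.1) = Y₂.Lw.om s true := hst β
      rw [e2, one_mul]
    · have e3 := hCb.cone e he x hx y hy
      rw [one_mul] at e3
      rw [(Y₃.pk_map hs (hsub hx)).2, (Y₃.pk_map hs (hsub hy)).2]
      show bandD (Y₃.Lt.lv s) _ _ _ _ _ ≤ _
      rw [hlv]
      exact e3
    · linarith

end Vale.Agent.P073.H267.K3
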