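import Vale.Agent.P073.H237.SharpDefs

/-!
# P073, H429, SHARP2 (X5) `SpecComb`: conclusions 4, 5, 6 (order and positions of the through arcs)
-/

open Set Metric Topology

namespace P073.H429

open P073.H31 P073.H237

variable {X : Ends} {m c ρ om : ℝ}

theorem mem_on {i : ℕ} {s : Bool} {e : Fin 4} : (i, s) ∈ X.on e ↔ i < X.n ∧ X.e i s = e := by
  simp [Ends.on]

theorem mem_th {i : ℕ} {d : Bool} : i ∈ X.th d ↔ i < X.n ∧ X.thr i ∧ X.typ i = d := by
  classical
  simp [Ends.th]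

/-- two through arcs of the same type have their ends on the same edges -/
theorem e_eq {i j : ℕ} (hi : X.thr i) (hj : X.thr j) (h : X.typ i = X.typ j) (s : Bool) :
    X.e i s = X.e j s := by
  rcases hi with ⟨h1, h2, h3⟩ | ⟨h1, h2, h3⟩ <;> rcases hj with ⟨g1, g2, g3⟩ | ⟨g1, g2, g3⟩
  · cases s
    · rw [h2, g2]
    · rw [h3, g3]
  · rw [h1, g1] at h; exact absurd h (by decide)
  · rw [h1, g1] at h; exact absurd h (by decide)
  · cases s
    · rw [h2, g2]
    · rw [h3, g3]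

/-- the rank is less than the number of the ends on the edge -/
theorem rk_lt {i : ℕ} (hi : i < X.n) (s : Bool) : X.rk i s < (X.on (X.e i s)).card := by
  unfold Ends.rk
  apply Finset.card_lt_card
  refine Finset.filter_ssubset.2 ⟨(i, s), mem_on.2 ⟨hi, rfl⟩, lt_irrefl _⟩

/-- elementary bounds -/
theorem lo_bounds (H : X.Near m c ρ om) (hm : 0 < m) (hm' : m < 1 / 4) (hc : 0 < c) {i : ℕ}
    (hi : i < X.n) (s : Bool) : 0 < X.lo i s ∧ X.lo i s < X.hi i s ∧ X.hi i s < 1 := by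
  obtain ⟨h1, h2, h3⟩ := H.cell i hi s
  have hrk := rk_lt hi s
  have hN : (0:ℝ) < (X.on (X.e i s)).card := by
    have : 0 < (X.on (X.e i s)).card := by omega
    exact_mod_cast this
  have hm2 : 0 < 1 - 2 * m := by linarith
  have hrk' : (X.rk i s : ℝ) + 1 ≤ (X.on (X.e i s)).card := by exact_mod_cast hrk
  have hrk0 : (0:ℝ) ≤ X.rk i s := Nat.cast_nonneg _
  refine ⟨?_, ?_, ?_⟩
  · have : 0 < (1 - 2 * m) * (X.rk i s + c) / (X.on (X.e i s)).card := by positivity
    linarith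
  · have : 0 < c * (1 - 2 * m) / (X.on (X.e i s)).card := by positivity
    linarith
  · have : (1 - 2 * m) * (X.rk i s + 1 - c) / (X.on (X.e i s)).card ≤ 1 - 2 * m := by
      rw [div_le_iff₀ hN]
      exact mul_le_mul_of_nonneg_left (by linarith) hm2.le
    linarith

/-- the order of the through arcs of a type is the same on both edges -/
theorem lo_lt (H : X.Near m c ρ om) (hm : 0 < m) (hm' : m < 1 / 4) (hc : 0 < c) {i j : ℕ}
    (hi : i < X.n) (hj : j < X.n) (ti : X.thr i) (tj : X.thr j) (ht : X.typ i = X.typ j)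
    (h : X.lo i false < X.lo j false) : X.lo i true < X.lo j true := by
  have hij : i ≠ j := by rintro rfl; exact lt_irrefl _ h
  by_contra hcon
  have hle : X.lo j true ≤ X.lo i true := not_lt.1 hcon
  have hne := H.inj i hi true j hj true (fun h' => hij (Prod.ext_iff.1 h').1) (e_eq ti tj ht true)
  have hlt : X.lo j true < X.lo i true := lt_of_le_of_ne hle (Ne.symm hne)
  obtain ⟨a1, a2, a3⟩ := lo_bounds H hm hm' hc hi false
  obtain ⟨b1, b2, b3⟩ := lo_bounds H hm hm' hc hj false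
  obtain ⟨c1, c2, c3⟩ := lo_bounds H hm hm' hc hi true
  obtain ⟨d1, d2, d3⟩ := lo_bounds H hm hm' hc hj true
  apply H.unl i hi j hj hij ht
  left
  rcases ti with ⟨h1, h2, h3⟩ | ⟨h1, h2, h3⟩ <;> rcases tj with ⟨g1, g2, g3⟩ | ⟨g1, g2, g3⟩
  · simp only [Ends.arc, Ends.tl, Ends.tr, h2, h3, g2, g3, tpBL]
    rw [min_eq_left (by linarith), min_eq_left (by linarith), max_eq_left (by linarith),
      max_eq_left (by linarith)]
    refine ⟨by linarith, by linarith, by linarith⟩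
  · rw [h1, g1] at ht; exact absurd ht (by decide)
  · rw [h1, g1] at ht; exact absurd ht (by decide)
  · simp only [Ends.arc, Ends.tl, Ends.tr, h2, h3, g2, g3, tpBL]
    rw [min_eq_left (by linarith), min_eq_left (by linarith), max_eq_left (by linarith),
      max_eq_left (by linarith)]
    refine ⟨by linarith, by linarith, by linarith⟩

theorem lo_lt_iff (H : X.Near m c ρ om) (hm : 0 < m) (hm' : m < 1 / 4) (hc : 0 < c) {i j : ℕ}
    (hi : i < X.n) (hj : j < X.n) (ti : X.thr i) (tj : X.thr j) (ht : X.typ i = X.typ j) :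
    X.lo i false < X.lo j false ↔ X.lo i true < X.lo j true := by
  refine ⟨lo_lt H hm hm' hc hi hj ti tj ht, fun h => ?_⟩
  by_contra hcon
  have hij : i ≠ j := by rintro rfl; exact lt_irrefl _ h
  have hne := H.inj i hi false j hj false (fun h' => hij (Prod.ext_iff.1 h').1)
    (e_eq ti tj ht false)
  have hlt : X.lo j false < X.lo i false := lt_of_le_of_ne (not_lt.1 hcon) (Ne.symm hne)
  exact absurd (lo_lt H hm hm' hc hj hi tj ti ht.symm hlt) (not_lt.2 h.le)

/-- conclusion 4 -/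
theorem comb4 (H : X.Near m c ρ om) (hm : 0 < m) (hm' : m < 1 / 4) (hc : 0 < c) {i : ℕ}
    (hi : i < X.n) (ti : X.thr i) :
    X.rt i false = X.rt i true ∧ X.rt i false < (X.th (X.typ i)).card := by
  constructor
  · unfold Ends.rt
    congr 1
    apply Finset.filter_congr
    intro j hj
    obtain ⟨h1, h2, h3⟩ := mem_th.1 hj
    exact lo_lt_iff H hm hm' hc h1 hi h2 ti h3
  · unfold Ends.rt
    apply Finset.card_lt_card
    exact Finset.filter_ssubset.2 ⟨i, mem_th.2 ⟨hi, ti, rfl⟩, lt_irrefl _⟩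

/-- conclusion 5 -/
theorem comb5 (H : X.Near m c ρ om) {i j : ℕ} (hi : i < X.n) (hj : j < X.n) (ti : X.thr i)
    (tj : X.thr j) (ht : X.typ i = X.typ j) (hij : i ≠ j) : X.rt i false ≠ X.rt j false := by
  have key : ∀ {i j : ℕ}, i < X.n → j < X.n → X.thr i → X.thr j → X.typ i = X.typ j →
      X.lo i false < X.lo j false → X.rt i false < X.rt j false := by
    intro i j hi hj ti tj ht h
    unfold Ends.rt
    rw [ht]
    apply Finset.card_lt_card
    rw [Finset.ssubset_iff_of_subset]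
    · exact ⟨i, Finset.mem_filter.2 ⟨mem_th.2 ⟨hi, ti, ht⟩, h⟩, fun h' =>
        lt_irrefl _ (Finset.mem_filter.1 h').2⟩
    · intro l hl
      obtain ⟨h1, h2⟩ := Finset.mem_filter.1 hl
      exact Finset.mem_filter.2 ⟨h1, h2.trans h⟩
  have hne := H.inj i hi false j hj false (fun h' => hij (Prod.ext_iff.1 h').1)
    (e_eq ti tj ht false)
  rcases lt_or_gt_of_ne hne with h | h
  · exact (key hi hj ti tj ht h).ne
  · exact (key hj hi tj ti ht.symm h).ne'

/-- the through arcs of a type, as ends on an edge -/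
theorem th_card_le {i : ℕ} (ti : X.thr i) (s : Bool) :
    (X.th (X.typ i)).card ≤ (X.on (X.e i s)).card := by
  classical
  refine Finset.card_le_card_of_injOn (fun j => (j, s)) (fun j hj => ?_) (fun a _ b _ h =>
    (Prod.ext_iff.1 h).1)
  obtain ⟨h1, h2, h3⟩ := mem_th.1 (Finset.mem_coe.1 hj)
  exact Finset.mem_coe.2 (mem_on.2 ⟨h1, e_eq h2 ti h3 s⟩)

theorem rt_le_rk {i : ℕ} (ti : X.thr i) (s : Bool) : X.rt i s ≤ X.rk i s := by
  classical
  unfold Ends.rt Ends.rk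
  refine Finset.card_le_card_of_injOn (fun j => (j, s)) (fun j hj => ?_) (fun a _ b _ h =>
    (Prod.ext_iff.1 h).1)
  obtain ⟨h0, h4⟩ := Finset.mem_filter.1 (Finset.mem_coe.1 hj)
  obtain ⟨h1, h2, h3⟩ := mem_th.1 h0
  exact Finset.mem_coe.2 (Finset.mem_filter.2 ⟨mem_on.2 ⟨h1, e_eq h2 ti h3 s⟩, h4⟩)

/-- the ends which are not counted -/
theorem rk_add_le {i : ℕ} (ti : X.thr i) (s : Bool) :
    X.rk i s + (X.th (X.typ i)).card ≤ X.rt i s + (X.on (X.e i s)).card := by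
  classical
  -- the complement of the ranks
  have h1 : (X.on (X.e i s)).card = X.rk i s +
      ((X.on (X.e i s)).filter fun y => ¬ X.lo y.1 y.2 < X.lo i s).card := by
    unfold Ends.rk
    exact (Finset.card_filter_add_card_filter_not _).symm
  have h2 : (X.th (X.typ i)).card = X.rt i s +
      ((X.th (X.typ i)).filter fun j => ¬ X.lo j s < X.lo i s).card := by
    unfold Ends.rt
    exact (Finset.card_filter_add_card_filter_not _).symm
  have h3 : ((X.th (X.typ i)).filter fun j => ¬ X.lo j s < X.lo i s).card ≤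
      ((X.on (X.e i s)).filter fun y => ¬ X.lo y.1 y.2 < X.lo i s).card := by
    refine Finset.card_le_card_of_injOn (fun j => (j, s)) (fun j hj => ?_) (fun a _ b _ h =>
      (Prod.ext_iff.1 h).1)
    obtain ⟨h0, h4⟩ := Finset.mem_filter.1 (Finset.mem_coe.1 hj)
    obtain ⟨h1, h2, h3⟩ := mem_th.1 h0
    exact Finset.mem_coe.2 (Finset.mem_filter.2 ⟨mem_on.2 ⟨h1, e_eq h2 ti h3 s⟩, h4⟩)
  omega

/-- the quotients of the ranks -/
theorem quot_le {N T rk rt : ℝ} (hT0 : 0 < T) (hTN' : T ≤ N) (hrr' : rt ≤ rk)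
    (hadd' : rk + T ≤ rt + N) (hrt0 : 0 ≤ rt) (hrt' : rt ≤ T) :
    rk / N - rt / T ≤ (N - T) / N ∧ -((N - T) / N) ≤ rk / N - rt / T := by
  have hN0 : 0 < N := lt_of_lt_of_le hT0 hTN'
  constructor
  · have h1 : rt / N ≤ rt / T := div_le_div_of_nonneg_left hrt0 hT0 hTN'
    have h2 : rk / N ≤ rt / N + (N - T) / N := by
      rw [← add_div]
      exact div_le_div_of_nonneg_right (by linarith) hN0.le
    linarith
  · have h1 : rt / N ≤ rk / N := div_le_div_of_nonneg_right hrr' hN0.le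
    have h2 : rt / T - rt / N ≤ (N - T) / N := by
      have e1 : rt / T - rt / N = (rt / T) * ((N - T) / N) := by
        field_simp
      have e2 : rt / T ≤ 1 := (div_le_one hT0).2 hrt'
      have e3 : 0 ≤ (N - T) / N := div_nonneg (by linarith) hN0.le
      rw [e1]
      calc rt / T * ((N - T) / N) ≤ 1 * ((N - T) / N) := mul_le_mul_of_nonneg_right e2 e3
        _ = (N - T) / N := one_mul _
    linarith

/-- few ends do not belong to through arcs -/
theorem diff_le {N T om ρ M₀ : ℝ} (hρ : 0 < ρ) (hom : 0 < om) (hM₀ : 0 ≤ M₀)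
    (hT0 : 0 < T) (hTN' : T ≤ N) (hT : 1 / 2 ≤ om * T) (hTM : 1 - M₀ * ρ ≤ om * T)
    (hcnt : om * N ≤ 1 + ρ) : (N - T) / N ≤ 2 * (1 + M₀) * ρ := by
  have hN0 : 0 < N := lt_of_lt_of_le hT0 hTN'
  have hN : 1 / 2 ≤ om * N := hT.trans (mul_le_mul_of_nonneg_left hTN' hom.le)
  rw [div_le_iff₀ hN0]
  have h1 : om * (N - T) ≤ (1 + M₀) * ρ := by linarith
  have h2 : (1 + M₀) * ρ ≤ 2 * ((1 + M₀) * ρ) * (om * N) := by
    have h0 : 0 ≤ (1 + M₀) * ρ := by positivity
    have h3 := mul_le_mul_of_nonneg_left hN h0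
    linarith
  have h3 : om * (N - T) ≤ om * (2 * (1 + M₀) * ρ * N) := by
    calc om * (N - T) ≤ (1 + M₀) * ρ := h1
      _ ≤ 2 * ((1 + M₀) * ρ) * (om * N) := h2
      _ = om * (2 * (1 + M₀) * ρ * N) := by ring
  exact le_of_mul_le_mul_left h3 hom

/-- the positions -/
theorem lo_le {lo hi m c N rk : ℝ} (hm : 0 < m) (hm' : m < 1 / 4) (hc : 0 < c) (hN0 : 0 < N)
    (a1 : m + (1 - 2 * m) * (rk + c) / N ≤ lo) (a2 : hi ≤ m + (1 - 2 * m) * (rk + 1 - c) / N)
    (a3 : lo + c * (1 - 2 * m) / N ≤ hi) :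
    rk / N ≤ (lo - m) / (1 - 2 * m) ∧ (lo - m) / (1 - 2 * m) ≤ rk / N + 1 / N := by
  have hm2 : 0 < 1 - 2 * m := by linarith
  constructor
  · rw [le_div_iff₀ hm2]
    have h1 : rk / N * (1 - 2 * m) ≤ (1 - 2 * m) * (rk + c) / N := by
      rw [div_mul_eq_mul_div]
      apply div_le_div_of_nonneg_right _ hN0.le
      have := mul_pos hm2 hc
      linarith
    linarith
  · rw [div_le_iff₀ hm2]
    have h2 : 0 ≤ c * (1 - 2 * m) / N := by positivity
    have h1 : (1 - 2 * m) * (rk + 1 - c) / N ≤ (rk / N + 1 / N) * (1 - 2 * m) := by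
      rw [← add_div, div_mul_eq_mul_div]
      apply div_le_div_of_nonneg_right _ hN0.le
      have := mul_pos hm2 hc
      linarith
    linarith

/-- conclusion 6 in real numbers -/
theorem pos_le {lo hi m c N T rk rt om ρ M₀ : ℝ} (hm : 0 < m) (hm' : m < 1 / 4) (hc : 0 < c)
    (hρ : 0 < ρ) (hom : 0 < om) (homρ : om ≤ ρ) (hM₀ : 0 ≤ M₀)
    (hT0 : 0 < T) (hTN' : T ≤ N) (hT : 1 / 2 ≤ om * T) (hTM : 1 - M₀ * ρ ≤ om * T)
    (hcnt : om * N ≤ 1 + ρ) (hrr' : rt ≤ rk) (hadd' : rk + T ≤ rt + N) (hrt0 : 0 ≤ rt)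
    (hrt' : rt ≤ T)
    (a1 : m + (1 - 2 * m) * (rk + c) / N ≤ lo) (a2 : hi ≤ m + (1 - 2 * m) * (rk + 1 - c) / N)
    (a3 : lo + c * (1 - 2 * m) / N ≤ hi) :
    |lo - (m + (1 - 2 * m) * rt / T)| ≤ (4 * M₀ + 6) * ρ := by
  have hN0 : 0 < N := lt_of_lt_of_le hT0 hTN'
  have hm2 : 0 < 1 - 2 * m := by linarith
  have hm3 : 1 - 2 * m ≤ 1 := by linarith
  have hN : 1 / 2 ≤ om * N := hT.trans (mul_le_mul_of_nonneg_left hTN' hom.le)
  have hN1 : 1 / N ≤ 2 * ρ := by
    rw [div_le_iff₀ hN0]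
    have : om * N ≤ ρ * N := mul_le_mul_of_nonneg_right homρ hN0.le
    linarith
  have hNT := diff_le hρ hom hM₀ hT0 hTN' hT hTM hcnt
  obtain ⟨hq1, hq2⟩ := quot_le hT0 hTN' hrr' hadd' hrt0 hrt'
  obtain ⟨hlo1, hlo2⟩ := lo_le hm hm' hc hN0 a1 a2 a3
  have hfin : lo - (m + (1 - 2 * m) * rt / T) =
      (1 - 2 * m) * ((lo - m) / (1 - 2 * m) - rt / T) := by
    have e := div_mul_cancel₀ (lo - m) hm2.ne'
    rw [mul_div_assoc]
    generalize (lo - m) / (1 - 2 * m) = q at e ⊢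
    linear_combination (-1) * e
  rw [hfin, abs_mul, abs_of_pos hm2]
  have hM : 0 ≤ M₀ * ρ := by positivity
  have habs : |(lo - m) / (1 - 2 * m) - rt / T| ≤ (4 * M₀ + 6) * ρ := by
    rw [abs_le]
    constructor <;> linarith
  calc (1 - 2 * m) * |(lo - m) / (1 - 2 * m) - rt / T|
      ≤ 1 * |(lo - m) / (1 - 2 * m) - rt / T| :=
        mul_le_mul_of_nonneg_right hm3 (abs_nonneg _)
    _ ≤ (4 * M₀ + 6) * ρ := by rw [one_mul]; exact habs

/-- conclusion 6 -/
theorem comb6 (H : X.Near m c ρ om) (hm : 0 < m) (hm' : m < 1 / 4) (hc : 0 < c)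
    (hρ : 0 < ρ) (hom : 0 < om) (homρ : om ≤ ρ) {M₀ : ℝ} (hM₀ : 0 ≤ M₀) (hMρ : M₀ * ρ ≤ 1 / 2)
    (h3 : ∀ d, |om * (X.th d).card - 1| ≤ M₀ * ρ) {i : ℕ} (hi : i < X.n) (s : Bool)
    (ti : X.thr i) :
    |X.lo i s - (m + (1 - 2 * m) * X.rt i s / (X.th (X.typ i)).card)| ≤ (4 * M₀ + 6) * ρ := by
  obtain ⟨a1, a2, a3⟩ := H.cell i hi s
  have hTN := th_card_le ti s
  have hrr := rt_le_rk ti s
  have hadd := rk_add_le ti s
  have hT3 := h3 (X.typ i)
  have hrt : X.rt i s ≤ (X.th (X.typ i)).card := by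
    unfold Ends.rt
    exact Finset.card_filter_le _ _
  have hT : (1 / 2 : ℝ) ≤ om * (X.th (X.typ i)).card := by
    have := (abs_le.1 hT3).1
    linarith
  have hTM : 1 - M₀ * ρ ≤ om * (X.th (X.typ i)).card := by
    have := (abs_le.1 hT3).1
    linarith
  have hT0 : (0:ℝ) < (X.th (X.typ i)).card := by
    by_contra hcon
    have : om * (X.th (X.typ i)).card ≤ 0 :=
      mul_nonpos_of_nonneg_of_nonpos hom.le (not_lt.1 hcon)
    linarith
  exact pos_le hm hm' hc hρ hom homρ hM₀ hT0 (by exact_mod_cast hTN) hT hTM (H.cnt (X.e i s))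
    (by exact_mod_cast hrr) (by exact_mod_cast hadd) (Nat.cast_nonneg _) (by exact_mod_cast hrt)
    a1 a2 a3

end P073.H429
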