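import Vale.Agent.P073.H429.OrdB

/-!
# P073, H429, SHARP2: **[ORD]** `SpecOrd`
-/

open Set Metric Topology

namespace P073.H429

open P073.H31 P073.H237

variable {X : Ends} {m c ρ om : ℝ}

/-- edges of through arcs and of arcs around the corner -/
theorem edges {i : ℕ} (h : X.thr i ∨ X.cor i) :
    (X.e i false : ℕ) ≤ 1 ∧ 2 ≤ (X.e i true : ℕ) := by
  rcases h with (⟨-, h1, h2⟩ | ⟨-, h1, h2⟩) | ⟨h1, h2⟩
  · rw [h1, h2]; exact ⟨by decide, by decide⟩
  · rw [h1, h2]; exact ⟨by decide, by decide⟩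
  · rw [h1, h2]; exact ⟨by decide, by decide⟩

/-- **the cells in the chart `TR`** -/
theorem cells_tr (H : X.Near m c ρ om) (D : X.Dbl m) (hm : 0 < m) (hm' : m < 1 / 4) (hc : 0 < c)
    (hom : 0 < om) {k : ℕ} {f : ℕ → ℕ} (hf : ∀ i < k, f i < X.n)
    (hf' : ∀ i < k, X.thr (f i) ∨ X.cor (f i))
    (hinj : ∀ i < k, ∀ j < k, i ≠ j → f i ≠ f j) :
    Cells k (fun i => flipA (X.arc om (f i))) (fun i => cl X m (f i) true - 1 / 2)
      (fun i => cr X m (f i) true - 1 / 2) (fun i => cl X m (f i) false + 1 / 2)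
      (fun i => cr X m (f i) false + 1 / 2) where
  w0 := fun i hi => by
    have := (cell_sub H D hm hm' hc (hf i hi) true).1
    show 0 < X.tr (f i) true - X.tl (f i) true
    linarith
  w0' := fun i hi => by
    have := (cell_sub H D hm hm' hc (hf i hi) false).1
    show 0 < X.tr (f i) false - X.tl (f i) false
    linarith
  om0 := fun i _ => hom
  lo := fun i hi => by
    have := (cell_sub H D hm hm' hc (hf i hi) true).2.2.1
    show _ ≤ X.tr (f i) true - (X.tr (f i) true - X.tl (f i) true) - 1 / 2 -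
      (X.tr (f i) true - X.tl (f i) true)
    linarith
  hi := fun i hi => by
    have := (cell_sub H D hm hm' hc (hf i hi) true).2.2.2.1
    show X.tr (f i) true - (X.tr (f i) true - X.tl (f i) true) - 1 / 2 +
      2 * (X.tr (f i) true - X.tl (f i) true) ≤ _
    linarith
  lo' := fun i hi => by
    have := (cell_sub H D hm hm' hc (hf i hi) false).2.2.1
    show _ ≤ X.tl (f i) false + (X.tr (f i) false - X.tl (f i) false) + 1 / 2 -
      2 * (X.tr (f i) false - X.tl (f i) false)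
    linarith
  hi' := fun i hi => by
    have := (cell_sub H D hm hm' hc (hf i hi) false).2.2.2.1
    show X.tl (f i) false + (X.tr (f i) false - X.tl (f i) false) + 1 / 2 +
      (X.tr (f i) false - X.tl (f i) false) ≤ _
    linarith
  z := fun i hi => by
    have h1 := (cell_sub H D hm hm' hc (hf i hi) true).2.2.2.2.1
    have h2 : (2:ℝ) ≤ ((X.e (f i) true : ℕ) : ℝ) := by exact_mod_cast (edges (hf' i hi)).2
    linarith
  o := fun i hi => by
    have h1 := (cell_sub H D hm hm' hc (hf i hi) false).2.2.2.2.2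
    have h2 : ((X.e (f i) false : ℕ) : ℝ) ≤ 1 := by exact_mod_cast (edges (hf' i hi)).1
    linarith
  s := fun i hi => by
    have h1 := (cell_sub H D hm hm' hc (hf i hi) true).2.2.2.2.2
    have h2 := (cell_sub H D hm hm' hc (hf i hi) false).2.2.2.2.1
    have h3 : ((X.e (f i) true : ℕ) : ℝ) ≤ 3 := by
      have : (X.e (f i) true : ℕ) ≤ 3 := by omega
      exact_mod_cast this
    have h4 : (0:ℝ) ≤ ((X.e (f i) false : ℕ) : ℝ) := Nat.cast_nonneg _
    linarith
  sL := fun i hi j hj hij => by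
    rcases cell_sep H hm hm' (hf i hi) (hf j hj) (s := true) (s' := true)
      (fun h => hinj i hi j hj hij (Prod.ext_iff.1 h).1) with h | h
    · left; linarith
    · right; linarith
  sR := fun i hi j hj hij => by
    rcases cell_sep H hm hm' (hf i hi) (hf j hj) (s := false) (s' := false)
      (fun h => hinj i hi j hj hij (Prod.ext_iff.1 h).1) with h | h
    · left; linarith
    · right; linarith
  sLR := fun i hi j hj hij => by
    left
    have h1 := (cell_sub H D hm hm' hc (hf i hi) true).2.2.2.2.2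
    have h2 := (cell_sub H D hm hm' hc (hf j hj) false).2.2.2.2.1
    have h3 : ((X.e (f i) true : ℕ) : ℝ) ≤ 3 := by
      have : (X.e (f i) true : ℕ) ≤ 3 := by omega
      exact_mod_cast this
    have h4 : (0:ℝ) ≤ ((X.e (f j) false : ℕ) : ℝ) := Nat.cast_nonneg _
    linarith

open Classical in
/-- the class of an arc in the chart `BL` -/
noncomputable def clsB (X : Ends) (i : ℕ) : ℝ := if X.cor i then 0 else if X.thr i then 1 else 2

open Classical in
/-- the class of an arc in the chart `TR` -/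
noncomputable def clsT (X : Ends) (i : ℕ) : ℝ := if X.thr i then 0 else 1

/-- the key in the chart `BL` -/
noncomputable def keyB (X : Ends) (i : ℕ) : ℝ := 2 * clsB X i + X.tl i false

/-- the key in the chart `TR` -/
noncomputable def keyT (X : Ends) (i : ℕ) : ℝ := 2 * clsT X i + X.tl i true

theorem not_both {i : ℕ} (h1 : X.cor i) (h2 : X.thr i) : False := by
  obtain ⟨a1, a2⟩ := h1
  rcases h2 with ⟨-, b1, b2⟩ | ⟨-, b1, b2⟩
  · rw [a2] at b2; exact absurd b2 (by decide)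
  · rw [a1] at b1; exact absurd b1 (by decide)

theorem clsB_cases (i : ℕ) : (clsB X i = 0 ∧ X.cor i ∧ ¬ X.thr i) ∨
    (clsB X i = 1 ∧ X.thr i ∧ ¬ X.cor i) ∨ (clsB X i = 2 ∧ ¬ X.thr i ∧ ¬ X.cor i) := by
  unfold clsB
  by_cases h1 : X.cor i
  · left
    rw [if_pos h1]
    exact ⟨rfl, h1, fun h2 => not_both h1 h2⟩
  · right
    rw [if_neg h1]
    by_cases h2 : X.thr i
    · left
      rw [if_pos h2]
      exact ⟨rfl, h2, h1⟩
    · right
      rw [if_neg h2]
      exact ⟨rfl, h2, h1⟩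

theorem clsT_cases (i : ℕ) : (clsT X i = 0 ∧ X.thr i) ∨ (clsT X i = 1 ∧ ¬ X.thr i) := by
  unfold clsT
  by_cases h2 : X.thr i
  · left
    rw [if_pos h2]
    exact ⟨rfl, h2⟩
  · right
    rw [if_neg h2]
    exact ⟨rfl, h2⟩

/-- rough positions -/
theorem tl_pos (H : X.Near m c ρ om) (hm : 0 < m) (hm' : m < 1 / 4) (hc : 0 < c) {i : ℕ}
    (hi : i < X.n) (s : Bool) : 0 < X.tl i s ∧ X.tl i s < 1 := by
  obtain ⟨h1, h2, h3⟩ := Ends.Near.tl_mem H hm hm' hc hi s
  have h4 : (0:ℝ) ≤ ((X.e i s : ℕ) : ℝ) := Nat.cast_nonneg _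
  have h5 : ((X.e i s : ℕ) : ℝ) ≤ 3 := by
    have : (X.e i s : ℕ) ≤ 3 := by omega
    exact_mod_cast this
  constructor <;> linarith

/-- positions of different ends are different -/
theorem tl_ne (H : X.Near m c ρ om) (D : X.Dbl m) (hm : 0 < m) (hm' : m < 1 / 4) (hc : 0 < c)
    {i j : ℕ} (hi : i < X.n) (hj : j < X.n) (hij : i ≠ j) (s : Bool) : X.tl i s ≠ X.tl j s := by
  intro h
  obtain ⟨a1, -, a2, a3, -⟩ := cell_sub H D hm hm' hc hi s
  obtain ⟨b1, -, b2, b3, -⟩ := cell_sub H D hm hm' hc hj s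
  rcases cell_sep H hm hm' hi hj (s := s) (s' := s) (fun h => hij (Prod.ext_iff.1 h).1) with h' | h'
  · linarith
  · linarith

/-- the keys determine the arcs -/
theorem keyB_inj (H : X.Near m c ρ om) (D : X.Dbl m) (hm : 0 < m) (hm' : m < 1 / 4) (hc : 0 < c)
    {i j : ℕ} (hi : i < X.n) (hj : j < X.n) (h : keyB X i = keyB X j) : i = j := by
  by_contra hij
  obtain ⟨a1, a2⟩ := tl_pos H hm hm' hc hi false
  obtain ⟨b1, b2⟩ := tl_pos H hm hm' hc hj false
  have hne := tl_ne H D hm hm' hc hi hj hij false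
  unfold keyB at h
  rcases clsB_cases (X := X) i with ⟨h1, -⟩ | ⟨h1, -⟩ | ⟨h1, -⟩ <;>
    rcases clsB_cases (X := X) j with ⟨h2, -⟩ | ⟨h2, -⟩ | ⟨h2, -⟩ <;> rw [h1, h2] at h <;>
    first
    | (exfalso; linarith)
    | exact hne (by linarith)

theorem keyT_inj (H : X.Near m c ρ om) (D : X.Dbl m) (hm : 0 < m) (hm' : m < 1 / 4) (hc : 0 < c)
    {i j : ℕ} (hi : i < X.n) (hj : j < X.n) (h : keyT X i = keyT X j) : i = j := by
  by_contra hij
  obtain ⟨a1, a2⟩ := tl_pos H hm hm' hc hi true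
  obtain ⟨b1, b2⟩ := tl_pos H hm hm' hc hj true
  have hne := tl_ne H D hm hm' hc hi hj hij true
  unfold keyT at h
  rcases clsT_cases (X := X) i with ⟨h1, -⟩ | ⟨h1, -⟩ <;>
    rcases clsT_cases (X := X) j with ⟨h2, -⟩ | ⟨h2, -⟩ <;> rw [h1, h2] at h <;>
    first
    | (exfalso; linarith)
    | exact hne (by linarith)

/-- comparison of the edges from the positions -/
theorem edge_le (H : X.Near m c ρ om) (hm : 0 < m) (hm' : m < 1 / 4) (hc : 0 < c)
    {i j : ℕ} (hi : i < X.n) (hj : j < X.n) {s s' : Bool} {x y : ℝ} (hx : X.tl i s ≤ x)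
    (hy : y ≤ X.tr j s') (h : x < y) : (X.e i s : ℕ) ≤ X.e j s' := by
  obtain ⟨a1, a2, a3⟩ := Ends.Near.tl_mem H hm hm' hc hi s
  obtain ⟨b1, b2, b3⟩ := Ends.Near.tl_mem H hm hm' hc hj s'
  have h2 : ((X.e i s : ℕ) : ℝ) < (X.e j s' : ℕ) + 1 := by linarith
  have h3 : (X.e i s : ℕ) < (X.e j s' : ℕ) + 1 := by exact_mod_cast h2
  omega

/-- no arc is nested inside an arc of a later class (chart `BL`) -/
theorem ordB (H : X.Near m c ρ om) (hm : 0 < m) (hm' : m < 1 / 4) (hc : 0 < c) (hρ : 0 < ρ)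
    (hρ1 : 5 * ρ < 1) (hom : 0 < om) {i j : ℕ} (hi : i < X.n) (hj : j < X.n)
    (h : keyB X i < keyB X j) (hp : X.tl j false < X.tl i false)
    (hq : X.tr i true < X.tr j true) : False := by
  obtain ⟨a1, a2, a3⟩ := Ends.Near.tl_mem H hm hm' hc hi false
  obtain ⟨b1, b2, b3⟩ := Ends.Near.tl_mem H hm hm' hc hj false
  obtain ⟨c1, c2, c3⟩ := Ends.Near.tl_mem H hm hm' hc hi true
  obtain ⟨d1, d2, d3⟩ := Ends.Near.tl_mem H hm hm' hc hj true
  have e1 : (X.e j false : ℕ) ≤ X.e i false :=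
    edge_le H hm hm' hc hj hi le_rfl a2.le hp
  have e2 : (X.e i true : ℕ) ≤ X.e j true :=
    edge_le H hm hm' hc hi hj c2.le le_rfl hq
  unfold keyB at h
  rcases clsB_cases (X := X) i with ⟨h1, i1, i2⟩ | ⟨h1, i1, i2⟩ | ⟨h1, i1, i2⟩ <;>
    rcases clsB_cases (X := X) j with ⟨h2, j1, j2⟩ | ⟨h2, j1, j2⟩ | ⟨h2, j1, j2⟩ <;>
    rw [h1, h2] at h
  · linarith
  · -- `i` around the corner, `j` through
    obtain ⟨f1, f2⟩ := i1
    rw [f1] at e1
    rw [f2] at e2
    rcases j1 with ⟨-, g1, g2⟩ | ⟨-, g1, g2⟩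
    · rw [g2] at e2; exact absurd e2 (by decide)
    · rw [g1] at e1; exact absurd e1 (by decide)
  · -- `i` around the corner, `j` other
    obtain ⟨f1, f2⟩ := i1
    rw [f1] at e1
    rw [f2] at e2
    have hs := (Ends.Near.shape H hm hm' hc hρ hρ1 hom hj j1 j2).2
    have h3 : ((0 : Fin 4) : ℕ) = 0 := rfl
    have h4 : ((3 : Fin 4) : ℕ) = 3 := rfl
    omega
  · linarith
  · linarith
  · -- `i` through, `j` other
    have hs := (Ends.Near.shape H hm hm' hc hρ hρ1 hom hj j1 j2).2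
    rcases i1 with ⟨-, g1, g2⟩ | ⟨-, g1, g2⟩
    · rw [g1] at e1
      rw [g2] at e2
      have h3 : ((0 : Fin 4) : ℕ) = 0 := rfl
      have h4 : ((2 : Fin 4) : ℕ) = 2 := rfl
      omega
    · rw [g1] at e1
      rw [g2] at e2
      have h3 : ((1 : Fin 4) : ℕ) = 1 := rfl
      have h4 : ((3 : Fin 4) : ℕ) = 3 := rfl
      omega
  · linarith
  · linarith
  · linarith

/-- no arc is nested inside an arc of a later class (chart `TR`) -/
theorem ordT (H : X.Near m c ρ om) (hm : 0 < m) (hm' : m < 1 / 4) (hc : 0 < c)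
    {i j : ℕ} (hi : i < X.n) (hj : j < X.n) (hcl : X.thr j ∨ X.cor j)
    (h : keyT X i < keyT X j) (hp : X.tl j true < X.tl i true)
    (hq : X.tr i false < X.tr j false) : False := by
  obtain ⟨a1, a2, a3⟩ := Ends.Near.tl_mem H hm hm' hc hi false
  obtain ⟨b1, b2, b3⟩ := Ends.Near.tl_mem H hm hm' hc hj false
  obtain ⟨c1, c2, c3⟩ := Ends.Near.tl_mem H hm hm' hc hi true
  obtain ⟨d1, d2, d3⟩ := Ends.Near.tl_mem H hm hm' hc hj true
  have e1 : (X.e j true : ℕ) ≤ X.e i true :=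
    edge_le H hm hm' hc hj hi le_rfl c2.le hp
  have e2 : (X.e i false : ℕ) ≤ X.e j false :=
    edge_le H hm hm' hc hi hj a2.le le_rfl hq
  unfold keyT at h
  rcases clsT_cases (X := X) i with ⟨h1, i1⟩ | ⟨h1, i1⟩ <;>
    rcases clsT_cases (X := X) j with ⟨h2, j1⟩ | ⟨h2, j1⟩ <;> rw [h1, h2] at h
  · linarith
  · have hcor := hcl.resolve_left j1
    obtain ⟨f1, f2⟩ := hcor
    rw [f2] at e1
    rw [f1] at e2
    rcases i1 with ⟨-, g1, g2⟩ | ⟨-, g1, g2⟩
    · rw [g2] at e1; exact absurd e1 (by decide)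
    · rw [g1] at e2; exact absurd e2 (by decide)
  · linarith
  · linarith

/-- the widths -/
theorem wid (H : X.Near m c ρ om) (D : X.Dbl m) (hm : 0 < m) (hm' : m < 1 / 4) (hc : 0 < c)
    (hρ1 : ρ ≤ 1) {i : ℕ} (hi : i < X.n) (s : Bool) :
    om ≤ 16 / c * (X.tr i s - X.tl i s) := by
  have h1 := (cell_sub H D hm hm' hc hi s).2.1
  have h2 := (H.cell i hi s).2.2
  have h3 := H.cnt (X.e i s)
  have hN : (0:ℝ) < (X.on (X.e i s)).card := by exact_mod_cast Ends.card_pos hi
  have h4 : c * (1 - 2 * m) / (X.on (X.e i s)).card ≤ 4 * (X.tr i s - X.tl i s) := by linarith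
  rw [div_le_iff₀ hN] at h4
  rw [div_mul_eq_mul_div, le_div_iff₀ hc]
  have hw : 0 ≤ X.tr i s - X.tl i s := by
    have := (cell_sub H D hm hm' hc hi s).1
    linarith
  -- `om * N ≤ 2`, `c / 2 ≤ 4 * w * N`
  have h5 : c * (1 / 2) ≤ c * (1 - 2 * m) := mul_le_mul_of_nonneg_left (by linarith) hc.le
  have h6 : om * (X.on (X.e i s)).card ≤ 2 := by linarith
  have h7 : c / 2 ≤ 4 * (X.tr i s - X.tl i s) * (X.on (X.e i s)).card := by linarith
  have h8 : om * c * (X.on (X.e i s)).card ≤ 16 * (X.tr i s - X.tl i s) *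
      (X.on (X.e i s)).card := by
    calc om * c * (X.on (X.e i s)).card = c * (om * (X.on (X.e i s)).card) := by ring
      _ ≤ c * 2 := mul_le_mul_of_nonneg_left h6 hc.le
      _ = 4 * (c / 2) := by ring
      _ ≤ 4 * (4 * (X.tr i s - X.tl i s) * (X.on (X.e i s)).card) :=
        mul_le_mul_of_nonneg_left h7 (by norm_num)
      _ = _ := by ring
  exact le_of_mul_le_mul_right h8 hN

/-- **[ORD]** -/
theorem specOrd : SpecOrd := by
  refine ⟨6, by norm_num, fun X m c ρ om hm hm' hc _ hρ hMρ hom _ H D => ?_⟩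
  have hρ1 : 5 * ρ < 1 := by linarith
  have hρ2 : ρ ≤ 1 := by linarith
  obtain ⟨σ, hσ, hσk⟩ := exists_sort X.n (keyB X) fun i hi j hj h =>
    keyB_inj H D hm hm' hc hi hj h
  obtain ⟨k1, hk1, hk1'⟩ := exists_threshold X.n (fun i => keyB X (σ i)) hσk 4
  have hσn : ∀ i < X.n, σ i < X.n := fun i hi => (hσ i).2 hi
  obtain ⟨τ, hτ, hτk⟩ := exists_sort k1 (fun i => keyT X (σ i)) fun i hi j hj h =>
    σ.injective (keyT_inj H D hm hm' hc (hσn i (by omega)) (hσn j (by omega)) h)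
  obtain ⟨k0, hk0, hk0'⟩ := exists_threshold k1 (fun i => keyT X (σ (τ i))) hτk 2
  have hτn : ∀ i < k1, τ i < X.n := fun i hi => lt_of_lt_of_le ((hτ i).2 hi) hk1
  have hcls : ∀ i < X.n, (i < k1 ↔ X.thr (σ i) ∨ X.cor (σ i)) := by
    intro i hi
    rw [hk1' i hi]
    obtain ⟨a1, a2⟩ := tl_pos H hm hm' hc (hσn i hi) false
    unfold keyB
    rcases clsB_cases (X := X) (σ i) with ⟨h1, h2, h3⟩ | ⟨h1, h2, h3⟩ | ⟨h1, h2, h3⟩ <;> rw [h1]
    · exact ⟨fun _ => Or.inr h2, fun _ => by linarith⟩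
    · exact ⟨fun _ => Or.inl h2, fun _ => by linarith⟩
    · exact ⟨fun h => absurd h (by linarith), fun h => absurd h (by tauto)⟩
  have hcls' : ∀ i < k1, (i < k0 ↔ X.thr (σ (τ i))) := by
    intro i hi
    rw [hk0' i hi]
    obtain ⟨a1, a2⟩ := tl_pos H hm hm' hc (hσn _ (hτn i hi)) true
    unfold keyT
    rcases clsT_cases (X := X) (σ (τ i)) with ⟨h1, h2⟩ | ⟨h1, h2⟩ <;> rw [h1]
    · exact ⟨fun _ => h2, fun _ => by linarith⟩
    · exact ⟨fun h => absurd h (by linarith), fun h => absurd h h2⟩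
  have hmem : ∀ i < k1, X.thr (σ (τ i)) ∨ X.cor (σ (τ i)) := fun i hi =>
    (hcls (τ i) (hτn i hi)).1 ((hτ i).2 hi)
  refine ⟨σ, τ, k0, k1, ⟨hk0, hk1, hσ, hτ, hcls, hcls', ?_, ?_, ?_, ?_, ?_, ?_⟩⟩
  · -- `pos`
    refine ((cells_bl H D hm hm' hc hom).comp hσn fun i _ j _ hij h =>
      hij (σ.injective h)).pos fun j hj i hij h => ?_
    have hi : i < X.n := hij.trans hj
    exact ordB H hm hm' hc hρ hρ1 hom (hσn i hi) (hσn j hj) (hσk i j hij hj) h.1 h.2
  · -- `pos'`
    refine (cells_tr H D hm hm' hc hom (fun i hi => hσn _ (hτn i hi)) hmem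
      fun i _ j _ hij h => hij (τ.injective (σ.injective h))).pos fun j hj i hij h => ?_
    have hi : i < k1 := hij.trans hj
    refine ordT H hm hm' hc (hσn _ (hτn i hi)) (hσn _ (hτn j hj)) (hmem j hj)
      (hτk i j hij hj) ?_ ?_
    · have := h.1
      simp only [flipA, Ends.arc] at this
      linarith
    · have := h.2
      simp only [flipA, Ends.arc] at this
      linarith
  · -- `mg`
    intro i hi
    have hin : i < X.n := lt_of_lt_of_le hi hk1
    have hc' := (hcls i hin).1 hi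
    obtain ⟨e1, e2⟩ := edges hc'
    obtain ⟨a1, -, a2, a3, a4, a5⟩ := cell_sub H D hm hm' hc (hσn i hin) false
    obtain ⟨b1, -, b2, b3, b4, b5⟩ := cell_sub H D hm hm' hc (hσn i hin) true
    have f1 : ((X.e (σ i) false : ℕ) : ℝ) ≤ 1 := by exact_mod_cast e1
    have f2 : (2:ℝ) ≤ ((X.e (σ i) true : ℕ) : ℝ) := by exact_mod_cast e2
    have f3 : (0:ℝ) ≤ ((X.e (σ i) false : ℕ) : ℝ) := Nat.cast_nonneg _
    have f4 : ((X.e (σ i) true : ℕ) : ℝ) ≤ 3 := by
      have : (X.e (σ i) true : ℕ) ≤ 3 := by omega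
      exact_mod_cast this
    simp only [Ends.arc]
    refine ⟨by linarith, by linarith, by linarith, by linarith⟩
  · -- `wid`
    intro i hi
    exact ⟨wid H D hm hm' hc hρ2 hi false, wid H D hm hm' hc hρ2 hi true⟩
  · -- `dj`
    intro i hi j hj hij
    obtain ⟨a1, -, a2, a3, -⟩ := cell_sub H D hm hm' hc hi false
    obtain ⟨b1, -, b2, b3, -⟩ := cell_sub H D hm hm' hc hi true
    obtain ⟨c1, -, c2, c3, -⟩ := cell_sub H D hm hm' hc hj false
    obtain ⟨d1, -, d2, d3, -⟩ := cell_sub H D hm hm' hc hj true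
    simp only [Ends.arc]
    constructor
    · rcases cell_sep H hm hm' hi hj (s := false) (s' := false)
        (fun h => hij (Prod.ext_iff.1 h).1) with h | h
      · left; linarith
      · right; linarith
    · rcases cell_sep H hm hm' hi hj (s := true) (s' := true)
        (fun h => hij (Prod.ext_iff.1 h).1) with h | h
      · left; linarith
      · right; linarith
  · -- `dj'`
    intro i hi j hj hij
    obtain ⟨a1, -, a2, a3, -⟩ := cell_sub H D hm hm' hc hi false
    obtain ⟨b1, -, b2, b3, -⟩ := cell_sub H D hm hm' hc hi true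
    obtain ⟨c1, -, c2, c3, -⟩ := cell_sub H D hm hm' hc hj false
    obtain ⟨d1, -, d2, d3, -⟩ := cell_sub H D hm hm' hc hj true
    simp only [flipA, Ends.arc]
    constructor
    · rcases cell_sep H hm hm' hi hj (s := true) (s' := true)
        (fun h => hij (Prod.ext_iff.1 h).1) with h | h
      · left; linarith
      · right; linarith
    · rcases cell_sep H hm hm' hi hj (s := false) (s' := false)
        (fun h => hij (Prod.ext_iff.1 h).1) with h | h
      · left; linarith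
      · right; linarith

end P073.H429
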