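import Vale.Agent.P073.H429.TFaceT
import Vale.Agent.P073.H193.CellTop
import Vale.Agent.P073.H194.HTg
import Vale.Agent.P073.H236.TopG3
import Vale.Agent.P073.H726.TopR2

/-!
# P073, H429, [CELL3]: the row of the faces of the cells drawn in the tubes
-/

open Set Metric Topology Filter MeasureTheory
open scoped ENNReal

set_option linter.unusedSectionVars false

namespace Vale.Agent.P073.Top880

open _root_.P073 _root_.P073.Net _root_.P073.PA691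
open _root_.P073.H142 (FStar)
open Vale.Agent.P073.St (V)
open Vale.Agent.P073.H471 Vale.Agent.P073.H267
open Vale.Agent.P073.H73 (Mesh)
open Vale.Agent.P073.H193 (Edges edges TFaces tFaces_aux)
open Vale.Agent.P073.H926
open Vale.Agent.P073.H238.K3
open Vale.Agent.P073.H267.K3

variable {c₀ n δ : ℝ} {j : ℕ} {Ω Λ : Set V} {v w : V} {ρ : V → ℝ} {M : Mesh Ω} {h : ConHomeo Ω Λ}
  {J₀ J : Set (ℕ × (Fin 3 → ℤ))} {P Z : Set M.ι} {K : BoxCx Λ w}

/-- **[CELL3]** the row of the faces of the cells drawn in the tubes (the body of 193's `TFaces`) -/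
theorem row_tfaces (D : KIn3 c₀ n j δ v w ρ M h J₀ J P Z) (C : Cells ρ w K) {C₀ μT : ℝ}
    (hC₀ : 1 ≤ C₀) {Ys : Set M.κ} {sc : Sharp} {kT kT' : ℝ}
    (h1 : 55 * (624 * (8 * (500 * C₀ + 700) + 32 * C₀) + 1) ≤ kT)
    (h3 : 55 * (4 * (FW31.DK sc.K * (8 * (500 * C₀ + 700) + 32 * C₀)) + 1) ≤ kT')
    (h4 : kT ≤ kT') :
    RowP D C C₀ μT Ys sc fun Y₅ => TFaces Y₅ kT kT' := by
  obtain ⟨S₁, hS₁⟩ := row_rowNum D C (C₀ := C₀) (μT := μT) (Ys := Ys) (sc := sc)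
    (ε := fun _ => 1) (τ₀ := fun _ => 1) hC₀ (fun _ => one_pos) (fun _ => one_pos)
  obtain ⟨S₂, hS₂⟩ := H236.Slot.row_GivNum D C (C₀ := C₀) (μT := μT) (Ys := Ys) (sc := sc)
    (τ := tauF fun _ => 1) (fun bn _ => tauF_pos (fun _ => one_pos) bn)
  refine ⟨S₁.inf S₂, fun {N X Y₂ Y₃ Y₄} Y₅ h5 => ?_⟩
  obtain ⟨t4, t5, hN⟩ := hS₁ Y₅ h5.left
  obtain ⟨Lam, hG⟩ := hS₂ h5.right.toOk4
  obtain ⟨η, hη0, hηm, hTB⟩ := h5.tb
  have hdm : ∀ s, Y₂.dP s ≤ Y₂.muP s := fun s => by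
    have e1 := Y₂.Lw.δμ s
    have e2 := Y₂.Lw.δ0 s
    linarith
  have GN := hG η hη0 fun b s hbs => ⟨hηm b s hbs, (hdm s).trans (hηm b s hbs)⟩
  have hq := h5.q
  have hDK : 0 ≤ C₀ := by linarith
  exact tFaces_aux Y₅ hN (a₁ := 100) (by norm_num)
    (fun b => Y₅.hTg GN (fun b => (h5.fat b).ge) hTB b) (by rw [hq]; positivity)
    (by rw [hq]; exact h1) (by linarith) (by linarith) (by rw [hq]; exact h3) h4

end Vale.Agent.P073.Top880
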