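import Vale.Agent.P073.H237.SharpDefs2
import Vale.Agent.P073.H228.Comb

/-!
# P073, H429, SHARP2 [ORD], part A: `Pos` from separated cells, sorting permutations
-/

open Set Metric Topology

namespace P073.H429

open P073.H31 P073.H237

/-- cells of the two ends of the arcs: the doubled intervals stay in the cells, which do not
overlap -/
structure Cells (k : ℕ) (A : ℕ → ArcD) (a b a' b' : ℕ → ℝ) : Prop where
  w0 : ∀ i < k, 0 < (A i).w
  w0' : ∀ i < k, 0 < (A i).w'
  om0 : ∀ i < k, 0 < (A i).om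
  lo : ∀ i < k, a i ≤ (A i).p - (A i).w
  hi : ∀ i < k, (A i).p + 2 * (A i).w ≤ b i
  lo' : ∀ i < k, a' i ≤ (A i).q - 2 * (A i).w'
  hi' : ∀ i < k, (A i).q + (A i).w' ≤ b' i
  z : ∀ i < k, 0 ≤ a i
  o : ∀ i < k, b' i ≤ 1
  s : ∀ i < k, b i ≤ a' i
  sL : ∀ i < k, ∀ j < k, i ≠ j → b i ≤ a j ∨ b j ≤ a i
  sR : ∀ i < k, ∀ j < k, i ≠ j → b' i ≤ a' j ∨ b' j ≤ a' i
  sLR : ∀ i < k, ∀ j < k, i ≠ j → b i ≤ a' j ∨ b' j ≤ a i

namespace Cells

variable {k : ℕ} {A : ℕ → ArcD} {a b a' b' : ℕ → ℝ}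

/-- **positions from cells** -/
theorem pos (H : Cells k A a b a' b')
    (hord : ∀ j < k, ∀ i < j, ¬ ((A j).p < (A i).p ∧ (A i).q < (A j).q)) : Pos k A where
  good := by
    intro i hi
    have h1 := H.w0 i hi
    have h2 := H.w0' i hi
    have h3 := H.lo i hi
    have h4 := H.hi i hi
    have h5 := H.lo' i hi
    have h6 := H.hi' i hi
    have h7 := H.z i hi
    have h8 := H.o i hi
    have h9 := H.s i hi
    exact ⟨h1, h2, H.om0 i hi, by linarith, by linarith, by linarith⟩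
  disj := by
    intro i hi j hj hij
    have i1 := H.w0 i hi
    have i2 := H.w0' i hi
    have i3 := H.lo i hi
    have i4 := H.hi i hi
    have i5 := H.lo' i hi
    have i6 := H.hi' i hi
    have j1 := H.w0 j hj
    have j2 := H.w0' j hj
    have j3 := H.lo j hj
    have j4 := H.hi j hj
    have j5 := H.lo' j hj
    have j6 := H.hi' j hj
    refine ⟨?_, ?_, ?_⟩
    · rw [Set.disjoint_left]
      rintro ⟨x, y⟩ ⟨⟨h1, h2⟩, -⟩ ⟨⟨h3, h4⟩, -⟩
      simp only at h1 h2 h3 h4
      rcases H.sL i hi j hj hij with h | h <;> linarith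
    · rw [Set.disjoint_left]
      rintro ⟨x, y⟩ ⟨⟨h1, h2⟩, -⟩ ⟨⟨h3, h4⟩, -⟩
      simp only at h1 h2 h3 h4
      rcases H.sR i hi j hj hij with h | h <;> linarith
    · rw [Set.disjoint_left]
      rintro ⟨x, y⟩ ⟨⟨h1, h2⟩, -⟩ ⟨⟨h3, h4⟩, -⟩
      simp only at h1 h2 h3 h4
      rcases H.sLR i hi j hj hij with h | h <;> linarith
  gap := by
    intro j hj i hij x hx
    have hi : i < k := hij.trans hj
    have hne : i ≠ j := hij.ne
    have i1 := H.w0 i hi
    have i2 := H.w0' i hi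
    have i3 := H.lo i hi
    have i4 := H.hi i hi
    have i5 := H.lo' i hi
    have i6 := H.hi' i hi
    have j1 := H.w0 j hj
    have j2 := H.w0' j hj
    have j3 := H.lo j hj
    have j4 := H.hi j hj
    have j5 := H.lo' j hj
    have j6 := H.hi' j hj
    rcases hx with ⟨h1, h2⟩ | ⟨h1, h2⟩
    · constructor
      · rintro ⟨h3, h4⟩
        rcases H.sL i hi j hj hne with h | h <;> linarith
      · rintro ⟨h3, h4⟩
        rcases H.sLR j hj i hi hne.symm with h | h <;> linarith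
    · constructor
      · rintro ⟨h3, h4⟩
        rcases H.sLR i hi j hj hne with h | h <;> linarith
      · rintro ⟨h3, h4⟩
        rcases H.sR i hi j hj hne with h | h <;> linarith
  ord := hord

/-- reindexing -/
theorem comp (H : Cells k A a b a' b') {l : ℕ} {f : ℕ → ℕ} (hf : ∀ i < l, f i < k)
    (hinj : ∀ i < l, ∀ j < l, i ≠ j → f i ≠ f j) :
    Cells l (fun i => A (f i)) (fun i => a (f i)) (fun i => b (f i)) (fun i => a' (f i))
      (fun i => b' (f i)) where
  w0 := fun i hi => H.w0 _ (hf i hi)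
  w0' := fun i hi => H.w0' _ (hf i hi)
  om0 := fun i hi => H.om0 _ (hf i hi)
  lo := fun i hi => H.lo _ (hf i hi)
  hi := fun i hi => H.hi _ (hf i hi)
  lo' := fun i hi => H.lo' _ (hf i hi)
  hi' := fun i hi => H.hi' _ (hf i hi)
  z := fun i hi => H.z _ (hf i hi)
  o := fun i hi => H.o _ (hf i hi)
  s := fun i hi => H.s _ (hf i hi)
  sL := fun i hi j hj hij => H.sL _ (hf i hi) _ (hf j hj) (hinj i hi j hj hij)
  sR := fun i hi j hj hij => H.sR _ (hf i hi) _ (hf j hj) (hinj i hi j hj hij)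
  sLR := fun i hi j hj hij => H.sLR _ (hf i hi) _ (hf j hj) (hinj i hi j hj hij)

end Cells

/-- a sorting permutation of `ℕ`, which moves only `{< n}` -/
theorem exists_sort (n : ℕ) (key : ℕ → ℝ) (hinj : ∀ i < n, ∀ j < n, key i = key j → i = j) :
    ∃ σ : Equiv.Perm ℕ, (∀ i, σ i < n ↔ i < n) ∧ ∀ i j, i < j → j < n → key (σ i) < key (σ j) := by
  classical
  set f : Fin n → ℝ := fun i => key i with hf
  set e : Equiv.Perm (Fin n) := Tuple.sort f with he
  have hm : Monotone (f ∘ e) := Tuple.monotone_sort f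
  set σ : Equiv.Perm ℕ := e.extendDomain (Fin.equivSubtype (n := n)) with hσ
  have h1 : ∀ i (hi : i < n), σ i = (e ⟨i, hi⟩ : ℕ) := by
    intro i hi
    have := Equiv.Perm.extendDomain_apply_subtype e (Fin.equivSubtype (n := n)) hi
    rw [hσ, this]
    rfl
  have h2 : ∀ i, ¬ i < n → σ i = i := by
    intro i hi
    exact Equiv.Perm.extendDomain_apply_not_subtype e (Fin.equivSubtype (n := n)) hi
  refine ⟨σ, fun i => ⟨fun h => ?_, fun h => ?_⟩, fun i j hij hj => ?_⟩
  · by_contra hcon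
    rw [h2 i hcon] at h
    exact hcon h
  · rw [h1 i h]
    exact (e ⟨i, h⟩).2
  · have hi : i < n := hij.trans hj
    have h3 := hm (show (⟨i, hi⟩ : Fin n) ≤ ⟨j, hj⟩ from hij.le)
    have h4 : key (σ i) ≤ key (σ j) := by
      rw [h1 i hi, h1 j hj]
      exact h3
    refine lt_of_le_of_ne h4 fun h5 => ?_
    have h6 : σ i = σ j := by
      apply hinj _ _ _ _ h5
      · rw [h1 i hi]; exact (e _).2
      · rw [h1 j hj]; exact (e _).2
    exact absurd (σ.injective h6) hij.ne

/-- the initial segment below a threshold -/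
theorem exists_threshold (n : ℕ) (g : ℕ → ℝ) (hg : ∀ i j, i < j → j < n → g i < g j) (T : ℝ) :
    ∃ k ≤ n, ∀ i < n, (i < k ↔ g i < T) := by
  classical
  have hex : ∃ i, n ≤ i ∨ T ≤ g i := ⟨n, Or.inl le_rfl⟩
  refine ⟨Nat.find hex, Nat.find_min' hex (Or.inl le_rfl), fun i hi => ⟨fun h => ?_, fun h => ?_⟩⟩
  · have := Nat.find_min hex h
    push Not at this
    exact this.2
  · by_contra hcon
    rw [not_lt] at hcon
    have hk : Nat.find hex < n := lt_of_le_of_lt hcon hi
    rcases Nat.find_spec hex with h1 | h1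
    · omega
    · rcases eq_or_lt_of_le hcon with h2 | h2
      · rw [h2] at h1; linarith
      · linarith [hg _ _ h2 hi]

end P073.H429
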