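import Vale.Agent.P073.H429.OrdA

/-!
# P073, H429, SHARP2 [ORD], part B: the cells of the ends in the chart `BL`
-/

open Set Metric Topology

namespace P073.H429

open P073.H31 P073.H237

/-- the intervals of an edge in the chart `BL` -/
theorem tp_form (e : Fin 4) :
    (∀ a b : ℝ, a ≤ b → min (tpBL e a) (tpBL e b) = (e : ℕ) / 4 + a / 4 ∧
      max (tpBL e a) (tpBL e b) = (e : ℕ) / 4 + b / 4) ∨
    ∀ a b : ℝ, a ≤ b → min (tpBL e a) (tpBL e b) = ((e : ℕ) + 1) / 4 - b / 4 ∧
      max (tpBL e a) (tpBL e b) = ((e : ℕ) + 1) / 4 - a / 4 := by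
  fin_cases e
  · left
    intro a b hab
    simp only [tpBL]
    rw [min_eq_left (by linarith), max_eq_right (by linarith)]
    constructor <;> norm_num
  · left
    intro a b hab
    simp only [tpBL]
    rw [min_eq_left (by linarith), max_eq_right (by linarith)]
    constructor <;> norm_num <;> ring
  · right
    intro a b hab
    simp only [tpBL]
    rw [min_eq_right (by linarith), max_eq_left (by linarith)]
    constructor <;> norm_num <;> ring
  · right
    intro a b hab
    simp only [tpBL]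
    rw [min_eq_right (by linarith), max_eq_left (by linarith)]
    constructor <;> norm_num <;> ring

variable (X : Ends) (m : ℝ)

/-- the cell of an end, in the parameter of the edge -/
noncomputable def ca (i : ℕ) (s : Bool) : ℝ :=
  m + (1 - 2 * m) * X.rk i s / (X.on (X.e i s)).card

/-- the cell of an end, in the parameter of the edge -/
noncomputable def cb (i : ℕ) (s : Bool) : ℝ :=
  m + (1 - 2 * m) * (X.rk i s + 1) / (X.on (X.e i s)).card

/-- the cell of an end in the chart `BL` -/
noncomputable def cl (i : ℕ) (s : Bool) : ℝ :=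
  min (tpBL (X.e i s) (ca X m i s)) (tpBL (X.e i s) (cb X m i s))

/-- the cell of an end in the chart `BL` -/
noncomputable def cr (i : ℕ) (s : Bool) : ℝ :=
  max (tpBL (X.e i s) (ca X m i s)) (tpBL (X.e i s) (cb X m i s))

variable {X m} {c ρ om : ℝ}

theorem ca_cb (hm : 0 < m) (hm' : m < 1 / 4) {i : ℕ} (hi : i < X.n) (s : Bool) :
    m ≤ ca X m i s ∧ ca X m i s ≤ cb X m i s ∧ cb X m i s ≤ 1 - m := by
  have hrk := Ends.rk_lt (s := s) hi
  have hN : (0:ℝ) < (X.on (X.e i s)).card := by
    have : 0 < (X.on (X.e i s)).card := by omega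
    exact_mod_cast this
  have hm2 : 0 < 1 - 2 * m := by linarith
  have hrk' : (X.rk i s : ℝ) + 1 ≤ (X.on (X.e i s)).card := by exact_mod_cast hrk
  have hrk0 : (0:ℝ) ≤ X.rk i s := Nat.cast_nonneg _
  unfold ca cb
  refine ⟨?_, ?_, ?_⟩
  · have : 0 ≤ (1 - 2 * m) * X.rk i s / (X.on (X.e i s)).card := by positivity
    linarith
  · have : (1 - 2 * m) * X.rk i s / (X.on (X.e i s)).card ≤
        (1 - 2 * m) * (X.rk i s + 1) / (X.on (X.e i s)).card := by
      apply div_le_div_of_nonneg_right _ hN.le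
      exact mul_le_mul_of_nonneg_left (by linarith) hm2.le
    linarith
  · have : (1 - 2 * m) * (X.rk i s + 1) / (X.on (X.e i s)).card ≤ 1 - 2 * m := by
      rw [div_le_iff₀ hN]
      exact mul_le_mul_of_nonneg_left hrk' hm2.le
    linarith

/-- the interval and its cell -/
theorem cell_sub (H : X.Near m c ρ om) (D : X.Dbl m) (hm : 0 < m) (hm' : m < 1 / 4) (hc : 0 < c)
    {i : ℕ} (hi : i < X.n) (s : Bool) :
    X.tl i s < X.tr i s ∧ X.tr i s - X.tl i s = (X.hi i s - X.lo i s) / 4 ∧
      cl X m i s ≤ X.tl i s - (X.tr i s - X.tl i s) ∧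
      X.tr i s + (X.tr i s - X.tl i s) ≤ cr X m i s ∧
      ((X.e i s : ℕ) : ℝ) / 4 + m / 4 ≤ cl X m i s ∧
      cr X m i s ≤ (((X.e i s : ℕ) : ℝ) + 1) / 4 - m / 4 := by
  obtain ⟨h1, h2, h3⟩ := Ends.Near.mem H hm' hc hi s
  obtain ⟨k1, k2, k3⟩ := ca_cb (X := X) hm hm' hi s
  have d1 := D.lo i hi s
  have d2 := D.hi i hi s
  have d1' : ca X m i s ≤ X.lo i s - (X.hi i s - X.lo i s) := d1
  have d2' : X.hi i s + (X.hi i s - X.lo i s) ≤ cb X m i s := d2
  unfold Ends.tl Ends.tr cl cr
  rcases tp_form (X.e i s) with h | h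
  · obtain ⟨e1, e2⟩ := h _ _ h2.le
    obtain ⟨e3, e4⟩ := h _ _ k2
    rw [e1, e2, e3, e4]
    refine ⟨by linarith, by ring, by linarith, by linarith, by linarith, by linarith⟩
  · obtain ⟨e1, e2⟩ := h _ _ h2.le
    obtain ⟨e3, e4⟩ := h _ _ k2
    rw [e1, e2, e3, e4]
    refine ⟨by linarith, by ring, by linarith, by linarith, by linarith, by linarith⟩

/-- the ranks on an edge -/
theorem rk_mono {i j : ℕ} {s s' : Bool} (hi : i < X.n) (he : X.e i s = X.e j s')
    (h : X.lo i s < X.lo j s') : X.rk i s < X.rk j s' := by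
  unfold Ends.rk
  rw [he]
  apply Finset.card_lt_card
  rw [Finset.ssubset_iff_of_subset]
  · exact ⟨(i, s), Finset.mem_filter.2 ⟨Ends.mem_on.2 ⟨hi, he⟩, h⟩, fun h' =>
      lt_irrefl _ (Finset.mem_filter.1 h').2⟩
  · intro l hl
    obtain ⟨h1, h2⟩ := Finset.mem_filter.1 hl
    exact Finset.mem_filter.2 ⟨h1, h2.trans h⟩

/-- cells of the same edge -/
theorem cell_le {i j : ℕ} {s s' : Bool} (hm' : m < 1 / 4) (hi : i < X.n)
    (he : X.e i s = X.e j s') (h : X.rk i s < X.rk j s') : cb X m i s ≤ ca X m j s' := by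
  have hN : (0:ℝ) < (X.on (X.e i s)).card := by
    have := Ends.rk_lt (s := s) hi
    have : 0 < (X.on (X.e i s)).card := by omega
    exact_mod_cast this
  have hm2 : 0 < 1 - 2 * m := by linarith
  have h' : (X.rk i s : ℝ) + 1 ≤ X.rk j s' := by exact_mod_cast h
  unfold cb ca
  rw [← he]
  have : (1 - 2 * m) * (X.rk i s + 1) / (X.on (X.e i s)).card ≤
      (1 - 2 * m) * X.rk j s' / (X.on (X.e i s)).card := by
    apply div_le_div_of_nonneg_right _ hN.le
    exact mul_le_mul_of_nonneg_left h' hm2.le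
  linarith

/-- **the cells of different ends do not overlap** -/
theorem cell_sep (H : X.Near m c ρ om) (hm : 0 < m) (hm' : m < 1 / 4)
    {i j : ℕ} (hi : i < X.n) (hj : j < X.n) {s s' : Bool} (hne : (i, s) ≠ (j, s')) :
    cr X m i s ≤ cl X m j s' ∨ cr X m j s' ≤ cl X m i s := by
  obtain ⟨k1, k2, k3⟩ := ca_cb (X := X) hm hm' hi s
  obtain ⟨l1, l2, l3⟩ := ca_cb (X := X) hm hm' hj s'
  have bounds : ∀ {i : ℕ} {s : Bool}, m ≤ ca X m i s → ca X m i s ≤ cb X m i s →
      cb X m i s ≤ 1 - m → ((X.e i s : ℕ) : ℝ) / 4 ≤ cl X m i s ∧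
      cr X m i s ≤ (((X.e i s : ℕ) : ℝ) + 1) / 4 := by
    intro i s h1 h2 h3
    unfold cl cr
    rcases tp_form (X.e i s) with h | h
    · obtain ⟨e3, e4⟩ := h _ _ h2
      rw [e3, e4]
      constructor <;> linarith
    · obtain ⟨e3, e4⟩ := h _ _ h2
      rw [e3, e4]
      constructor <;> linarith
  obtain ⟨b1, b2⟩ := bounds k1 k2 k3
  obtain ⟨c1, c2⟩ := bounds l1 l2 l3
  rcases lt_trichotomy (X.e i s) (X.e j s') with h | h | h
  · left
    have h' : ((X.e i s : ℕ) : ℝ) + 1 ≤ (X.e j s' : ℕ) := by exact_mod_cast h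
    linarith
  · have hlo := H.inj i hi s j hj s' hne h
    rcases lt_or_gt_of_ne hlo with h' | h'
    · have hc := cell_le (m := m) hm' hi h (rk_mono hi h h')
      unfold cl cr
      rw [← h]
      rcases tp_form (X.e i s) with hf | hf
      · left
        rw [(hf _ _ k2).2, (hf _ _ l2).1]
        linarith
      · right
        rw [(hf _ _ l2).2, (hf _ _ k2).1]
        linarith
    · have hc := cell_le (m := m) hm' hj h.symm (rk_mono hj h.symm h')
      unfold cl cr
      rw [← h]
      rcases tp_form (X.e i s) with hf | hf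
      · right
        rw [(hf _ _ l2).2, (hf _ _ k2).1]
        linarith
      · left
        rw [(hf _ _ k2).2, (hf _ _ l2).1]
        linarith
  · right
    have h' : ((X.e j s' : ℕ) : ℝ) + 1 ≤ (X.e i s : ℕ) := by exact_mod_cast h
    linarith

/-- **the cells in the chart `BL`** -/
theorem cells_bl (H : X.Near m c ρ om) (D : X.Dbl m) (hm : 0 < m) (hm' : m < 1 / 4) (hc : 0 < c)
    (hom : 0 < om) :
    Cells X.n (fun i => X.arc om i) (fun i => cl X m i false) (fun i => cr X m i false)
      (fun i => cl X m i true) (fun i => cr X m i true) where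
  w0 := fun i hi => by
    have := (cell_sub H D hm hm' hc hi false).1
    show 0 < X.tr i false - X.tl i false
    linarith
  w0' := fun i hi => by
    have := (cell_sub H D hm hm' hc hi true).1
    show 0 < X.tr i true - X.tl i true
    linarith
  om0 := fun i _ => hom
  lo := fun i hi => (cell_sub H D hm hm' hc hi false).2.2.1
  hi := fun i hi => by
    have := (cell_sub H D hm hm' hc hi false).2.2.2.1
    show X.tl i false + 2 * (X.tr i false - X.tl i false) ≤ _
    linarith
  lo' := fun i hi => by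
    have := (cell_sub H D hm hm' hc hi true).2.2.1
    show _ ≤ X.tr i true - 2 * (X.tr i true - X.tl i true)
    linarith
  hi' := fun i hi => (cell_sub H D hm hm' hc hi true).2.2.2.1
  z := fun i hi => by
    have := (cell_sub H D hm hm' hc hi false).2.2.2.2.1
    have h2 : (0:ℝ) ≤ ((X.e i false : ℕ) : ℝ) := Nat.cast_nonneg _
    linarith
  o := fun i hi => by
    have := (cell_sub H D hm hm' hc hi true).2.2.2.2.2
    have h2 : ((X.e i true : ℕ) : ℝ) ≤ 3 := by
      have : (X.e i true : ℕ) ≤ 3 := by omega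
      exact_mod_cast this
    linarith
  s := fun i hi => by
    have h0 := H.ord i hi
    obtain ⟨a1, -, a2, a3, -⟩ := cell_sub H D hm hm' hc hi false
    obtain ⟨b1, -, b2, b3, -⟩ := cell_sub H D hm hm' hc hi true
    rcases cell_sep H hm hm' hi hi (s := false) (s' := true) (by simp) with h | h
    · exact h
    · exfalso; linarith
  sL := fun i hi j hj hij => cell_sep H hm hm' hi hj (fun h => hij (Prod.ext_iff.1 h).1)
  sR := fun i hi j hj hij => cell_sep H hm hm' hi hj (fun h => hij (Prod.ext_iff.1 h).1)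
  sLR := fun i hi j hj hij => cell_sep H hm hm' hi hj (fun h => hij (Prod.ext_iff.1 h).1)

end P073.H429
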