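import Vale.Agent.P073.H429.Near3
import Vale.Agent.P073.H193.ProtL
import Vale.Agent.P073.H228.EdgeP3
import Vale.Agent.P073.H228.EdgeP4
import Vale.Agent.P073.H142.FaceG

/-!
# P073, H429, K3C: **[PROT-L3]**, part 1: general facts

* `zone_near`, `zv_near`: points near the boxes of ROUND T.
* `rel_w`: `f5` relative to `h4` in the box of the hook, with a smaller shrinking factor.
* `TLn`: the numbers of the layer of the tubes; `lat_full`, `lat_v`, `lat_plate`: the last map at a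
  point of a protected cell.
-/

open Set Metric Topology Filter

set_option linter.unusedSectionVars false

namespace P073.H429

open _root_.P073 _root_.P073.Net _root_.P073.PA691 _root_.P073.H936 _root_.P073.H936.K3
  _root_.P073.H142 _root_.P073.H880 _root_.P073.H880.RP _root_.P073.H236 _root_.P073.H579
  _root_.P073.H345 _root_.P073.H919 _root_.P073.H228 _root_.P073.H228.EP
open Vale.Agent.P073.St (V)
open Vale.Agent.P073.H471 Vale.Agent.P073.H267 Vale.Agent.P073.H267.Geo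
open Vale.Agent.P073.H73 (Mesh)
open Vale.Agent.P073.H193 (LAtC)
open Vale.Agent.P073.H233 (PSet LAt)
open Vale.Agent.P073.H190.Tvp (wP)
open Vale.Agent.P073.H581 (clamp)

/-! ### geometry -/

section geo

variable {Λ : Set V} {v : V} {K : BoxCx Λ v} {S : Rad K} {W : Wid K S} {B : Boxes W} {G : Geo B}
  {y z : V}

/-- a point near a box of round T around an edge is in the zones of the edge and its ends -/
theorem zone_near {e : K.G} (hz : z ∈ G.TB false (.inl e)) (hyz : ‖y - z‖ ≤ G.lam e / 2) :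
    y ∈ W.se e ∧ (∀ k, k ≠ K.dir e → |y k - K.w (K.a e) k| ≤ 3 / 2 * G.lam e) ∧
    (y ∈ interior (B.E e) ∨ y ∈ interior (Zv W (K.a e)) ∨ y ∈ interior (Zv W (K.b e))) := by
  rw [Geo.mem_inl] at hz
  simp only [Bool.false_eq_true, if_false] at hz
  obtain ⟨⟨h1, h2⟩, h3⟩ := hz
  have hl := G.lam_pos e
  have hlT := G.lam_T e
  have hT := B.T_pos e
  have hTa := B.T_le_a e
  have hTb := B.T_le_b e
  have hTe := B.T_le e
  have hwa := W.wv_pos (K.a e)
  have hwb := W.wv_pos (K.b e)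
  have hla := G.lam_a e
  have hlb := G.lam_b e
  have hc : ∀ k, |y k - z k| ≤ G.lam e / 2 := fun k => by
    have h5 := norm_le_pi_norm (y - z) k
    rw [Pi.sub_apply, Real.norm_eq_abs] at h5
    exact h5.trans hyz
  have hlat : ∀ k, k ≠ K.dir e → |y k - K.w (K.a e) k| ≤ 3 / 2 * G.lam e := fun k hk => by
    have h5 := abs_sub_le (y k) (z k) (K.w (K.a e) k)
    linarith [hc k, h3 k hk]
  have hd := abs_le.1 (hc (K.dir e))
  have hse : y ∈ W.se e := by
    have h5 : G.lam e ≤ W.ae e y := by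
      refine le_marg (by have := B.T_le e; linarith) fun k hk => ?_
      have hk' : k = K.dir e := by by_contra h; exact hk (mem_Je.2 h)
      subst hk'
      constructor <;> linarith [hd.1, hd.2]
    have h6 : nJ (Wid.Je K e) (K.w (K.a e)) y ≤ 3 / 2 * G.lam e :=
      (nJ_le_iff (by linarith)).2 fun k hk => hlat k (mem_Je.1 hk)
    show nJ (Wid.Je K e) (K.w (K.a e)) y < 2 * W.ae e y
    linarith
  refine ⟨hse, hlat, ?_⟩
  by_cases ha : y (K.dir e) < K.w (K.a e) (K.dir e) + 3 / 4 * W.wv (K.a e)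
  · right; left
    refine mem_interior.2 ⟨ball (K.w (K.a e)) (W.wv (K.a e)), ball_subset_closedBall,
      isOpen_ball, ?_⟩
    rw [mem_ball, dist_pi_lt_iff hwa]
    intro k
    rw [Real.dist_eq, abs_lt]
    by_cases hk : k = K.dir e
    · subst hk
      constructor <;> linarith
    · have := abs_le.1 (hlat k hk)
      constructor <;> linarith [this.1, this.2]
  by_cases hb : K.w (K.b e) (K.dir e) - 3 / 4 * W.wv (K.b e) < y (K.dir e)
  · right; right
    refine mem_interior.2 ⟨ball (K.w (K.b e)) (W.wv (K.b e)), ball_subset_closedBall,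
      isOpen_ball, ?_⟩
    rw [mem_ball, dist_pi_lt_iff hwb]
    intro k
    rw [Real.dist_eq, abs_lt]
    by_cases hk : k = K.dir e
    · subst hk
      constructor <;> linarith
    · have := abs_le.1 (hlat k hk)
      rw [← wab K e hk]
      constructor <;> linarith [this.1, this.2]
  left
  push Not at ha hb
  have hT4 : (0:ℝ) < B.T e / 4 := by linarith
  refine mem_interior.2 ⟨ball y (B.T e / 4), fun z' hz' => ?_, isOpen_ball, mem_ball_self hT4⟩
  have hc' : ∀ k, |z' k - y k| ≤ B.T e / 4 := fun k => by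
    have h5 := dist_le_pi_dist z' y k
    rw [Real.dist_eq] at h5
    exact h5.trans (mem_ball.1 hz').le
  refine ⟨?_, fun k hk => ?_⟩
  · have := abs_le.1 (hc' (K.dir e))
    constructor <;> linarith [this.1, this.2]
  · have h6 := abs_le.1 (hc' k)
    have h7 := abs_le.1 (hlat k hk)
    rw [abs_le]
    constructor <;> linarith [h6.1, h6.2, h7.1, h7.2]

/-- a point near a box of round T at a hanging vertex -/
theorem zv_near {H : Hang K} (hz : z ∈ G.TB false (.inr H)) (hyz : ‖y - z‖ ≤ G.be H.i) :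
    y ∈ interior (Zv W H.i) ∧ ∀ e, y ∉ B.E e := by
  have h1 := TB_inr_ball H hz
  have h2 := G.be_wv H.i
  have h3 := G.be_pos H.i
  have h4 := G.be_r H.i
  rw [mem_closedBall, dist_eq_norm] at h1
  have h5 : ‖y - K.w H.i‖ ≤ 4 * G.be H.i := by
    have := norm_sub_le_norm_sub_add_norm_sub y z (K.w H.i)
    linarith
  refine ⟨mem_interior.2 ⟨ball (K.w H.i) (W.wv H.i), ball_subset_closedBall, isOpen_ball, ?_⟩,
    fun e he => ?_⟩
  · rw [mem_ball, dist_eq_norm]
    linarith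
  · have h6 := S.U_edge H.i e y (by rw [mem_closedBall, dist_eq_norm]; linarith)
      (se_subset e (Ze_subset (B.E_subset e he)))
    have h7 := norm_le_pi_norm (y - K.w H.i) (K.dir e)
    rw [Pi.sub_apply, Real.norm_eq_abs] at h7
    have h8 := abs_le.1 (h7.trans h5)
    have h9 := he.1
    rcases h6 with h6 | h6
    · rw [h6] at h8 h2 h3
      linarith [h9.1, h8.2]
    · rw [h6] at h8 h2 h3
      linarith [h9.2, h8.1]

end geo

/-! ### `f5` relative to `h4` in the box of the hook -/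

section rel

variable {Ω Λ : Set V} {v : V} {K : BoxCx Λ v} {S : Rad K} {W : Wid K S} {B : Boxes W}
  {G : Geo B} {L : PLev G} {S₀ : Set K.S} {F : Bool → BFam 3 S₀ Λ}
  {T : Bool → ConHomeo Λ Λ} {M : Mesh Ω} {κ₀ κ₁ : V → V} {c d : ℝ} {Zb : S₀ → Set M.ι}
  {h2 h3 h4 : ConHomeo Ω Λ} {u : V}
  {H : HkG M L (Subtype.val : S₀ → K.S) F T κ₀ κ₁ c d Zb h2 h3 h4 u} {hΩ : IsOpen Ω}
  {r : S₀ → ℝ} {h5 : ConHomeo Ω Λ} {s : S₀}
  {Fσ : Bool → BFam 3 S₀ Λ} {ς : Bool → S₀ → ℝ} {Tσ : Bool → ConHomeo Λ Λ}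

theorem abs_wP_le (G : Geo B) (s : K.S) (β : Bool) (a b : V) :
    |wP G s β (a (tg s β)) - wP G s β (b (tg s β))| ≤ ‖a - b‖ := by
  refine (abs_clamp_le _ _ _ _).trans ?_
  have := norm_le_pi_norm (a - b) (tg s β)
  rwa [Pi.sub_apply, Real.norm_eq_abs] at this

/-- **the windows of `f5` near a plate**, relative to `h4`, with a smaller shrinking factor -/
theorem rel_w (O : HkGO H hΩ r h5) (P : Sg3 L S₀ Fσ ς Tσ) {t : ℝ} (t0 : 0 < t) (tr : t ≤ r s)
    (r1 : r s < 1)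
    (he0 : ∀ β, 0 ≤ (F β).e s)
    (hw : ∀ β, 0 < bw (L.N s.1 β) (K.slo s.1 (tg s.1 β) + G.a s.1)
      (K.shi s.1 (tg s.1 β) - G.a s.1) ((F β).e s))
    (he : ∀ β, (Fσ β).e s = stp (L.N s.1 β) (K.slo s.1 (tg s.1 β) + G.a s.1)
      (K.shi s.1 (tg s.1 β) - G.a s.1) / 2 - t * bw (L.N s.1 β)
        (K.slo s.1 (tg s.1 β) + G.a s.1) (K.shi s.1 (tg s.1 β) - G.a s.1) ((F β).e s))
    {A Lc m q : ℝ} (hA0 : 0 ≤ A)
    (hA : ∀ β, slAK (Fσ β) (ς β) s * bw (L.N s.1 β) (K.slo s.1 (tg s.1 β) + G.a s.1)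
      (K.shi s.1 (tg s.1 β) - G.a s.1) ((F β).e s) ≤ A)
    (hAw : ∀ i, A ≤ Lc * pwid L (fun β => (F β).e s) s.1 i) (hL0 : 0 ≤ Lc)
    (hm1 : 1 ≤ m) (hmL : m ≤ Lc) (hq0 : 0 ≤ q) (hm : ∀ β, slAK (Fσ β) (ς β) s ≤ m)
    (hq : ∀ β, 4 * (Fσ β).e s / B.τ s.1 ≤ q)
    {Z : Set V} (hZ : Z ⊆ Ω) (hZd : ∀ q, ∀ x ∈ Z, x ∉ interior ((H.hookIn s).K.C q))
    {x : V} (hx : x ∈ Z) (hs : h4.toFun x ∈ PK G s.1) (β : Bool) :
    ∀ᶠ y in 𝓝[Z] x, |wP G s.1 β (PS.map Tσ (h5.toFun y) (tg s.1 β)) -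
        wP G s.1 β (PS.map Tσ (h5.toFun x) (tg s.1 β))| ≤
      (2 * Lc + q * (m + q)) * ‖h4.toFun y - h4.toFun x‖ +
        ς β s * ‖h5.toFun y - h5.toFun x‖ := by
  have r0 : 0 < r s := t0.trans_le tr
  have hς := ((P.isS β).s0 s).le
  have ho := near_one O hZ hx hs
  have hox := ho.self_of_nhdsWithin hx
  have hcont : ContinuousWithinAt h4.toFun Z x := (h4.cont.mono hZ) x hx
  have hsum : ∀ y, ∑ β', |wP G s.1 β' (h4.toFun y (tg s.1 β')) -
      wP G s.1 β' (h4.toFun x (tg s.1 β'))| ≤ 2 * ‖h4.toFun y - h4.toFun x‖ := fun y => by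
    rw [Fintype.sum_bool]
    have h1 := abs_wP_le G s.1 true (h4.toFun y) (h4.toFun x)
    have h2 := abs_wP_le G s.1 false (h4.toFun y) (h4.toFun x)
    linarith
  -- off the box
  have key : ∀ y ∈ Z, (∀ s' : S₀, s' ≠ s → h4.toFun y ∉ PK G s'.1) →
      h5.toFun x = h4.toFun x → h5.toFun y = h4.toFun y →
      |wP G s.1 β (PS.map Tσ (h5.toFun y) (tg s.1 β)) -
        wP G s.1 β (PS.map Tσ (h5.toFun x) (tg s.1 β))| ≤
      (2 * Lc + q * (m + q)) * ‖h4.toFun y - h4.toFun x‖ +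
        ς β s * ‖h5.toFun y - h5.toFun x‖ := by
    intro y hy hoy e1 e2
    have h1 := P.map_sub_le_w (hkGO_only O (hZ hy) hoy) (hkGO_only O (hZ hx) hox) hm1 hq0 hm hq β
    rw [e1, e2] at h1 ⊢
    have h2 := abs_wP_le G s.1 β (h4.toFun y) (h4.toFun x)
    have h3 := mul_le_mul hmL h2 (abs_nonneg _) hL0
    have h0 := norm_nonneg (h4.toFun y - h4.toFun x)
    have h4' := mul_nonneg hL0 h0
    have h7 : 0 ≤ ς β s * ‖h4.toFun y - h4.toFun x‖ := mul_nonneg hς h0
    have e : (2 * Lc + q * (m + q)) * ‖h4.toFun y - h4.toFun x‖ =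
        Lc * ‖h4.toFun y - h4.toFun x‖ + Lc * ‖h4.toFun y - h4.toFun x‖ +
          q * (m + q) * ‖h4.toFun y - h4.toFun x‖ := by ring
    rw [e]
    linarith
  by_cases hxB : h4.toFun x ∈ HB G c d s.1
  · have hxU : x ∈ (phook M L (Subtype.val : S₀ → K.S) F c d Zb s).U h4 :=
      (H.mem_U s (hZ hx)).2 hxB
    have h6 := eventually_nhdsWithin_iff.1 ((O.loc s r0 r1).rest hxU)
    have hint : ∀ᶠ y in 𝓝[Z] x, h4.toFun x ∈ interior (HB G c d s.1) →
        h4.toFun y ∈ HB G c d s.1 := by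
      by_cases hi : h4.toFun x ∈ interior (HB G c d s.1)
      · filter_upwards [hcont.eventually (isOpen_interior.mem_nhds hi)] with y hy _
        exact interior_subset hy
      · exact Eventually.of_forall fun _ h => absurd h hi
    filter_upwards [nhdsWithin_le_nhds h6, hint, ho, self_mem_nhdsWithin] with y h7 h8 h9 hyZ
    by_cases hyB : h4.toFun y ∈ HB G c d s.1
    · have hyU : y ∈ (phook M L (Subtype.val : S₀ → K.S) F c d Zb s).U h4 :=
        (H.mem_U s (hZ hyZ)).2 hyB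
      have h10 := h7 hyU fun q => hZd q y hyZ
      have hx5 : h5.toFun x ∈ G.PB (7 / 8) s.1 :=
        HB_PB H.hc H.hd s.1 ((O.mem s (hZ hx)).2 hxB)
      have hy5 : h5.toFun y ∈ G.PB (7 / 8) s.1 :=
        HB_PB H.hc H.hd s.1 ((O.mem s (hZ hyZ)).2 hyB)
      have t1 : t ≤ 1 := tr.trans r1.le
      have h11 := P.lip_w (g := h5.toFun) hx5 hy5 he0 t0.le t1 hw he hA β
      have h10' := (dsum_wlev_le' t0.le tr r0 (side := (Sigma.fst : PI L s.1 → Bool))
        (ax := tg s.1) (c := pcen L s.1) (w := pwid L (fun β => (F β).e s) s.1) h5.toFun x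
        y).trans h10
      have h12 := dsum_clamp_le (H.hookIn s).H (g := h4.toFun) hL0 hAw
        (al := fun b => K.slo s.1 (tg s.1 b) + G.a s.1)
        (be := fun b => K.shi s.1 (tg s.1 b) - G.a s.1)
        (fun i => by
          have h20 := P.band_win (e := fun β => (F β).e s) he0 le_rfl hw i
          rw [one_mul] at h20
          exact h20) x y
      have h13 : A * dsum (wlev (ι := PI L s.1) Sigma.fst (tg s.1) t (pcen L s.1)
          (pwid L (fun β => (F β).e s) s.1) h5.toFun) x y ≤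
          Lc * ∑ β', |wP G s.1 β' (h4.toFun y (tg s.1 β')) -
            wP G s.1 β' (h4.toFun x (tg s.1 β'))| :=
        (mul_le_mul_of_nonneg_left h10' hA0).trans h12
      have h13' := h13.trans (mul_le_mul_of_nonneg_left (hsum y) hL0)
      have h14 : ς β s * |wP G s.1 β (h5.toFun y (tg s.1 β)) -
          wP G s.1 β (h5.toFun x (tg s.1 β))| ≤ ς β s * ‖h5.toFun y - h5.toFun x‖ :=
        mul_le_mul_of_nonneg_left (abs_wP_le G s.1 β _ _) hς
      have h15 : 0 ≤ q * (m + q) * ‖h4.toFun y - h4.toFun x‖ := by positivity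
      have e : (2 * Lc + q * (m + q)) * ‖h4.toFun y - h4.toFun x‖ =
          Lc * (2 * ‖h4.toFun y - h4.toFun x‖) + q * (m + q) * ‖h4.toFun y - h4.toFun x‖ := by
        ring
      rw [e]
      linarith
    · have hxi : h4.toFun x ∉ interior (HB G c d s.1) := fun h => hyB (h8 h)
      exact key y hyZ h9 (hkGO_off' O (hZ hx) hox hxi)
        (hkGO_off' O (hZ hyZ) h9 fun h => hyB (interior_subset h))
  · have hcl : IsClosed (HB G c d s.1) := isClosed_Icc
    filter_upwards [hcont.eventually (hcl.isOpen_compl.mem_nhds hxB), ho, self_mem_nhdsWithin]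
      with y h8 h9 hyZ
    exact key y hyZ h9 (hkGO_off' O (hZ hx) hox fun h => hxB (interior_subset h))
      (hkGO_off' O (hZ hyZ) h9 fun h => h8 (interior_subset h))

end rel

/-! ### the last map at a point -/

section tube

variable {Ω Λ : Set V} {v : V} {K : BoxCx Λ v} {S : Rad K} {W : Wid K S} {B : Boxes W} {G : Geo B}
  {γ : Type} {φ : γ → K.G} {Pb : γ → Set V} {Ft : HFam 3 γ Λ} {Dr : Set V}
  {ι : γ → Type} [∀ b, Fintype (ι b)] {l hh : ∀ b, ι b → ℝ} {ςt : γ → ℝ}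
  {f5 h6 : ConHomeo Ω Λ} {Sm : ConHomeo Λ Λ}

/-- **the numbers of the layer of the tubes** -/
structure TLn (G : Geo B) (φ : γ → K.G) (Ft : HFam 3 γ Λ) (l hh : ∀ b, ι b → ℝ)
    (ςt : γ → ℝ) : Prop where
  sl : ∀ b, slG (Ft.X b).al (Ft.X b).be (l b) (hh b) (ςt b) ≤ 2
  r : ∀ b k, G.uT (φ b) / 4 ≤ (Ft.X b).r k
  D : ∀ b, (Ft.X b).D ≤ G.uT (φ b) / 4
  lat : ∀ b i, i ≠ K.dir (φ b) →
    (Ft.X b).lo i < K.w (K.a (φ b)) i - 3 / 2 * G.lam (φ b) ∧
    K.w (K.a (φ b)) i + 3 / 2 * G.lam (φ b) < (Ft.X b).hi i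

/-- local Lipschitz constants of `h6` at `x`, killed by the slope `ςt` -/
def H6K (Ft : HFam 3 γ Λ) (ςt : γ → ℝ) (f5 h6 : ConHomeo Ω Λ) (A : Set V) (q : ℝ) (x : V) :
    Prop :=
  ∀ b, f5.toFun x ∈ (Ft.X b).K → ∃ K₂ : ℝ, 0 ≤ K₂ ∧ ςt b * K₂ ≤ q ∧
    ∀ᶠ x' in 𝓝[A] x, |h6.toFun x' (Ft.X b).j - h6.toFun x (Ft.X b).j| ≤ K₂ * ‖x' - x‖

variable (HT : TLay B φ Pb Ft Dr l hh ςt f5 h6 Sm) (N : TLn G φ Ft l hh ςt) {X : PSet K}
  {A : Set V} (hA : A ⊆ Ω) (hD : Disjoint A Dr) {x : V} (hx : x ∈ A) {C q : ℝ} (hC : 0 ≤ C)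
  (hq : 0 ≤ q) (h6K : H6K Ft ςt f5 h6 A q x)

include HT N hA hD hx hC hq h6K

/-- all coordinates are controlled -/
theorem lat_full (hφX : ∀ b, φ b ∈ X.e ∧ K.a (φ b) ∈ X.w ∧ K.b (φ b) ∈ X.w)
    (h1 : ∀ᶠ x' in 𝓝[A] x, ∀ l, |f5.toFun x' l - f5.toFun x l| ≤ C * q * ‖x' - x‖) :
    LAt B X ((3 * C + 1) * q) A (fun y => Sm.toFun (h6.toFun y)) x := by
  have hCq : 0 ≤ C * q := mul_nonneg hC hq
  refine HT.lat hA hx (fun _ => ?_) fun b hb => ?_
  · have h2 : LAtC B X (fun x' => C * q * ‖x' - x‖) A f5.toFun x := LAtC.full h1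
    refine h2.lat (Eventually.of_forall fun x' => ?_)
    refine mul_le_mul_of_nonneg_right ?_ (norm_nonneg _)
    nlinarith
  · obtain ⟨K₂, hK0, hK1, hK2⟩ := h6K b hb
    obtain ⟨a1, a2, a3⟩ := hφX b
    have huT := G.uT_pos (φ b)
    refine ⟨a1, a2, a3, ?_⟩
    refine HT.estC (c₀ := fun x' => C * q * ‖x' - x‖) (c₁ := fun x' => C * q * ‖x' - x‖)
      (c₂ := fun x' => K₂ * ‖x' - x‖) hA hD hx (HT.Ese b hb) (ρ := G.uT (φ b) / 4) (by positivity)
      (N.r b) (N.sl b) (κ := 1) ?_ ?_ (fun i _ => Or.inr ?_)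
      (Eventually.of_forall fun x' => mul_nonneg hCq (norm_nonneg _)) hK2
      (Eventually.of_forall fun x' => ?_)
    · rw [div_le_one (by positivity)]
      exact N.D b
    · filter_upwards [h1] with x' h2 using h2 _
    · filter_upwards [h1] with x' h2 using h2 _
    · have h2 := mul_le_mul_of_nonneg_right hK1 (norm_nonneg (x' - x))
      nlinarith

/-- only the coordinate of an edge is controlled, near the edge -/
theorem lat_v {e : K.G} (he : e ∈ X.e ∧ K.a e ∈ X.w ∧ K.b e ∈ X.w) (hse : f5.toFun x ∈ W.se e)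
    (hlat : ∀ k, k ≠ K.dir e → |f5.toFun x k - K.w (K.a e) k| ≤ 3 / 2 * G.lam e)
    (hz : f5.toFun x ∈ interior (B.E e) ∨ f5.toFun x ∈ interior (Zv W (K.a e)) ∨
      f5.toFun x ∈ interior (Zv W (K.b e)))
    (h1 : ∀ᶠ x' in 𝓝[A] x, |f5.toFun x' (K.dir e) - f5.toFun x (K.dir e)| ≤
      C * q * ‖x' - x‖) :
    LAt B X ((3 * C + 1) * q) A (fun y => Sm.toFun (h6.toFun y)) x := by
  have hCq : 0 ≤ C * q := mul_nonneg hC hq
  refine HT.lat hA hx (fun _ => ?_) fun b hb => ?_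
  · rcases hz with h2 | h2 | h2
    · refine Or.inr (Or.inr (Or.inl ⟨e, he.1, h2, ?_⟩))
      filter_upwards [h1] with x' h3
      refine h3.trans (mul_le_mul_of_nonneg_right ?_ (norm_nonneg _))
      nlinarith
    · exact Or.inr (Or.inr (Or.inr ⟨_, he.2.1, h2⟩))
    · exact Or.inr (Or.inr (Or.inr ⟨_, he.2.2, h2⟩))
  · have hbe : φ b = e := by
      by_contra hne
      exact Set.disjoint_left.1 (disjoint_se (W := W) hne) (HT.Ese b hb) hse
    obtain ⟨K₂, hK0, hK1, hK2⟩ := h6K b hb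
    have hj : (Ft.X b).j = K.dir e := by rw [HT.j b, hbe]
    have huT := G.uT_pos (φ b)
    refine ⟨by rw [hbe]; exact he.1, by rw [hbe]; exact he.2.1, by rw [hbe]; exact he.2.2, ?_⟩
    refine HT.estC (c₀ := fun x' => C * q * ‖x' - x‖) (c₁ := fun x' => C * q * ‖x' - x‖)
      (c₂ := fun x' => K₂ * ‖x' - x‖) hA hD hx (HT.Ese b hb) (ρ := G.uT (φ b) / 4) (by positivity)
      (N.r b) (N.sl b) (κ := 1) ?_ ?_ (fun i hi => Or.inl ?_)
      (Eventually.of_forall fun x' => mul_nonneg hCq (norm_nonneg _)) hK2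
      (Eventually.of_forall fun x' => ?_)
    · rw [div_le_one (by positivity)]
      exact N.D b
    · rw [hj]; exact h1
    · rw [hj] at hi
      have h2 := abs_le.1 (hlat i hi)
      obtain ⟨h3, h4⟩ := N.lat b i (by rw [hbe]; exact hi)
      rw [hbe] at h3 h4
      constructor <;> linarith [h2.1, h2.2]
    · have h2 := mul_le_mul_of_nonneg_right hK1 (norm_nonneg (x' - x))
      nlinarith

/-- in the zone of a vertex and in no box at an edge -/
theorem lat_zv {i : K.W} (hi : i ∈ X.w) (hz : f5.toFun x ∈ interior (Zv W i))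
    (hE : ∀ e, f5.toFun x ∉ B.E e) :
    LAt B X ((3 * C + 1) * q) A (fun y => Sm.toFun (h6.toFun y)) x :=
  HT.lat hA hx (fun _ => Or.inr (Or.inr (Or.inr ⟨i, hi, hz⟩))) fun b hb =>
    absurd (HT.KE b hb) (hE (φ b))

/-- in a plate -/
theorem lat_plate (hX : PClosed X) {s : K.S} (hs : s ∈ X.s)
    (hPB : f5.toFun x ∈ G.PB (7 / 8) s)
    (hn : |f5.toFun x (K.nrm s) - K.slo s (K.nrm s)| < B.τ s)
    (hfit : ∀ b, K.edge (φ b) ⊆ K.sq s → TFit G (Ft.X b) s)
    (h1 : ∀ᶠ x' in 𝓝[A] x, ∀ j, j ≠ K.nrm s → f5.toFun x j ∈ pwin G s j →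
      f5.toFun x' j ∈ pwin G s j → |f5.toFun x' j - f5.toFun x j| ≤ C * q * ‖x' - x‖) :
    LAt B X ((3 * C + 1) * q) A (fun y => Sm.toFun (h6.toFun y)) x := by
  have hCq : 0 ≤ C * q := mul_nonneg hC hq
  by_cases hb : ∃ b, f5.toFun x ∈ (Ft.X b).K
  · obtain ⟨b, hb⟩ := hb
    obtain ⟨K₂, hK0, hK1, hK2⟩ := h6K b hb
    have huT := G.uT_pos (φ b)
    have huniq : ∀ b', f5.toFun x ∈ (Ft.X b').K → b' = b := fun b' hb' => by
      by_contra hne
      exact HT.not_K hne (HT.Ese b hb) hb'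
    refine (HT.latC_peeled G hX hs hA hD hx hPB hn (c₀ := fun x' => C * q * ‖x' - x‖)
      (c₂ := fun x' => K₂ * ‖x' - x‖) (c := fun x' => (3 * C + 1) * q * ‖x' - x‖)
      (ςm := ςt b) (ρ := G.uT (φ b) / 4) (sl := 2) (κ := 1) h1
      (Eventually.of_forall fun x' => mul_nonneg hCq (norm_nonneg _))
      (Eventually.of_forall fun x' => mul_nonneg hK0 (norm_nonneg _)) hfit
      (fun b' hb' => ?_) (Eventually.of_forall fun x' => ?_)).lat (Eventually.of_forall fun _ =>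
        le_rfl)
    · rw [huniq b' hb']
      refine ⟨le_rfl, by positivity, N.r b, N.sl b, ?_, hK2⟩
      rw [div_le_one (by positivity)]
      exact N.D b
    · have h2 := mul_le_mul_of_nonneg_right hK1 (norm_nonneg (x' - x))
      have h3 := mul_nonneg hCq (norm_nonneg (x' - x))
      have h4 := mul_nonneg hq (norm_nonneg (x' - x))
      constructor <;> nlinarith
  · push Not at hb
    refine (HT.latC_peeled G hX hs hA hD hx hPB hn (c₀ := fun x' => C * q * ‖x' - x‖)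
      (c₂ := fun x' => 0) (c := fun x' => (3 * C + 1) * q * ‖x' - x‖)
      (ςm := 0) (ρ := 1) (sl := 2) (κ := 1) h1
      (Eventually.of_forall fun x' => mul_nonneg hCq (norm_nonneg _))
      (Eventually.of_forall fun x' => le_rfl) hfit
      (fun b' hb' => absurd hb' (hb b')) (Eventually.of_forall fun x' => ?_)).lat
        (Eventually.of_forall fun _ => le_rfl)
    have h3 := mul_nonneg hCq (norm_nonneg (x' - x))
    have h4 := mul_nonneg hq (norm_nonneg (x' - x))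
    constructor <;> nlinarith

end tube

end P073.H429
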