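import Vale.Agent.P073.H429.Prot3
import Vale.Agent.P073.H237.Plug1
import Vale.Agent.P073.H429.S3T2
import Vale.Agent.P073.H233.Tail3I

/-!
# P073, H429, K3C: **[PROT-L3]**, part 2: the maps `h1`, `h4`, `f5` on the protected cells

Over 267's structures `S1` .. `S4`.
-/

open Set Metric Topology Filter

set_option linter.unusedSectionVars false

namespace Vale.Agent.P073.H267.K3

open _root_.P073 _root_.P073.Net _root_.P073.PA691 _root_.P073.H236 _root_.P073.H579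
open _root_.P073.H936 _root_.P073.H936.K3
open _root_.P073.H142
open _root_.P073.H196 (ThP)
open _root_.P073.H345 (PK tg PLev tg_ne)
open _root_.P073.H880.RP
open _root_.P073.H155 (Band3 RelT)
open _root_.P073.H919 (HkG HkGF HkGO ZbP sfam HB PI)
open _root_.P073.H429
open _root_.P073.H237.Cov (pst)
open Vale.Agent.P073.St (V)
open Vale.Agent.P073.H471 Vale.Agent.P073.H267
open Vale.Agent.P073.H73 (Mesh)
open Vale.Agent.P073.H193 (Edges Cyc edges prot_off prot_v prot_pk)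
open Vale.Agent.P073.H304 (Nb In Zmax)
open Vale.Agent.P073.H926
open Vale.Agent.P073.H238.K3
open Vale.Agent.P073.H341 (HtOk ROutZ vFam)
open Vale.Agent.P073.H233 (LAt Xp)

variable {c₀ n δ : ℝ} {j : ℕ} {Ω Λ : Set V} {v w : V} {ρ : V → ℝ} {M : Mesh Ω} {h : ConHomeo Ω Λ}
  {J₀ J : Set (ℕ × (Fin 3 → ℤ))} {P Z : Set M.ι} {K : BoxCx Λ w}
  {D : KIn3 c₀ n j δ v w ρ M h J₀ J P Z} {C : Cells ρ w K} {C₀ μT : ℝ}
  {X : S1 D C C₀ μT} {Y₂ : S2 X} {Ys : Set M.κ} {sc : Sharp} {Y₃ : S3 Y₂ Ys sc}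
  {Y₄ : S4 Y₃}

/-- `h` is near the plate if `h1` is in the plate -/
theorem S1.near_PX (X : S1 D C C₀ μT) {i : M.ι} {x : V} (hx : x ∈ M.Q i) {s : K.S}
    (hxs : X.h1.toFun x ∈ PK (D.G C) s) :
    ∀ᶠ y in 𝓝[M.Q i] x, h.toFun y ∈ PX (D.G C) s := by
  have hxΩ := M.sub i hx
  have hxΛ := X.h1.mapsTo hxΩ
  obtain ⟨q, hq⟩ := K.cover _ (h.mapsTo hxΩ)
  obtain ⟨q₁, hq₁⟩ := K.cover _ hxΛ
  have e1 := X.out.near3 x hxΩ q hq
  have hqs := tile_PX (PK_sub_PX s hxs) hq₁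
  have ho := o3_pos D.pos
  have hT := C.sT_pos q
  have hT1 := C.sT_pos q₁
  have hκ := D.κ_lt
  have hoκ := o3_eq (n := n)
  have e2 : C.sT q ≤ 4 * C.sT q₁ := by
    refine sT_comp' C D.hρ (x := h.toFun x) (y := X.h1.toFun x) hq hq₁ (e1.trans ?_)
    show o3 n * C.sT q ≤ _
    nlinarith
  have e3 : (D.G C).om q ≤ 4 * (D.G C).om q₁ := by
    show o3 n * C.sT q ≤ 4 * (o3 n * C.sT q₁)
    nlinarith
  have e4 := (D.G C).om_oS q₁ s hqs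
  have e5 := (D.G C).oS_τ s
  have hτ := (D.B C).τ_pos s
  have hc : ContinuousWithinAt h.toFun (M.Q i) x := (h.cont.mono (M.sub i)) x hx
  have h1 : ∀ᶠ y in 𝓝[M.Q i] x, ‖h.toFun y - h.toFun x‖ < (D.B C).τ s / 8 := by
    have := hc.eventually (ball_mem_nhds (h.toFun x) (show 0 < (D.B C).τ s / 8 by positivity))
    filter_upwards [this] with y hy
    rwa [dist_eq_norm] at hy
  filter_upwards [h1] with y hy
  refine PX_of_near hxs ?_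
  have h2 := norm_sub_le_norm_sub_add_norm_sub (h.toFun y) (h.toFun x) (X.h1.toFun x)
  rw [norm_sub_rev (h.toFun x)] at h2
  linarith

/-- all coordinates of `h1` near a plate -/
theorem S1.prot_full (X : S1 D C C₀ μT) (hC : 1 ≤ C₀) {i : M.ι} (hi : i ∈ P) {x : V}
    (hx : x ∈ M.Q i) {s : K.S} (hs : s ∈ pS C J₀) (hxs : X.h1.toFun x ∈ PK (D.G C) s) :
    ∀ᶠ y in 𝓝[M.Q i] x, ∀ l, |X.h1.toFun y l - X.h1.toFun x l| ≤
      C₀ * ‖h.toFun y - h.toFun x‖ :=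
  prot_pk X.out hC hi hx hs (X.near_PX hx hxs)

/-- **the positions of a point of a protected cell after ROUND T** -/
theorem S1.prot_cases (X : S1 D C C₀ μT) (hC : 1 ≤ C₀) {i : M.ι} (hi : i ∈ P) {x : V}
    (hx : x ∈ M.Q i) :
    (∀ᶠ y in 𝓝[M.Q i] x, ∀ l, |X.h1.toFun y l - X.h1.toFun x l| ≤
      C₀ * ‖h.toFun y - h.toFun x‖) ∨
    (∃ k ∈ pW C J₀, X.h1.toFun x ∈ interior (Zv (D.W C) k) ∧
      ∀ e, X.h1.toFun x ∉ (D.B C).E e) ∨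
    ∃ e ∈ pG C J₀, X.h1.toFun x ∈ (D.W C).se e ∧
      (∀ k, k ≠ K.dir e → |X.h1.toFun x k - K.w (K.a e) k| ≤ 3 / 2 * (D.G C).lam e) ∧
      (X.h1.toFun x ∈ interior ((D.B C).E e) ∨ X.h1.toFun x ∈ interior (Zv (D.W C) (K.a e)) ∨
        X.h1.toFun x ∈ interior (Zv (D.W C) (K.b e))) ∧
      ∀ᶠ y in 𝓝[M.Q i] x, |X.h1.toFun y (K.dir e) - X.h1.toFun x (K.dir e)| ≤
        C₀ * ‖h.toFun y - h.toFun x‖ := by
  have hxΩ := M.sub i hx
  by_cases hoff : ∀ b ∈ pB C J₀, h.toFun x ∉ (D.G C).TB false b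
  · left
    filter_upwards [prot_off X.out (Or.inl hi) hx hoff] with y hy l
    rw [hy, X.out.offg i (Or.inl hi) x hx hoff]
    have h1 := norm_le_pi_norm (h.toFun y - h.toFun x) l
    rw [Pi.sub_apply, Real.norm_eq_abs] at h1
    have h2 := norm_nonneg (h.toFun y - h.toFun x)
    nlinarith
  right
  by_cases hr : ∃ H : Hang K, (.inr H : TBx K) ∈ pB C J₀ ∧ h.toFun x ∈ (D.G C).TB false (.inr H)
  · left
    obtain ⟨H, hH, hxH⟩ := hr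
    have h1 := X.out.dispT x hxΩ _ hH hxH
    have h2 : 16777216 * ω3T δ C (.inr H) ≤ (D.G C).oW H.i := D.ω3T_oT C (.inr H)
    have h3 := (D.G C).oW_be H.i
    have h4 := D.ω3T_pos C (.inr H)
    obtain ⟨h5, h6⟩ := zv_near hxH (y := X.h1.toFun x) (by linarith)
    exact ⟨H.i, pW_of_pS (inr_mem_pB.1 hH) (Geo.hang_mem H), h5, h6⟩
  · right
    push Not at hoff hr
    obtain ⟨b, hb, hxb⟩ := hoff
    rcases b with e | H
    · have h1 := X.out.dispT x hxΩ _ hb hxb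
      have h2 : 16777216 * ω3T δ C (.inl e) ≤ (D.G C).oG e := D.ω3T_oT C (.inl e)
      have h3 := (D.G C).oG_uT e
      have h3' := (D.G C).uT_lam e
      have h4 := D.ω3T_pos C (.inl e)
      have h5 := (D.G C).uT_pos e
      obtain ⟨a1, a2, a3⟩ := zone_near hxb (y := X.h1.toFun x) (by linarith)
      refine ⟨e, inl_mem_pB.1 hb, a1, a2, a3, ?_⟩
      refine prot_v X.out hC hi hx (b := .inl e) hb fun b' hb' hne hxb' => ?_
      rcases b' with e' | H'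
      · have hne' : e' ≠ e := fun h => hne (by rw [h])
        exact Set.disjoint_left.1 (Geo.disjoint_TB_inl (G := D.G C) hne') hxb' hxb
      · exact hr H' hb' hxb'
    · exact absurd hxb (hr H hb)

/-- **the numbers of the plates for [PROT-L3]** -/
structure PrN (Y₄ : S4 Y₃) : Prop where
  θ : ∀ (s : (D.dat C).S₀) (β : Bool),
    (6 * (Y₃.F β).D s + Y₂.L.c s.1 β) * (4 / (D.B C).τ s.1) ≤ 1
  e8 : ∀ (s : (D.dat C).S₀) (β : Bool), 8 * (Y₃.F β).e s ≤ pst Y₃.Lt s.1 β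
  st2 : ∀ (s : (D.dat C).S₀) (β β' : Bool), pst Y₃.Lt s.1 β ≤ 2 * pst Y₃.Lt s.1 β'
  rq : ∀ s : (D.dat C).S₀, 1 / 2 ≤ Y₄.q s * Y₄.r s
  τσ : ∀ (s : (D.dat C).S₀) (β : Bool),
    4 * (sfam (Y₃.F β) (fun s => Y₄.q s * Y₄.r s) Y₄.p0 Y₄.p1).e s / (D.B C).τ s.1 ≤ 1

/-- `h4` on the protected cells -/
theorem S3.h4_prot (Y₃ : S3 Y₂ Ys sc) {i : M.ι} (hi : i ∈ P) {x : V} (hx : x ∈ M.Q i) :
    Y₃.h4.toFun x = (Y₃.T2 true).toFun ((Y₃.T2 false).toFun ((Y₃.Θ true).toFun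
      ((Y₃.Θ false).toFun (X.h1.toFun x)))) := by
  rw [Y₃.map4 x (M.sub i hx), Y₃.ins.out.givc i (Or.inl hi) x hx]
  rfl

/-- **`h4` relative to `h1`** on a protected cell -/
theorem S3.h4_loc (Y₃ : S3 Y₂ Ys sc)
    (hθ : ∀ (s : (D.dat C).S₀) (β : Bool),
      (6 * (Y₃.F β).D s + Y₂.L.c s.1 β) * (4 / (D.B C).τ s.1) ≤ 1)
    {i : M.ι} (hi : i ∈ P) {x : V} (hx : x ∈ M.Q i) {c : V → ℝ}
    (hc : ∀ᶠ y in 𝓝[M.Q i] x, ∀ l, |X.h1.toFun y l - X.h1.toFun x l| ≤ c y) :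
    ∀ᶠ y in 𝓝[M.Q i] x, ∀ l, |Y₃.h4.toFun y l - Y₃.h4.toFun x l| ≤ 21 * c y := by
  have hxΩ := M.sub i hx
  have h1 := Y₃.thp2.map_local (ε := 1) (fun s β => hθ s β) zero_le_one (X.h1.mapsTo hxΩ)
  have hcont : ContinuousWithinAt X.h1.toFun (M.Q i) x := (X.h1.cont.mono (M.sub i)) x hx
  filter_upwards [hcont.eventually h1, hc, self_mem_nhdsWithin] with y h2 h3 hy l
  rw [Y₃.h4_prot hi hy, Y₃.h4_prot hi hx]
  have h5 : ‖X.h1.toFun y - X.h1.toFun x‖ ≤ c y :=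
    (pi_norm_le_iff_of_nonneg ((abs_nonneg _).trans (h3 0))).2 fun k => by
      rw [Pi.sub_apply, Real.norm_eq_abs]
      exact h3 k
  have h6 := norm_le_pi_norm ((Y₃.T2 true).toFun ((Y₃.T2 false).toFun ((Y₃.Θ true).toFun
      ((Y₃.Θ false).toFun (X.h1.toFun y)))) - (Y₃.T2 true).toFun ((Y₃.T2 false).toFun
      ((Y₃.Θ true).toFun ((Y₃.Θ false).toFun (X.h1.toFun x))))) l
  rw [Pi.sub_apply, Real.norm_eq_abs] at h6
  have h7 := h6.trans h2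
  linarith

/-- positions in the plates -/
theorem S3.h4_PK (Y₃ : S3 Y₂ Ys sc) {i : M.ι} (hi : i ∈ P) {x : V} (hx : x ∈ M.Q i) {s : K.S} :
    Y₃.h4.toFun x ∈ PK (D.G C) s ↔ X.h1.toFun x ∈ PK (D.G C) s := by
  rcases Y₃.mvOut4.prot i hi x hx with h1 | ⟨s', -, h1, h2⟩
  · rw [h1]
  · constructor
    · intro h3
      rwa [← _root_.P073.H345.PK_unique h2 h3]
    · intro h3
      rwa [← _root_.P073.H345.PK_unique h1 h3]

/-- off the plates: `h4 = h1` near `x` -/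
theorem S3.h4_off (Y₃ : S3 Y₂ Ys sc) {i : M.ι} (hi : i ∈ P) {x : V} (hx : x ∈ M.Q i)
    (hoff : ∀ s ∈ pS C J₀, X.h1.toFun x ∉ PK (D.G C) s) :
    ∀ᶠ y in 𝓝[M.Q i] x, Y₃.h4.toFun y = X.h1.toFun y := by
  have hcont : ContinuousWithinAt X.h1.toFun (M.Q i) x := (X.h1.cont.mono (M.sub i)) x hx
  filter_upwards [hcont.eventually (Vale.Agent.P073.H190.Tvp.near_PK (G := D.G C)
    (X.h1.mapsTo (M.sub i hx))), self_mem_nhdsWithin] with y h1 hy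
  exact (Y₃.mvOut4.prot i hi y hy).eq fun s hs h2 => hoff s hs (h1 s h2)

/-- **`h4` on the protected cells** -/
theorem S3.prot4 (Y₃ : S3 Y₂ Ys sc) (hC : 1 ≤ C₀)
    (hθ : ∀ (s : (D.dat C).S₀) (β : Bool),
      (6 * (Y₃.F β).D s + Y₂.L.c s.1 β) * (4 / (D.B C).τ s.1) ≤ 1)
    {i : M.ι} (hi : i ∈ P) {q : ℝ}
    (hiso : ∀ x ∈ M.Q i, ∀ y ∈ M.Q i, ‖h.toFun x - h.toFun y‖ = q * ‖x - y‖) {x : V}
    (hx : x ∈ M.Q i) :
    (∀ᶠ y in 𝓝[M.Q i] x, ∀ l, |Y₃.h4.toFun y l - Y₃.h4.toFun x l| ≤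
      21 * C₀ * q * ‖y - x‖) ∨
    ((∀ s ∈ pS C J₀, X.h1.toFun x ∉ PK (D.G C) s) ∧
      ((∃ k ∈ pW C J₀, Y₃.h4.toFun x ∈ interior (Zv (D.W C) k) ∧
        ∀ e, Y₃.h4.toFun x ∉ (D.B C).E e) ∨
      ∃ e ∈ pG C J₀, Y₃.h4.toFun x ∈ (D.W C).se e ∧
        (∀ k, k ≠ K.dir e → |Y₃.h4.toFun x k - K.w (K.a e) k| ≤ 3 / 2 * (D.G C).lam e) ∧
        (Y₃.h4.toFun x ∈ interior ((D.B C).E e) ∨
          Y₃.h4.toFun x ∈ interior (Zv (D.W C) (K.a e)) ∨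
          Y₃.h4.toFun x ∈ interior (Zv (D.W C) (K.b e))) ∧
        ∀ᶠ y in 𝓝[M.Q i] x, |Y₃.h4.toFun y (K.dir e) - Y₃.h4.toFun x (K.dir e)| ≤
          21 * C₀ * q * ‖y - x‖)) := by
  have hn : ∀ᶠ y in 𝓝[M.Q i] x, C₀ * ‖h.toFun y - h.toFun x‖ = C₀ * q * ‖y - x‖ := by
    filter_upwards [self_mem_nhdsWithin] with y hy
    rw [hiso y hy x hx]
    ring
  by_cases hs : ∃ s ∈ pS C J₀, X.h1.toFun x ∈ PK (D.G C) s
  · left
    obtain ⟨s, hs, hxs⟩ := hs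
    filter_upwards [Y₃.h4_loc hθ hi hx (X.prot_full hC hi hx hs hxs), hn] with y h1 h2 l
    refine (h1 l).trans (le_of_eq ?_)
    rw [h2]; ring
  · push Not at hs
    have hoff := Y₃.h4_off hi hx hs
    have h0 : Y₃.h4.toFun x = X.h1.toFun x := hoff.self_of_nhdsWithin hx
    have hle : ∀ᶠ y in 𝓝[M.Q i] x, C₀ * ‖h.toFun y - h.toFun x‖ ≤ 21 * C₀ * q * ‖y - x‖ := by
      filter_upwards [hn] with y h1
      have h2 : 0 ≤ C₀ * ‖h.toFun y - h.toFun x‖ := by positivity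
      rw [h1] at h2 ⊢
      nlinarith
    rcases X.prot_cases hC hi hx with h1 | ⟨k, hk, h1, h2⟩ | ⟨e, he, h1, h2, h3, h4⟩
    · left
      filter_upwards [h1, hoff, hle] with y a1 a2 a3 l
      rw [a2, h0]
      exact (a1 l).trans a3
    · right
      refine ⟨hs, Or.inl ⟨k, hk, ?_, ?_⟩⟩
      · rw [h0]; exact h1
      · rw [h0]; exact h2
    · right
      refine ⟨hs, Or.inr ⟨e, he, ?_, ?_, ?_, ?_⟩⟩
      · rw [h0]; exact h1
      · rw [h0]; exact h2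
      · rw [h0]; exact h3
      · filter_upwards [h4, hoff, hle] with y a1 a2 a3
        rw [a2, h0]
        exact a1.trans a3

/-- **`PreQ.prot`** for `h4` -/
theorem S3.lat4 (Y₃ : S3 Y₂ Ys sc) (hC : 1 ≤ C₀)
    (hθ : ∀ (s : (D.dat C).S₀) (β : Bool),
      (6 * (Y₃.F β).D s + Y₂.L.c s.1 β) * (4 / (D.B C).τ s.1) ≤ 1)
    {D₁ : ℝ} (hD₁ : 21 * C₀ ≤ D₁) :
    ∀ i ∈ P, ∀ q > 0, (∀ x ∈ M.Q i, ∀ y ∈ M.Q i, ‖h.toFun x - h.toFun y‖ = q * ‖x - y‖) →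
      ∀ x ∈ M.Q i, LAt (D.B C) (Xp C J₀) (D₁ * q) (M.Q i) Y₃.h4.toFun x := by
  intro i hi q hq hiso x hx
  refine LAt.mono (L := 21 * C₀ * q) (mul_le_mul_of_nonneg_right hD₁ hq.le) Subset.rfl ?_
  have hq0 : 0 ≤ 21 * C₀ * q := by positivity
  rcases Y₃.prot4 hC hθ hi hiso hx with h1 | ⟨-, ⟨k, hk, h1, -⟩ | ⟨e, he, -, -, h1, h2⟩⟩
  · left
    filter_upwards [h1] with y h2
    refine (pi_norm_le_iff_of_nonneg (by positivity)).2 fun l => ?_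
    rw [Pi.sub_apply, Real.norm_eq_abs]
    exact h2 l
  · exact Or.inr (Or.inr (Or.inr ⟨k, hk, h1⟩))
  · rcases h1 with h1 | h1 | h1
    · exact Or.inr (Or.inr (Or.inl ⟨e, he, h1, h2⟩))
    · exact Or.inr (Or.inr (Or.inr ⟨_, pW_of_pG he (Or.inl rfl), h1⟩))
    · exact Or.inr (Or.inr (Or.inr ⟨_, pW_of_pG he (Or.inr rfl), h1⟩))

end Vale.Agent.P073.H267.K3
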