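import Vale.Agent.P073.H429.Prot3B

/-!
# P073, H429, K3C: **[PROT-L3]**, part 3: the last map on the protected cells
-/

open Set Metric Topology Filter

set_option linter.unusedSectionVars false

namespace Vale.Agent.P073.H267.K3

open _root_.P073 _root_.P073.Net _root_.P073.PA691 _root_.P073.H236 _root_.P073.H579
open _root_.P073.H936 _root_.P073.H936.K3
open _root_.P073.H142
open _root_.P073.H196 (ThP)
open _root_.P073.H345 (PK tg PLev tg_ne bt bt_tg tg_bt)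
open _root_.P073.H880.RP
open _root_.P073.H155 (Band3 RelT)
open _root_.P073.H919 (PSt HkG HkGF HkGO ZbP sfam HB PI sfam_e bw_pos' slAK_sfam_plate pwid bw mem_HB
  HB_PB)
open _root_.P073.H228 _root_.P073.H228.EP
open _root_.P073.H429
open _root_.P073.H237.Cov (pst)
open Vale.Agent.P073.St (V)
open Vale.Agent.P073.H471 Vale.Agent.P073.H267
open Vale.Agent.P073.H73 (Mesh)
open Vale.Agent.P073.H193 (Edges Cyc edges)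
open Vale.Agent.P073.H304 (Nb In Zmax)
open Vale.Agent.P073.H926
open Vale.Agent.P073.H238.K3
open Vale.Agent.P073.H233 (LAt Xp PSet)
open Vale.Agent.P073.H190.Tvp (wP)

variable {c₀ n δ : ℝ} {j : ℕ} {Ω Λ : Set V} {v w : V} {ρ : V → ℝ} {M : Mesh Ω} {h : ConHomeo Ω Λ}
  {J₀ J : Set (ℕ × (Fin 3 → ℤ))} {P Z : Set M.ι} {K : BoxCx Λ w}
  {D : KIn3 c₀ n j δ v w ρ M h J₀ J P Z} {C : Cells ρ w K} {C₀ μT : ℝ}
  {X : S1 D C C₀ μT} {Y₂ : S2 X} {Ys : Set M.κ} {sc : Sharp} {Y₃ : S3 Y₂ Ys sc}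
  {Y₄ : S4 Y₃}

/-! ### numbers -/

/-- the staircases as `PSt` -/
theorem S3.pst' (Y₃ : S3 Y₂ Ys sc) :
    PSt Y₃.Lt (Subtype.val : (D.dat C).S₀ → K.S) Y₃.F Y₃.T3 :=
  ⟨Subtype.val_injective, Y₃.ps.B, Y₃.ps.isS⟩

/-- the steps of the levels -/
theorem S3.pst_eq (Y₃ : S3 Y₂ Ys sc) (s : K.S) (β β' : Bool) :
    pst Y₃.Lt s β = pst Y₃.Lt s β' := Y₂.Lw.om_eq s β β'

theorem S3.dP_pst (Y₃ : S3 Y₂ Ys sc) (s : K.S) (β : Bool) : Y₂.dP s ≤ pst Y₃.Lt s β :=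
  Y₂.Lw.om_ge s β

theorem S3.pst_pos (Y₃ : S3 Y₂ Ys sc) (s : K.S) (β : Bool) : 0 < pst Y₃.Lt s β :=
  (Y₂.Lw.δ0 s).trans_le (Y₃.dP_pst s β)

/-- the half width of the bands -/
theorem S3.bw_ge (Y₃ : S3 Y₂ Ys sc) (s : (D.dat C).S₀) (β : Bool) :
    3 / 8 * pst Y₃.Lt s.1 β ≤ bw (Y₃.Lt.N s.1 β) (K.slo s.1 (tg s.1 β) + (D.G C).a s.1)
      (K.shi s.1 (tg s.1 β) - (D.G C).a s.1) ((Y₃.F β).e s) := by
  have h1 : (Y₃.F β).e s ≤ Y₂.dP s.1 / 8 := Y₃.e8 β s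
  have h2 := Y₃.dP_pst s.1 β
  show 3 / 8 * pst Y₃.Lt s.1 β ≤ pst Y₃.Lt s.1 β / 2 - (Y₃.F β).e s
  linarith

/-- the slope of the second staircases -/
theorem S4.slope (Y₄ : S4 Y₃) (hrq : ∀ s : (D.dat C).S₀, 1 / 2 ≤ Y₄.q s * Y₄.r s)
    (s : (D.dat C).S₀) (β : Bool) :
    slAK (sfam (Y₃.F β) (fun s => Y₄.q s * Y₄.r s) Y₄.p0 Y₄.p1) (Y₄.ς β) s *
      bw (Y₃.Lt.N s.1 β) (K.slo s.1 (tg s.1 β) + (D.G C).a s.1)
        (K.shi s.1 (tg s.1 β) - (D.G C).a s.1) ((Y₃.F β).e s) ≤ pst Y₃.Lt s.1 β ∧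
    slAK (sfam (Y₃.F β) (fun s => Y₄.q s * Y₄.r s) Y₄.p0 Y₄.p1) (Y₄.ς β) s ≤ 3 := by
  have h1 := slAK_sfam_plate Y₃.pst' Y₄.p0 Y₄.p1 (fun b => (Y₄.ς0 β b).le) β s
  have h2 := hrq s
  have h3 := Y₃.pst_pos s.1 β
  have h4 : pst Y₃.Lt s.1 β / 2 / (Y₄.q s * Y₄.r s) ≤ pst Y₃.Lt s.1 β := by
    rw [div_le_iff₀ (Y₄.p0 s)]
    nlinarith
  have h5 := h1.trans h4
  refine ⟨h5, ?_⟩
  have h6 := Y₃.bw_ge s β
  by_contra hcon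
  push Not at hcon
  nlinarith

/-! ### `f5` -/

/-- passive sets and the hook -/
theorem S4.offZ (Y₄ : S4 Y₃) {i : M.ι} (hi : i ∈ P) (s : (D.dat C).S₀) :
    ∀ q, ∀ x ∈ M.Q i, x ∉ interior ((Y₄.H.hookIn s).K.C q) := fun q _ hx =>
  Y₄.H.off (Or.inl ⟨i, fun h => h.1.2 hi, Subset.rfl⟩) q hx

/-- `f5` relative to `h4` off the boxes of the hook -/
theorem S4.f5_far (Y₄ : S4 Y₃) (hrq : ∀ s : (D.dat C).S₀, 1 / 2 ≤ Y₄.q s * Y₄.r s)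
    (hτσ : ∀ (s : (D.dat C).S₀) (β : Bool),
      4 * (sfam (Y₃.F β) (fun s => Y₄.q s * Y₄.r s) Y₄.p0 Y₄.p1).e s / (D.B C).τ s.1 ≤ 1)
    {Q : Set V} (hQ : Q ⊆ Ω) {x : V} (hx : x ∈ Q)
    (hB : ∀ s : (D.dat C).S₀, Y₃.h4.toFun x ∉ HB (D.G C) (29 / 32) (3 / 4) s.1) {c : V → ℝ}
    (hc : ∀ᶠ y in 𝓝[Q] x, ∀ l, |Y₃.h4.toFun y l - Y₃.h4.toFun x l| ≤ c y) :
    ∀ᶠ y in 𝓝[Q] x, ∀ l, |Y₄.f5.toFun y l - Y₄.f5.toFun x l| ≤ 7 * c y := by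
  by_cases hs : ∃ s : (D.dat C).S₀, Y₃.h4.toFun x ∈ PK (D.G C) s.1
  · obtain ⟨s, hs⟩ := hs
    have h1 := hkGO_rel_far Y₄.hko Y₄.sg (m := 3) (q := 1) (by norm_num) zero_le_one
      (fun β => (Y₄.slope hrq s β).2) (hτσ s) hQ hx hs (hB s)
    filter_upwards [h1, hc, self_mem_nhdsWithin] with y h2 h3 hy l
    rw [Y₄.map5 y (hQ hy), Y₄.map5 x (hQ hx)]
    have h5 : ‖Y₃.h4.toFun y - Y₃.h4.toFun x‖ ≤ c y :=
      (pi_norm_le_iff_of_nonneg ((abs_nonneg _).trans (h3 0))).2 fun k => by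
        rw [Pi.sub_apply, Real.norm_eq_abs]
        exact h3 k
    have h6 := h2 l
    have h7 := h3 l
    linarith
  · push Not at hs
    have h1 := hkGO_rel_off Y₄.hko Y₄.sg hQ hx hs
    have h0 := h1.self_of_nhdsWithin hx
    filter_upwards [h1, hc, self_mem_nhdsWithin] with y h2 h3 hy l
    rw [Y₄.map5 y (hQ hy), Y₄.map5 x (hQ hx), h2, h0]
    have h7 := h3 l
    have h8 := abs_nonneg (Y₃.h4.toFun y l - Y₃.h4.toFun x l)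
    linarith

/-- `f5` in a plate, through the windows -/
theorem S4.f5_in (Y₄ : S4 Y₃) (hrq : ∀ s : (D.dat C).S₀, 1 / 2 ≤ Y₄.q s * Y₄.r s)
    (hτσ : ∀ (s : (D.dat C).S₀) (β : Bool),
      4 * (sfam (Y₃.F β) (fun s => Y₄.q s * Y₄.r s) Y₄.p0 Y₄.p1).e s / (D.B C).τ s.1 ≤ 1)
    {i : M.ι} (hi : i ∈ P) {x : V} (hx : x ∈ M.Q i) {s : (D.dat C).S₀}
    (hs : Y₃.h4.toFun x ∈ PK (D.G C) s.1) {c : V → ℝ}
    (hc : ∀ᶠ y in 𝓝[M.Q i] x, ∀ l, |Y₃.h4.toFun y l - Y₃.h4.toFun x l| ≤ c y) (β : Bool) :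
    ∀ᶠ y in 𝓝[M.Q i] x, |wP (D.G C) s.1 β (Y₄.f5.toFun y (tg s.1 β)) -
      wP (D.G C) s.1 β (Y₄.f5.toFun x (tg s.1 β))| ≤ 26 * c y + Y₄.ε s * ‖y - x‖ := by
  have hQ := M.sub i
  have hbw := fun β => bw_pos' Y₃.pst' β s
  have h1 := rel_w Y₄.hko Y₄.sg (t := Y₄.q s * Y₄.r s) (s := s) (Y₄.p0 s)
    (by have := Y₄.q1 s; have := Y₄.r0 s; nlinarith) (Y₄.r1 s)
    (fun β => (Y₃.e0 β s).le) hbw (fun β => sfam_e Y₃.pst' Y₄.p0 Y₄.p1 β s)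
    (A := pst Y₃.Lt s.1 false) (Lc := 11) (m := 3) (q := 1) (Y₃.pst_pos s.1 false).le
    (fun β => by rw [Y₃.pst_eq s.1 false β]; exact (Y₄.slope hrq s β).1)
    (fun i => by
      have h2 := Y₃.bw_ge s i.1
      have h3 : pwid Y₃.Lt (fun β => (Y₃.F β).e s) s.1 i = bw (Y₃.Lt.N s.1 i.1)
        (K.slo s.1 (tg s.1 i.1) + (D.G C).a s.1) (K.shi s.1 (tg s.1 i.1) - (D.G C).a s.1)
        ((Y₃.F i.1).e s) := rfl
      have h4 := Y₃.pst_pos s.1 i.1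
      rw [h3, Y₃.pst_eq s.1 false i.1]
      linarith)
    (by norm_num) (by norm_num) (by norm_num) (by norm_num) (fun β => (Y₄.slope hrq s β).2)
    (hτσ s) hQ (Y₄.offZ hi s) hx hs β
  have h5x : Y₄.h5.toFun x ∈ PK (D.G C) s.1 := (hkGO_PK Y₄.hko (hQ hx) s.1).2 hs
  have h2 := nhdsWithin_le_nhds (s := M.Q i) (Y₄.lip5 s x (hQ hx) h5x)
  filter_upwards [h1, h2, hc, self_mem_nhdsWithin] with y h3 h4 h5 hy
  rw [Y₄.map5 y (hQ hy), Y₄.map5 x (hQ hx)]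
  have h6 : ‖Y₃.h4.toFun y - Y₃.h4.toFun x‖ ≤ c y :=
    (pi_norm_le_iff_of_nonneg ((abs_nonneg _).trans (h5 0))).2 fun k => by
      rw [Pi.sub_apply, Real.norm_eq_abs]
      exact h5 k
  have h7 := mul_le_mul_of_nonneg_left h4 (Y₄.ς0 β s).le
  have h8 := mul_le_mul_of_nonneg_right (Y₄.ςK β s) (norm_nonneg (y - x))
  have h9 : Y₄.ς β s * (Y₄.K₂ s * ‖y - x‖) = Y₄.ς β s * Y₄.K₂ s * ‖y - x‖ := by ring
  have h10 := norm_nonneg (Y₃.h4.toFun y - Y₃.h4.toFun x)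
  norm_num at h3
  linarith

/-! ### the last map -/

theorem xp_b (b : pG C J₀) :
    b.1 ∈ (Xp C J₀).e ∧ K.a b.1 ∈ (Xp C J₀).w ∧ K.b b.1 ∈ (Xp C J₀).w :=
  ⟨b.2, pW_of_pG b.2 (Or.inl rfl), pW_of_pG b.2 (Or.inr rfl)⟩

theorem xp_closed (C : Cells ρ w K) (J₀ : Set (ℕ × (Fin 3 → ℤ))) : PClosed (Xp C J₀) where
  e := fun _ hs _ hi => pG_of_pS hs hi
  a := fun _ hs i hi => pW_of_pS hs (hi (TM.wa_mem K i))
  b := fun _ hs i hi => pW_of_pS hs (hi (TM.wb_mem K i))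

/-- **the last map on the protected cells**, for any layer of the tubes -/
theorem S4.prot_last (Y₄ : S4 Y₃) (hC : 1 ≤ C₀)
    (hθ : ∀ (s : (D.dat C).S₀) (β : Bool),
      (6 * (Y₃.F β).D s + Y₂.L.c s.1 β) * (4 / (D.B C).τ s.1) ≤ 1)
    (hrq : ∀ s : (D.dat C).S₀, 1 / 2 ≤ Y₄.q s * Y₄.r s)
    (hτσ : ∀ (s : (D.dat C).S₀) (β : Bool),
      4 * (sfam (Y₃.F β) (fun s => Y₄.q s * Y₄.r s) Y₄.p0 Y₄.p1).e s / (D.B C).τ s.1 ≤ 1)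
    {Pb : pG C J₀ → Set V} {Ft : HFam 3 (pG C J₀) Λ} {Dr : Set V} {ι' : pG C J₀ → Type}
    [∀ b, Fintype (ι' b)] {l hh : ∀ b, ι' b → ℝ} {ςt : pG C J₀ → ℝ} {h6 : ConHomeo Ω Λ}
    {Sm : ConHomeo Λ Λ}
    (HT : TLay (D.B C) (Subtype.val : pG C J₀ → K.G) Pb Ft Dr l hh ςt Y₄.f5 h6 Sm)
    (NT : TLn (D.G C) (Subtype.val : pG C J₀ → K.G) Ft l hh ςt)
    (hfit : ∀ s ∈ pS C J₀, ∀ b : pG C J₀, K.edge b.1 ⊆ K.sq s → TFit (D.G C) (Ft.X b) s)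
    (hDr : ∀ i ∈ P, Disjoint (M.Q i) Dr) {i : M.ι} (hi : i ∈ P) {q : ℝ} (hq : 0 < q)
    (hiso : ∀ x ∈ M.Q i, ∀ y ∈ M.Q i, ‖h.toFun x - h.toFun y‖ = q * ‖x - y‖)
    (hε : ∀ s : (D.dat C).S₀, (∃ x ∈ M.Q i, Y₄.h5.toFun x ∈ PK (D.G C) s.1) → Y₄.ε s ≤ q)
    {x : V} (hx : x ∈ M.Q i) (h6K : H6K Ft ςt Y₄.f5 h6 (M.Q i) q x) :
    LAt (D.B C) (Xp C J₀) (1642 * C₀ * q) (M.Q i) (fun y => Sm.toFun (h6.toFun y)) x := by
  have hQ := M.sub i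
  have hxΩ := hQ hx
  have hD := hDr i hi
  have hC0 : 0 ≤ C₀ := by linarith
  rcases Y₃.prot4 hC hθ hi hiso hx with h1 | ⟨hoff, hz⟩
  · by_cases hB : ∃ s : (D.dat C).S₀, Y₃.h4.toFun x ∈ HB (D.G C) (29 / 32) (3 / 4) s.1
    · obtain ⟨s, hs⟩ := hB
      have hPK := hB_PK Y₄.H s hs
      have hw : ∀ᶠ y in 𝓝[M.Q i] x, ∀ β,
          |wP (D.G C) s.1 β (Y₄.f5.toFun y (tg s.1 β)) -
            wP (D.G C) s.1 β (Y₄.f5.toFun x (tg s.1 β))| ≤ 547 * C₀ * q * ‖y - x‖ := by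
        rw [eventually_all]
        intro β
        have h5 : Y₄.h5.toFun x ∈ PK (D.G C) s.1 := (hkGO_PK Y₄.hko hxΩ s.1).2 hPK
        have h6 := hε s ⟨x, hx, h5⟩
        filter_upwards [Y₄.f5_in hrq hτσ hi hx hPK h1 β] with y h7
        have h8 := mul_le_mul_of_nonneg_right h6 (norm_nonneg (y - x))
        have h9 : 0 ≤ q * ‖y - x‖ := mul_nonneg hq.le (norm_nonneg _)
        nlinarith
      have h5B := (Y₄.hko.mem s hxΩ).2 hs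
      have hp5 : Y₄.h5.toFun x ∈ (D.G C).PB (7 / 8) s.1 := HB_PB Y₄.H.hc Y₄.H.hd s.1 h5B
      have hfP : Y₄.f5.toFun x ∈ (D.G C).PB (7 / 8) s.1 := by
        rw [Y₄.map5 x hxΩ]
        exact Y₄.sg.mem_PB le_rfl (by norm_num) hp5
      have hfn : |Y₄.f5.toFun x (K.nrm s.1) - K.slo s.1 (K.nrm s.1)| < (D.B C).τ s.1 := by
        rw [Y₄.map5 x hxΩ, Y₄.sg.nrm hp5]
        have h2 := (mem_HB.1 h5B).2
        have h3 := (D.B C).τ_pos s.1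
        linarith
      refine LAt.mono ?_ Subset.rfl (lat_plate HT NT hQ hD hx (C := 547 * C₀) (q := q)
        (by positivity) hq.le h6K (xp_closed C J₀) (s := s.1) s.2 hfP hfn (hfit s.1 s.2) ?_)
      · nlinarith
      · filter_upwards [hw] with y h2 k hk hkw hkw'
        obtain ⟨β, rfl⟩ : ∃ β, k = tg s.1 β := ⟨bt s.1 k, (tg_bt s.1 hk).symm⟩
        have h3 := h2 β
        rwa [Y₄.sg.wP_eq hkw, Y₄.sg.wP_eq hkw'] at h3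
    · push Not at hB
      have h2 := Y₄.f5_far hrq hτσ hQ hx hB h1
      refine LAt.mono ?_ Subset.rfl (lat_full HT NT hQ hD hx (C := 147 * C₀) (q := q)
        (by positivity) hq.le h6K xp_b ?_)
      · nlinarith
      · filter_upwards [h2] with y h3 k
        refine (h3 k).trans (le_of_eq ?_)
        ring
  · have h4off : ∀ s : (D.dat C).S₀, Y₃.h4.toFun x ∉ PK (D.G C) s.1 := fun s h2 =>
      hoff s.1 s.2 ((Y₃.h4_PK hi hx).1 h2)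
    have he : ∀ᶠ y in 𝓝[M.Q i] x, Y₄.f5.toFun y = Y₃.h4.toFun y := by
      filter_upwards [hkGO_rel_off Y₄.hko Y₄.sg hQ hx h4off, self_mem_nhdsWithin] with y h2 hy
      rw [Y₄.map5 y (hQ hy), h2]
    have h0 : Y₄.f5.toFun x = Y₃.h4.toFun x := he.self_of_nhdsWithin hx
    rcases hz with ⟨k, hk, h2, h3⟩ | ⟨e, hee, h2, h3, h4, h5⟩
    · rw [← h0] at h2
      refine LAt.mono ?_ Subset.rfl (lat_zv HT NT hQ hD hx (C := 1) (q := q)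
        zero_le_one hq.le h6K (i := k) hk h2 fun e => ?_)
      · nlinarith
      · rw [h0]; exact h3 e
    · rw [← h0] at h2 h4
      refine LAt.mono ?_ Subset.rfl (lat_v HT NT hQ hD hx (C := 21 * C₀) (q := q)
        (by positivity) hq.le h6K (e := e) (xp_b ⟨e, hee⟩) h2 ?_ h4 ?_)
      · nlinarith
      · rw [h0]; exact h3
      · filter_upwards [h5, he] with y h6 h7
        rw [h7, h0]
        exact h6

end Vale.Agent.P073.H267.K3
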