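import Vale.Agent.P073.H429.Prot3C

/-!
# P073, H429, K3C: **[PROT-L3]**, part 4: `Last3.prot` for `S5.f`, and the tolerances
-/

open Set Metric Topology Filter

set_option linter.unusedSectionVars false

namespace Vale.Agent.P073.H267.K3

open _root_.P073 _root_.P073.Net _root_.P073.PA691 _root_.P073.H236 _root_.P073.H579
open _root_.P073.H936 _root_.P073.H936.K3
open _root_.P073.H142
open _root_.P073.H345 (PK tg PLev)
open _root_.P073.H919 (sfam)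
open _root_.P073.H429
open Vale.Agent.P073.St (V)
open Vale.Agent.P073.H471 Vale.Agent.P073.H267
open Vale.Agent.P073.H73 (Mesh)
open Vale.Agent.P073.H193 (Edges Cyc edges)
open Vale.Agent.P073.H304 (Nb In Zmax)
open Vale.Agent.P073.H926
open Vale.Agent.P073.H238.K3
open Vale.Agent.P073.H233 (LAt Xp PSet)

/-! ### tolerances for protected cells -/

section tol

variable {Ω Λ : Set V} {M : Mesh Ω}

/-- the ratio on a cell is unique -/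
theorem ratio_unique {h : V → V} {i : M.ι} {q q' : ℝ}
    (h1 : ∀ x ∈ M.Q i, ∀ y ∈ M.Q i, ‖h x - h y‖ = q * ‖x - y‖)
    (h2 : ∀ x ∈ M.Q i, ∀ y ∈ M.Q i, ‖h x - h y‖ = q' * ‖x - y‖) : q = q' := by
  obtain ⟨x, hx⟩ := (M.poly i).int
  have h3 := mem_interior_iff_mem_nhds.1 hx
  obtain ⟨r, hr, hball⟩ := Metric.mem_nhds_iff.1 h3
  obtain ⟨y, hy, hxy⟩ : ∃ y ∈ ball x r, y ≠ x := by
    refine ⟨x + fun _ => r / 2, ?_, ?_⟩
    · rw [mem_ball, dist_eq_norm, add_sub_cancel_left]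
      refine lt_of_le_of_lt ((pi_norm_le_iff_of_nonneg (by positivity)).2 fun k => ?_)
        (half_lt_self hr)
      rw [Real.norm_eq_abs, abs_of_pos (by positivity)]
    · intro h4
      have h5 := congrFun h4 0
      simp only [Pi.add_apply] at h5
      linarith
  have h4 := (h1 y (hball hy) x (interior_subset hx)).symm.trans
    (h2 y (hball hy) x (interior_subset hx))
  have h5 : 0 < ‖y - x‖ := norm_pos_iff.2 (sub_ne_zero.2 hxy)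
  exact mul_right_cancel₀ h5.ne' h4

/-- **a tolerance for the protected cells which meet a compact set** -/
theorem exists_tolP (h : V → V) (P : Set M.ι) (f : ConHomeo Ω Λ) {A : Set V} (hA : IsCompact A)
    (hAΛ : A ⊆ Λ) : ∃ t > 0, ∀ i ∈ P, ∀ q > 0,
      (∀ x ∈ M.Q i, ∀ y ∈ M.Q i, ‖h x - h y‖ = q * ‖x - y‖) →
      (∃ x ∈ M.Q i, f.toFun x ∈ A) → t ≤ q := by
  classical
  have hK : IsCompact (f.invFun '' A) := hA.image_of_continuousOn (f.cont_inv.mono hAΛ)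
  have hKΩ : f.invFun '' A ⊆ Ω := by
    rintro _ ⟨y, hy, rfl⟩
    exact f.mapsTo_inv (hAΛ hy)
  have hfin := M.fin _ hKΩ hK
  set T := hfin.toFinset with hT
  let g : M.ι → ℝ := fun i => if h1 : ∃ q > 0, ∀ x ∈ M.Q i, ∀ y ∈ M.Q i,
    ‖h x - h y‖ = q * ‖x - y‖ then h1.choose else 1
  have hg : ∀ i, 0 < g i := fun i => by
    simp only [g]
    split_ifs with h1
    · exact h1.choose_spec.1
    · exact one_pos
  obtain ⟨t, ht, hle⟩ : ∃ t > 0, ∀ i ∈ T, t ≤ g i := by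
    rcases T.eq_empty_or_nonempty with h1 | h1
    · exact ⟨1, one_pos, fun i hi => by rw [h1] at hi; exact absurd hi (Finset.notMem_empty i)⟩
    · exact ⟨T.inf' h1 g, (Finset.lt_inf'_iff h1).2 fun i _ => hg i, fun i hi =>
        Finset.inf'_le g hi⟩
  refine ⟨t, ht, fun i _ q hq hiso hx => ?_⟩
  obtain ⟨x, hx, hxA⟩ := hx
  have h1 : i ∈ T := by
    rw [hT, Set.Finite.mem_toFinset]
    exact ⟨x, hx, _, hxA, f.left_inv (M.sub i hx)⟩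
  have h2 : ∃ q > 0, ∀ x ∈ M.Q i, ∀ y ∈ M.Q i, ‖h x - h y‖ = q * ‖x - y‖ := ⟨q, hq, hiso⟩
  have h3 : g i = q := by
    simp only [g]
    rw [dif_pos h2]
    exact ratio_unique h2.choose_spec.2 hiso
  rw [← h3]
  exact hle i h1

end tol

variable {c₀ n δ : ℝ} {j : ℕ} {Ω Λ : Set V} {v w : V} {ρ : V → ℝ} {M : Mesh Ω} {h : ConHomeo Ω Λ}
  {J₀ J : Set (ℕ × (Fin 3 → ℤ))} {P Z : Set M.ι} {K : BoxCx Λ w}
  {D : KIn3 c₀ n j δ v w ρ M h J₀ J P Z} {C : Cells ρ w K} {C₀ μT : ℝ}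
  {X : S1 D C C₀ μT} {Y₂ : S2 X} {Ys : Set M.κ} {sc : Sharp} {Y₃ : S3 Y₂ Ys sc}
  {Y₄ : S4 Y₃}

/-! ### the last map -/

/-- the numbers of the tubes -/
theorem S5.tln (Y₅ : S5 Y₄) (μ0 : ∀ b, 0 ≤ Y₅.μ b) (μ1 : ∀ b, Y₅.μ b ≤ 1)
    (μu : ∀ b : pG C J₀, Y₅.μ b * (ebe (D.W C) b.1 - eal (D.W C) b.1) ≤ (D.G C).uT b.1 / 4) :
    TLn (D.G C) (Subtype.val : pG C J₀ → K.G)
      (tfam (Λ := Λ) (YS (D.G C)) (rT (D.G C)) (rT_pos (D.G C))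
        (fun e k => (YS_p_lt (D.G C) e k).le) (fun e k => (YS_q_lt (D.G C) e k).le)
        Y₅.H.inj Y₅.Th Y₅.ς0 Y₅.ς1)
      (fun b i => (Y₅.Th b).c i - (Y₅.Th b).w i) (fun b i => (Y₅.Th b).c i + (Y₅.Th b).w i)
      Y₅.ς where
  sl := fun b => ((Y₅.Th b).slG_le (Y₅.ς0 b).le (Y₅.ς1 b) (μ0 b)).trans (by linarith [μ1 b])
  r := fun _ _ => le_rfl
  D := fun b => ((Y₅.Th b).disp_le (μ0 b)).trans (μu b)
  lat := fun b i hi => by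
    have h1 := (D.G C).lam_T b.1
    have h2 := (D.G C).lam_pos b.1
    show ylo (YS (D.G C)) b.1 i < _ ∧ _ < yhi (YS (D.G C)) b.1 i
    unfold ylo yhi
    rw [if_neg hi, if_neg hi, YS_p, YS_q]
    constructor <;> linarith

/-- **`Last3.prot`** for the last map before the collapse -/
theorem S5.prot (Y₅ : S5 Y₄) (hC : 1 ≤ C₀)
    (hθ : ∀ (s : (D.dat C).S₀) (β : Bool),
      (6 * (Y₃.F β).D s + Y₂.L.c s.1 β) * (4 / (D.B C).τ s.1) ≤ 1)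
    (hrq : ∀ s : (D.dat C).S₀, 1 / 2 ≤ Y₄.q s * Y₄.r s)
    (hτσ : ∀ (s : (D.dat C).S₀) (β : Bool),
      4 * (sfam (Y₃.F β) (fun s => Y₄.q s * Y₄.r s) Y₄.p0 Y₄.p1).e s / (D.B C).τ s.1 ≤ 1)
    (hε4 : ∀ i ∈ P, ∀ q > 0, (∀ x ∈ M.Q i, ∀ y ∈ M.Q i, ‖h.toFun x - h.toFun y‖ = q * ‖x - y‖) →
      ∀ s : (D.dat C).S₀, (∃ x ∈ M.Q i, Y₄.h5.toFun x ∈ PK (D.G C) s.1) → Y₄.ε s ≤ q)
    (μ0 : ∀ b, 0 ≤ Y₅.μ b) (μ1 : ∀ b, Y₅.μ b ≤ 1)
    (μu : ∀ b : pG C J₀, Y₅.μ b * (ebe (D.W C) b.1 - eal (D.W C) b.1) ≤ (D.G C).uT b.1 / 4)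
    (hε5 : ∀ i ∈ P, ∀ q > 0, (∀ x ∈ M.Q i, ∀ y ∈ M.Q i, ‖h.toFun x - h.toFun y‖ = q * ‖x - y‖) →
      ∀ b : pG C J₀, (∃ x ∈ M.Q i, Y₅.h6.toFun x ∈ (D.B C).E b.1) → Y₅.ε b ≤ q)
    {D₁ : ℝ} (hD₁ : 1642 * C₀ ≤ D₁) :
    ∀ i ∈ P, ∀ q > 0, (∀ x ∈ M.Q i, ∀ y ∈ M.Q i, ‖h.toFun x - h.toFun y‖ = q * ‖x - y‖) →
      ∀ x ∈ M.Q i, LAt (D.B C) (Xp C J₀) (D₁ * q) (M.Q i) Y₅.f.toFun x := by
  intro i hi q hq hiso x hx
  refine LAt.mono (mul_le_mul_of_nonneg_right hD₁ hq.le) Subset.rfl ?_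
  refine Y₄.prot_last hC hθ hrq hτσ Y₅.lay (Y₅.tln μ0 μ1 μu) (fun s _ b hb => tfit_of hb)
    (fun i hi => ?_) hi hq hiso (hε4 i hi q hq hiso) hx ?_
  · rw [Set.disjoint_iUnion_right]
    intro b
    rw [Set.disjoint_iUnion₂_right]
    intro i' hi'
    refine (M.disj i' i ?_).symm
    rintro rfl
    exact hi'.1.2 hi
  · intro b hb
    have hxΩ := M.sub i hx
    have h1 := (Y₅.lay.memK (b := b) hxΩ).2 hb
    have h2 : Y₅.h6.toFun x ∈ YB ((YS (D.G C)).add (rT (D.G C)) (rT_pos (D.G C))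
        (fun e k => (YS_p_lt (D.G C) e k).le) fun e k => (YS_q_lt (D.G C) e k).le) b.1 := by
      rw [← tX_K (hp := fun e k => (YS_p_lt (D.G C) e k).le)
        (hq := fun e k => (YS_q_lt (D.G C) e k).le) (T := Y₅.Th b) (h0 := Y₅.ς0 b)
        (h1 := Y₅.ς1 b)]
      exact h1
    refine ⟨Y₅.K₂ b, (Y₅.K₂0 b).le, (Y₅.ςK b).trans (hε5 i hi q hq hiso b
      ⟨x, hx, Y₅.lay.KE b h1⟩), ?_⟩
    filter_upwards [nhdsWithin_le_nhds (Y₅.lip6 b x hxΩ h2)] with y h3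
    have h4 := norm_le_pi_norm (Y₅.h6.toFun y - Y₅.h6.toFun x) (((tfam (Λ := Λ) (YS (D.G C))
      (rT (D.G C)) (rT_pos (D.G C)) (fun e k => (YS_p_lt (D.G C) e k).le)
      (fun e k => (YS_q_lt (D.G C) e k).le) Y₅.H.inj Y₅.Th Y₅.ς0 Y₅.ς1).X b).j)
    rw [Pi.sub_apply, Real.norm_eq_abs] at h4
    exact h4.trans h3

end Vale.Agent.P073.H267.K3
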