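import Vale.Agent.P073.H196.Stack
import Vale.Agent.P073.H267.TNear

/-!
# P073, H429, **[SALPHA]**: `S' = H_1 ∘ H_α`

`F` is the family of the staircases `S` (full zone `(F.X b).Full`), `G` a family with the same
directions and windows and larger boxes (`Stk`: the supports of `F` are in the full zones of `G`).
`divFam F G` has the functions `k_F ∘ k_G⁻¹` on the boxes of `F`. `S' = S_G.trans S_div`: in the full
zone of `F` it is `k_F` literally; off the supports of `G` the identity.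
-/

open Set Metric Topology Filter

namespace P073.H429

open P073 P073.H236 P073.H196

variable {n : ℕ}

/-- the box map of `k_X ∘ k_Y⁻¹` on the box of `X` -/
noncomputable def divHX (X Y : HX n) (hal : Y.al = X.al) (hbe : Y.be = X.be) : HX n where
  j := X.j
  al := X.al
  be := X.be
  k := X.k ∘ Y.k'
  k' := Y.k ∘ X.k'
  l1 := by
    have h1 : L1 X.al X.be Y.k' Y.k := by rw [← hal, ← hbe]; exact Y.l1.symm
    exact h1.trans X.l1
  hab := X.hab
  lo := X.lo
  hi := X.hi
  r := X.r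
  hr := X.hr
  D := X.D + Y.D
  hD := fun t => by
    have h1 := X.hD (Y.k' t)
    have h2 := Y.hD (Y.k' t)
    rw [Y.l1.right] at h2
    have h3 : (X.k ∘ Y.k') t - t = (X.k (Y.k' t) - Y.k' t) - (t - Y.k' t) := by
      simp only [Function.comp]; ring
    rw [h3]
    exact (abs_sub _ _).trans (add_le_add h1 h2)

/-- `G` lies over `F` -/
structure Stk {ι : Type*} {Λ : Set (Fin n → ℝ)} (F G : HFam n ι Λ) : Prop where
  hj : ∀ b, (G.X b).j = (F.X b).j
  hal : ∀ b, (G.X b).al = (F.X b).al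
  hbe : ∀ b, (G.X b).be = (F.X b).be
  hlo : ∀ b i, i ≠ (F.X b).j → (G.X b).lo i ≤ (F.X b).lo i - (F.X b).r i
  hhi : ∀ b i, i ≠ (F.X b).j → (F.X b).hi i + (F.X b).r i ≤ (G.X b).hi i

/-- the family of the maps `H_1` -/
noncomputable def divFam {ι : Type*} {Λ : Set (Fin n → ℝ)} {F G : HFam n ι Λ} (O : Stk F G) :
    HFam n ι Λ where
  X := fun b => divHX (F.X b) (G.X b) (O.hal b) (O.hbe b)
  sub := F.sub
  lf := F.lf
  dis := F.dis

/-- the homeomorphisms which are given by one-variable maps in the full zones (236's `IsF`) -/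
structure IsF {ι : Type*} {Λ : Set (Fin n → ℝ)} (F : HFam n ι Λ) (S : ConHomeo Λ Λ) : Prop where
  full : ∀ b y, (F.X b).Full y →
    S.toFun y = Function.update y (F.X b).j ((F.X b).k (y (F.X b).j))
  full' : ∀ b y, (F.X b).Full y →
    S.invFun y = Function.update y (F.X b).j ((F.X b).k' (y (F.X b).j))

theorem IsF.of_isH {ι : Type*} {Λ : Set (Fin n → ℝ)} {F : HFam n ι Λ} {S : ConHomeo Λ Λ}
    (hS : F.IsH S) : IsF F S := ⟨fun _ _ h => hS.full h, fun _ _ h => hS.full' h⟩

theorem IsF.full_iff {ι : Type*} {Λ : Set (Fin n → ℝ)} {F : HFam n ι Λ} {S : ConHomeo Λ Λ}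
    (hS : IsF F S) {b : ι} {y : Fin n → ℝ} (hy : y ∈ Λ) :
    (F.X b).Full (S.toFun y) ↔ (F.X b).Full y := by
  constructor
  · intro h
    have h1 := hS.full' b _ h
    rw [S.left_inv hy] at h1
    rw [h1]
    exact h.update ((F.X b).l1.symm.win h.1)
  · intro h
    rw [hS.full b _ h]
    exact h.update ((F.X b).l1.win h.1)

/-- the identity near the boundary of the box -/
structure MvH {ι : Type*} {Λ : Set (Fin n → ℝ)} (G : HFam n ι Λ) (r : ι → ℝ) (S : ConHomeo Λ Λ) :
    Prop where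
  mem : ∀ b, ∀ y ∈ (G.X b).K, S.toFun y ∈ (G.X b).K
  mem' : ∀ b, ∀ y ∈ (G.X b).K, S.invFun y ∈ (G.X b).K
  near : ∀ b, ∀ y ∈ (G.X b).K, ‖S.toFun y - y‖ ≤ r b
  ne : ∀ b, ∀ y ∈ (G.X b).K, ∀ i, i ≠ (G.X b).j → S.toFun y i = y i
  off : ∀ y, (∀ b, y ∉ (G.X b).K) → S.toFun y = y
  off' : ∀ y, (∀ b, y ∉ (G.X b).K) → S.invFun y = y

theorem MvH.mem_iff {ι : Type*} {Λ : Set (Fin n → ℝ)} {G : HFam n ι Λ} {r : ι → ℝ}
    {S : ConHomeo Λ Λ} (H : MvH G r S) {b : ι} {y : Fin n → ℝ} (hy : y ∈ Λ) :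
    S.toFun y ∈ (G.X b).K ↔ y ∈ (G.X b).K := by
  refine ⟨fun h => ?_, H.mem b y⟩
  have := H.mem' b _ h
  rwa [S.left_inv hy] at this

theorem MvH.of_isH {ι : Type*} {Λ : Set (Fin n → ℝ)} {G : HFam n ι Λ} {S : ConHomeo Λ Λ}
    (hS : G.IsH S) : MvH G (fun b => (G.X b).D) S :=
  ⟨fun _ _ h => hS.mem h, fun _ _ h => hS.mem' h, fun _ _ h => hS.norm_sub_le h,
    fun _ _ h _ hi => hS.ne h hi, hS.off, hS.off'⟩

/-- the form of block H267 -/
theorem MvH.mv {ι : Type*} {Λ : Set (Fin 3 → ℝ)} {G : HFam 3 ι Λ} {r : ι → ℝ} {S : ConHomeo Λ Λ}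
    (H : MvH G r S) : Vale.Agent.P073.H267.Mv (fun b => (G.X b).K) r S.toFun := ⟨H.mem, H.near, H.off⟩

section

variable {ι : Type*} {Λ : Set (Fin n → ℝ)} {F G : HFam n ι Λ} {S₁ S₂ : ConHomeo Λ Λ}
  {b : ι} {y : Fin n → ℝ}

/-- the supports of `F` are contained in the full zones of `G` -/
theorem Stk.full (O : Stk F G) (hy : y ∈ (F.X b).K) : (G.X b).Full y := by
  obtain ⟨h1, h2⟩ := hy
  refine ⟨?_, fun i hi => ?_⟩
  · rw [O.hj b, O.hal b, O.hbe b]; exact h1
  · rw [O.hj b] at hi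
    obtain ⟨h3, h4⟩ := h2 i hi
    exact ⟨(O.hlo b i hi).trans h3, h4.trans (O.hhi b i hi)⟩

theorem Stk.sub (O : Stk F G) : (F.X b).K ⊆ (G.X b).K := fun _ hy => (O.full hy).mem

/-- a support of `F` does not meet the supports of the other boxes of `G` in interior points -/
theorem Stk.mem_eq (O : Stk F G) {b' : ι} (hb : b ≠ b')
    (h1 : y ∈ (F.X b).K) : y ∈ (G.X b).K ∧ y ∉ interior (G.X b').K := by
  refine ⟨O.sub h1, fun h3 => ?_⟩
  exact Set.disjoint_left.1 (G.dis b' b hb.symm) h3 (O.sub h1)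

/-- **`S' = H_1 ∘ H_α`, the full zone** -/
theorem Stk.isF (O : Stk F G) (hG : G.IsH S₁) (hD : (divFam O).IsH S₂) :
    IsF F (S₁.trans S₂) where
  full := by
    intro b y hy
    have hyG : (G.X b).Full y := O.full hy.mem
    have e1 := hG.full hyG
    rw [O.hj b] at e1
    have hwin : (G.X b).k (y (F.X b).j) ∈ Icc (F.X b).al (F.X b).be := by
      have := (G.X b).l1.win (t := y (F.X b).j) (by rw [O.hal b, O.hbe b]; exact hy.1)
      rwa [O.hal b, O.hbe b] at this
    have hy1 : ((divFam O).X b).Full (S₁.toFun y) := by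
      rw [e1]
      exact hy.update hwin
    have e2 := hD.full hy1
    show S₂.toFun (S₁.toFun y) = _
    rw [e2, e1]
    show Function.update (Function.update y (F.X b).j _) (F.X b).j
      ((F.X b).k ((G.X b).k' (Function.update y (F.X b).j _ (F.X b).j))) = _
    rw [Function.update_self, Function.update_idem, (G.X b).l1.left]
  full' := by
    intro b y hy
    have hyD : ((divFam O).X b).Full y := hy
    have e1 := hD.full' hyD
    have e1' : S₂.invFun y =
        Function.update y (F.X b).j ((G.X b).k ((F.X b).k' (y (F.X b).j))) := e1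
    have hwF : (F.X b).k' (y (F.X b).j) ∈ Icc (F.X b).al (F.X b).be :=
      (F.X b).l1.symm.win hy.1
    have hwin : (G.X b).k ((F.X b).k' (y (F.X b).j)) ∈ Icc (F.X b).al (F.X b).be := by
      have := (G.X b).l1.win (t := (F.X b).k' (y (F.X b).j)) (by rw [O.hal b, O.hbe b]; exact hwF)
      rwa [O.hal b, O.hbe b] at this
    have hy1 : (G.X b).Full (S₂.invFun y) := by
      rw [e1']
      exact O.full (hy.update hwin).mem
    have e2 := hG.full' hy1
    rw [O.hj b] at e2
    show S₁.invFun (S₂.invFun y) = _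
    rw [e2, e1', Function.update_self, Function.update_idem, (G.X b).l1.left]

/-- **`S' = H_1 ∘ H_α`, supports and displacement** -/
theorem Stk.mvH (O : Stk F G) (hG : G.IsH S₁) (hD : (divFam O).IsH S₂) :
    MvH G (fun b => (F.X b).D + 2 * (G.X b).D) (S₁.trans S₂) := by
  have hK : ∀ b, ((divFam O).X b).K = (F.X b).K := fun b => rfl
  -- `S₂` preserves the supports of `G`
  have key : ∀ b, ∀ y ∈ (G.X b).K, (S₂.toFun y ∈ (G.X b).K ∧ S₂.invFun y ∈ (G.X b).K ∧
      ‖S₂.toFun y - y‖ ≤ (F.X b).D + (G.X b).D ∧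
      ∀ i, i ≠ (G.X b).j → S₂.toFun y i = y i) := by
    intro b y hy
    have hD0 : 0 ≤ (F.X b).D + (G.X b).D := add_nonneg (F.X b).D0 (G.X b).D0
    by_cases hb : y ∈ (F.X b).K
    · have h1 : S₂.toFun y ∈ (F.X b).K := hD.mem (b := b) hb
      have h2 : S₂.invFun y ∈ (F.X b).K := hD.mem' (b := b) hb
      refine ⟨O.sub h1, O.sub h2, hD.norm_sub_le (b := b) hb, fun i hi => ?_⟩
      exact hD.ne (b := b) hb (by rw [O.hj b] at hi; exact hi)
    · have hfix : S₂.toFun y = y := by
        rcases hD.cases y with ⟨b', hb', e⟩ | ⟨-, e⟩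
        · have hbb : b ≠ b' := by rintro rfl; exact hb hb'
          rw [e]
          exact ((divFam O).X b').supp.bdry fun hi' =>
            Set.disjoint_left.1 (G.dis b' b hbb.symm) (interior_mono O.sub hi') hy
        · exact e
      have hyΛ : y ∈ Λ := G.sub b hy
      have hfix' : S₂.invFun y = y := by
        have := S₂.left_inv hyΛ
        rwa [hfix] at this
      rw [hfix, hfix']
      refine ⟨hy, hy, by rw [sub_self, norm_zero]; exact hD0, fun _ _ => rfl⟩
  refine ⟨fun b y hy => ?_, fun b y hy => ?_, fun b y hy => ?_, fun b y hy i hi => ?_,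
    fun y hy => ?_, fun y hy => ?_⟩
  · exact (key b _ (hG.mem hy)).1
  · exact hG.mem' (key b y hy).2.1
  · have h1 := hG.norm_sub_le hy
    have h2 := (key b _ (hG.mem hy)).2.2.1
    show ‖S₂.toFun (S₁.toFun y) - y‖ ≤ _
    have h3 : S₂.toFun (S₁.toFun y) - y =
      (S₂.toFun (S₁.toFun y) - S₁.toFun y) + (S₁.toFun y - y) := by abel
    rw [h3]
    refine (norm_add_le _ _).trans ?_
    linarith
  · show S₂.toFun (S₁.toFun y) i = y i
    rw [(key b _ (hG.mem hy)).2.2.2 i hi, hG.ne hy hi]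
  · have h1 := hG.off y hy
    show S₂.toFun (S₁.toFun y) = y
    rw [h1]
    exact hD.off y fun b hb => hy b (O.sub hb)
  · have h1 : S₂.invFun y = y := hD.off' y fun b hb => hy b (O.sub hb)
    show S₁.invFun (S₂.invFun y) = y
    rw [h1]
    exact hG.off' y hy

/-- **the vertical form** in the big boxes -/
theorem Stk.vrt (O : Stk F G) (hG : G.IsH S₁) (hD : (divFam O).IsH S₂) {lo hi : ι → Fin n → ℝ}
    (OG : Over G (fun b => (F.X b).j) (fun b => (F.X b).al) (fun b => (F.X b).be) lo hi) :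
    Vrt (S₁.trans S₂).toFun (fun b => (F.X b).j) (fun b => (F.X b).al) (fun b => (F.X b).be) lo hi
      (fun b y t => cl ((F.X b).k ∘ (G.X b).k') (((divFam O).X b).m y)
        (cl (G.X b).k ((G.X b).m y) t)) := by
  have OD : Over (divFam O) (fun b => (F.X b).j) (fun b => (F.X b).al) (fun b => (F.X b).be) lo
      hi := by
    refine ⟨fun _ => rfl, fun _ => rfl, fun _ => rfl, fun b i hi' => ?_, fun b i hi' => ?_,
      fun b b' hbb y hy => ?_⟩
    · have h1 := OG.hlo b i hi'
      have h2 := O.hlo b i hi'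
      have h3 := (G.X b).hr i
      show _ ≤ (F.X b).lo i - (F.X b).r i
      linarith
    · have h1 := OG.hhi b i hi'
      have h2 := O.hhi b i hi'
      have h3 := (G.X b).hr i
      show (F.X b).hi i + (F.X b).r i ≤ _
      linarith
    · exact OG.dis b b' hbb y (interior_mono O.sub hy)
  exact (OD.vrt hD).comp (OG.vrt hG)

/-- **[SALPHA]**: existence of `S'` -/
theorem Stk.exists_isF (O : Stk F G) (hΛ : IsOpen Λ) :
    ∃ S₁ S₂ : ConHomeo Λ Λ, G.IsH S₁ ∧ (divFam O).IsH S₂ ∧ IsF F (S₁.trans S₂) ∧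
      MvH G (fun b => (F.X b).D + 2 * (G.X b).D) (S₁.trans S₂) := by
  obtain ⟨S₁, h1⟩ := G.exists_isH hΛ
  obtain ⟨S₂, h2⟩ := (divFam O).exists_isH hΛ
  exact ⟨S₁, S₂, h1, h2, O.isF h1 h2, O.mvH h1 h2⟩

end

/-- a further map which preserves the boxes and is given by one-variable maps in the full zones
(the correction `T_fix`) -/
theorem IsF.trans {ι : Type*} {Λ : Set (Fin n → ℝ)} {F F' F'' : HFam n ι Λ} {S T : ConHomeo Λ Λ}
    (hS : IsF F S) (hT : IsF F' T) (hj : ∀ b, (F'.X b).j = (F.X b).j)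
    (hj' : ∀ b, (F''.X b).j = (F.X b).j)
    (hF : ∀ b y, (F''.X b).Full y → (F.X b).Full y)
    (hF' : ∀ b y, (F''.X b).Full y → (F'.X b).Full y)
    (hk : ∀ b t, (F''.X b).k t = (F'.X b).k ((F.X b).k t))
    (hw : ∀ b y, (F''.X b).Full y →
      (F'.X b).Full (Function.update y (F.X b).j ((F.X b).k (y (F.X b).j))))
    (hw' : ∀ b y, (F''.X b).Full y →
      (F.X b).Full (Function.update y (F.X b).j ((F'.X b).k' (y (F.X b).j)))) :
    IsF F'' (S.trans T) where
  full := by
    intro b y hy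
    have e1 := hS.full b y (hF b y hy)
    have e2 := hT.full b _ (hw b y hy)
    show T.toFun (S.toFun y) = _
    rw [e1, e2, hj b, hj' b, Function.update_self, Function.update_idem, hk]
  full' := by
    intro b y hy
    have e1 := hT.full' b y (hF' b y hy)
    rw [hj b] at e1
    have e2 := hS.full' b _ (hw' b y hy)
    have hk' : (F''.X b).k' (y (F.X b).j) = (F.X b).k' ((F'.X b).k' (y (F.X b).j)) := by
      have h1 := hk b ((F.X b).k' ((F'.X b).k' (y (F.X b).j)))
      rw [(F.X b).l1.right, (F'.X b).l1.right] at h1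
      have h2 := congrArg (F''.X b).k' h1
      rw [(F''.X b).l1.left] at h2
      exact h2.symm
    show S.invFun (T.invFun y) = _
    rw [e1, e2, hj' b, Function.update_self, Function.update_idem, hk']

end P073.H429
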