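import Vale.Agent.P073.H429.TEx

/-!
# P073, H429, K3C: thin bands with more slivers

`slIn_union`: more intervals may be added to the slivers of ROUND T; `exists_thnX`: thin bands
which avoid the slivers `sl` and a finite family `X` of intervals (both fattened by `D`).
-/

open Set Metric Topology Filter

namespace P073.H429

open P073 P073.H936 P073.H936.K3 P073.H142 P073.H880 P073.H919 P073.H236
open Vale.Agent.P073.St (V)
open Vale.Agent.P073.H471 Vale.Agent.P073.H267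
open Vale.Agent.P073.H669 (Bds gap eLo eHi sqE mem_sqE)
open Vale.Agent.P073.H238.K3 (SlIn)
open P073.Net P073.PA691

variable {Λ : Set V} {v : V} {K : BoxCx Λ v} {S : Rad K} {W : Wid K S} {B : Boxes W}

open Classical in
/-- more intervals may be added to the slivers -/
theorem slIn_union {G : Geo B} {ω : TBx K → ℝ} {b : TBx K} {σ τ : ℝ} {sl X : Finset (ℝ × ℝ)}
    (h : SlIn G ω b σ sl) (hX : ∀ p ∈ X, p.1 ≤ p.2) (hs : ∑ p ∈ X, (p.2 - p.1) ≤ τ) :
    SlIn G ω b (σ + τ) (sl ∪ X) := by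
  obtain ⟨q₀, q₁, q₂, q₃, inner, a1, a2, a3, a4, a5, a6, a7, a8, m1, m2, h5, h6, h7⟩ := h
  refine ⟨q₀, q₁, q₂, q₃, inner ∪ X, a1, a2, a3, a4, a5, a6, a7, a8, Finset.mem_union_left _ m1,
    Finset.mem_union_left _ m2, fun p hp => ?_, fun p hp => ?_, ?_⟩
  · rcases Finset.mem_union.1 hp with hp | hp
    · rcases h5 p hp with h | h | h
      · exact Or.inl h
      · exact Or.inr (Or.inl h)
      · exact Or.inr (Or.inr (Finset.mem_union_left _ h))
    · exact Or.inr (Or.inr (Finset.mem_union_right _ hp))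
  · rcases Finset.mem_union.1 hp with hp | hp
    · exact h6 p hp
    · exact hX p hp
  · have h8 := Finset.sum_union_inter (s₁ := inner) (s₂ := X) (f := fun p : ℝ × ℝ => p.2 - p.1)
    have h9 : 0 ≤ ∑ p ∈ inner ∩ X, (p.2 - p.1) := Finset.sum_nonneg fun p hp =>
      sub_nonneg.2 (hX p (Finset.mem_inter.1 hp).2)
    linarith

variable {S₀ : Set K.S} {e : K.G} {sl X : Finset (ℝ × ℝ)} {D : ℝ} {Ns : K.S → ℕ}
  {P P' : K.S → ℕ → ℝ}

/-- **the intervals of `X`, fattened by `D`, meet no thin band** -/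
theorem thnX_off [DecidableEq (ℝ × ℝ)] {μ : ℝ}
    (Th : Thn (eLo W e) (eHi W e) (slF S₀ e (sl ∪ X) D Ns P P') μ)
    {i : Th.I} {p : ℝ × ℝ} (hp : p ∈ X) : p.2 + D < Th.c i - Th.w i ∨
      Th.c i + Th.w i < p.1 - D := by
  have hp' : (p.1 - D, p.2 + D) ∈ slF S₀ e (sl ∪ X) D Ns P P' :=
    Vale.Agent.P073.H669.mem_tbSl.2 (Or.inl (mem_fat.2 ⟨p, Finset.mem_union_right _ hp, rfl⟩))
  exact Th.off (i := i) hp'

end P073.H429
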