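import Vale.Agent.P073.H194.FaceTg
import Vale.Agent.P073.H429.FaceTP
import Vale.Agent.P073.H267.K3Last

/-!
# P073, H429, [CELL3]: the clauses of the faces of the cells drawn in the tubes
-/

open Set Metric Topology Filter MeasureTheory
open scoped ENNReal

set_option linter.unusedSectionVars false

namespace Vale.Agent.P073.H193

open _root_.P073 _root_.P073.Net _root_.P073.PA691 _root_.P073.H936 _root_.P073.H936.K3
  _root_.P073.H142 _root_.P073.H880 _root_.P073.H880.RP _root_.P073.H345 _root_.P073.H236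
  _root_.P073.H579 _root_.P073.H919 _root_.P073.H228 _root_.P073.H429
open Vale.Agent.P073
open Vale.Agent.P073.St (V)
open Vale.Agent.P073.AB (Idx squ)
open Vale.Agent.P073.H73 (Mesh)
open Vale.Agent.P073.H471 Vale.Agent.P073.H267
open Vale.Agent.P073.H926
open Vale.Agent.P073.H238.K3 (Zd Wc Act TOut3)
open Vale.Agent.P073.H267.K3

variable {c₀ n δ : ℝ} {j : ℕ} {Ω Λ : Set V} {v w : V} {ρ : V → ℝ} {M : Mesh Ω} {h : ConHomeo Ω Λ}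
  {J₀ J : Set (ℕ × (Fin 3 → ℤ))} {P Z : Set M.ι} {K : BoxCx Λ w}
  {D : KIn3 c₀ n j δ v w ρ M h J₀ J P Z} {C : Cells ρ w K} {C₀ μT : ℝ}
  {X : S1 D C C₀ μT} {Y₂ : S2 X} {Ys : Set M.κ} {sc : Sharp} {Y₃ : S3 Y₂ Ys sc} {Y₄ : S4 Y₃}

/-- **the clauses of the faces of the cells drawn in the tubes** (193's `TFaces`, unfolded) -/
theorem tFaces_aux (Y₅ : S5 Y₄) {τ ε : M.κ → ℝ}
    {t4 : (D.dat C).S₀ → ℝ} {t5 : pG C J₀ → ℝ} (N : RowNum Y₅ τ ε t4 t5) {a₁ : ℝ}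
    (ha₁ : 1 ≤ a₁)
    (hTg : ∀ b : pG C J₀, ∀ k, k ∈ (D.dat C).DF → k ∉ (D.dat C).Peel (D.G C) X.h1 →
      ∀ x ∈ M.F k, Y₄.f5.toFun x ∈ YB (YT (D.G C) (pS C J₀)) b.1 → ∀ᶠ y in 𝓝[M.F k] x,
        bds (Y₅.Th b) (Y₄.f5.toFun y (K.dir b.1)) (Y₄.f5.toFun x (K.dir b.1)) ≤
          a₁ * wcst D C X.h1.toFun k x y + τ k * ‖y - x‖)
    (hq : 0 ≤ Y₃.q) {kT kT' : ℝ} (h1 : 55 * (624 * Y₃.q + 1) ≤ kT)
    (h2 : 55 * (6 * a₁ * C₀ + 1) ≤ kT) (h2' : 547 * C₀ ≤ kT)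
    (h3 : 55 * (4 * (FW31.DK sc.K * Y₃.q) + 1) ≤ kT') (h4 : kT ≤ kT')
    (b : pG C J₀) (i : M.ι) (hi : i ∈ ZbT Y₄ b) (k : M.κ) (hk : M.F k ⊆ M.Q i)
    (bb : (edges M).ε → ℝ) (hb : ∀ e, (edges M).seg e ⊆ M.F k → X.bn e ≤ bb e)
    (hbh : ∀ e, (edges M).seg e ⊆ M.F k →
      ‖h.toFun ((edges M).b e) - h.toFun ((edges M).a e)‖ ≤ bb e)
    (hL : ∀ i' ∈ Wc D C, M.F k ⊆ M.Q i' → ∃ L > 0,
      (∀ x ∈ M.Q i', ∀ y ∈ M.Q i', ‖h.toFun x - h.toFun y‖ ≤ L * ‖x - y‖) ∧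
      ∀ e, (edges M).seg e ⊆ M.F k → L * ‖(edges M).b e - (edges M).a e‖ ≤ bb e)
    (Cc : ℝ) (hc1 : k ∉ Ys → kT ≤ Cc) (hc2 : k ∈ Ys → kT' ≤ Cc) :
    FaceCl M k (X.T k) bb Cc Cc (fun x y => bds (Y₅.Th b) (Y₄.f5.toFun x (K.dir b.1))
      (Y₄.f5.toFun y (K.dir b.1))) := by
  have hbb0 : ∀ e, (edges M).seg e ⊆ M.F k → 0 ≤ bb e := fun e he =>
    (X.num.b_pos e).le.trans (hb e he)
  have hkT : kT ≤ Cc := by
    by_cases hY : k ∈ Ys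
    · exact h4.trans (hc2 hY)
    · exact hc1 hY
  have hn1 := N.n1
  have hqr : ∀ s, 1 / 2 ≤ Y₄.q s * Y₄.r s := Y₄.rq_of
    (fun s => by have := N.r s; linarith) (fun s => by have := N.q s; linarith)
  obtain ⟨sq, hsq⟩ := D.face_Zmax hi.1.1 hk
  have hle : ∀ x ∈ M.F k, ∀ y ∈ M.F k,
      bds (Y₅.Th b) (Y₄.f5.toFun x (K.dir b.1)) (Y₄.f5.toFun y (K.dir b.1)) ≤
        1 * |Y₄.f5.toFun x (K.dir b.1) - Y₄.f5.toFun y (K.dir b.1)| := fun x _ y _ => by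
    rw [one_mul]
    exact bds_le _ _ _
  by_cases hkp : k ∈ (D.dat C).Peel (D.G C) X.h1
  · obtain ⟨s, hs⟩ := hkp
    refine (faceCl_Tpeel Y₄ hi hk hs hsq (hqr _) hbb0 hq (fun e he => ?_) (fun e he => ?_)
      (fun e he => ?_) (fun hY => h1.trans (hc1 hY)) (fun hY => h3.trans (hc2 hY))).mono hbb0 hle
      le_rfl le_rfl
    · exact (Y₃.Lq e).trans (mul_le_mul_of_nonneg_left (hb e he) hq)
    · exact (Y₃.Wq e).trans (mul_le_mul_of_nonneg_left (hb e he) hq)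
    · have e1 := N.ε5 s k hs
      have e2 := N.τe k e he
      have e3 := norm_nonneg ((edges M).b e - (edges M).a e)
      have e4 := N.τ0 k
      have e5 : Y₄.ε ⟨s, hs.1⟩ ≤ τ k := by linarith
      exact (mul_le_mul_of_nonneg_right e5 e3).trans (e2.trans (hb e he))
  · by_cases hkP : ∃ i' ∈ P, M.F k ⊆ M.Q i'
    · obtain ⟨i', hi', hk'⟩ := hkP
      exact (faceCl_Tprot Y₄ N.C₀1 (Y₃.theta_of N.Ds N.cs) hqr (Y₄.tausg_of N.st)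
        (fun i hi q hq0 hq s hs => (N.ε4 s).trans (N.tP4 i hi q hq0 hq s hs)) hi hk hi' hk' hsq
        hbh (D₁ := Cc) (h2'.trans hkT)).mono hbb0 hle le_rfl le_rfl
    · push Not at hkP
      exact faceCl_Tgiv Y₅ N.C₀1 ha₁ N.τe (hTg b) hi hk hkP hkp hb hL (h2.trans hkT)

end Vale.Agent.P073.H193
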