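import Vale.Agent.P073.H196.PFix
import Vale.Agent.P073.H236.HFam
import Vale.Agent.P073.H880.Tgt

/-!
# P073, H429, K3C, **[T-BANDS]**: thin bands in a window, and the staircase with slope `ς` off them

`BS al be l h`: finitely many disjoint closed intervals `[l i, h i]` in `(al, be)`, any index type.
`sgG`: the homeomorphism of the line with slope `A` on the bands and slope `ς` on the rest of the
window. `exists_thin`: thin uniform bands which avoid finitely many slivers.
-/

open Set Metric Topology Filter

namespace P073.H429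

open P073 P073.H236 P073.H196

/-- disjoint intervals in a window -/
structure BS {ι : Type*} [Fintype ι] (al be : ℝ) (l h : ι → ℝ) : Prop where
  ne : Nonempty ι
  lt : ∀ i, l i < h i
  lo : ∀ i, al < l i
  hi : ∀ i, h i < be
  dis : ∀ i j, i ≠ j → h i < l j ∨ h j < l i

/-- the length of the bands below `t` -/
noncomputable def bt {ι : Type*} [Fintype ι] (l h : ι → ℝ) (t : ℝ) : ℝ := ∑ i, clam (l i) (h i) t

/-- the total length of the bands -/
noncomputable def blen {ι : Type*} [Fintype ι] (l h : ι → ℝ) : ℝ := ∑ i, (h i - l i)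

/-- the slope on the bands -/
noncomputable def slG {ι : Type*} [Fintype ι] (al be : ℝ) (l h : ι → ℝ) (ς : ℝ) : ℝ :=
  ς + (1 - ς) * (be - al) / blen l h

/-- **the second staircase** -/
noncomputable def sgG {ι : Type*} [Fintype ι] (al be : ℝ) (l h : ι → ℝ) (ς : ℝ) (t : ℝ) : ℝ :=
  t + (1 - ς) * ((be - al) / blen l h * bt l h t - clam al be t)

theorem clam_sub_le {l r s t : ℝ} (hst : s ≤ t) : clam l r t - clam l r s ≤ t - s := by
  have h1 : min (t - l) (r - l) ≤ min (s - l) (r - l) + (t - s) := by
    rcases le_total (s - l) (r - l) with h | h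
    · rw [min_eq_left h]; exact (min_le_left _ _).trans (by linarith)
    · rw [min_eq_right h]; exact (min_le_right _ _).trans (by linarith)
  have h3 := le_max_left 0 (min (s - l) (r - l))
  have h4 := le_max_right 0 (min (s - l) (r - l))
  have h2 : max 0 (min (t - l) (r - l)) ≤ max 0 (min (s - l) (r - l)) + (t - s) :=
    max_le (by linarith) (h1.trans (by linarith))
  unfold clam
  linarith

theorem clam_le_len {l r : ℝ} (hlr : l ≤ r) (t : ℝ) : clam l r t ≤ r - l := by
  unfold clam
  exact max_le (by linarith) (min_le_right _ _)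

namespace BS

variable {ι : Type*} [Fintype ι] {al be ς : ℝ} {l h : ι → ℝ}

section

variable (H : BS al be l h)

include H

theorem hab : al < be := by
  obtain ⟨i⟩ := H.ne
  linarith [H.lt i, H.lo i, H.hi i]

omit H in
theorem bt_mono : Monotone (bt l h) := fun s t hst =>
  Finset.sum_le_sum fun i _ => clam_mono _ _ hst

/-- **the bands are disjoint** -/
theorem bt_sub_le {s t : ℝ} (hst : s ≤ t) :
    bt l h t - bt l h s ≤ clam al be t - clam al be s := by
  classical
  have hpd : ((Finset.univ : Finset ι) : Set ι).PairwiseDisjoint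
      fun i => Icc (l i) (h i) ∩ Icc s t := by
    intro i _ j _ hij
    rw [Function.onFun, Set.disjoint_left]
    rintro x ⟨hx, -⟩ ⟨hx', -⟩
    rcases H.dis i j hij with h1 | h1
    · linarith [hx.2, hx'.1]
    · linarith [hx.1, hx'.2]
  have hmeas := MeasureTheory.measure_biUnion_finset (μ := MeasureTheory.volume) hpd
    fun i _ => measurableSet_Icc.inter measurableSet_Icc
  have key : ∀ a b : ℝ, a ≤ b → MeasureTheory.volume (Icc a b ∩ Icc s t) =
      ENNReal.ofReal (clam a b t - clam a b s) := by
    intro a b hab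
    rw [Icc_inter_Icc, Real.volume_Icc]
    rcases le_total t a with h1 | h1
    · rw [clam_of_le h1, clam_of_le (hst.trans h1), sub_self,
        ENNReal.ofReal_of_nonpos (by
          have h2 : min b t ≤ t := min_le_right _ _
          have h3 : a ≤ max a s := le_max_left _ _
          linarith), ENNReal.ofReal_zero]
    · rcases le_total b s with h2 | h2
      · rw [clam_of_ge hab h2, clam_of_ge hab (h2.trans hst), sub_self,
          ENNReal.ofReal_of_nonpos (by
            have h3 : min b t ≤ b := min_le_left _ _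
            have h4 : s ≤ max a s := le_max_right _ _
            linarith), ENNReal.ofReal_zero]
      · congr 1
        rcases le_total b t with h3 | h3
        · rw [clam_of_ge hab h3, min_eq_left h3]
          rcases le_total a s with h4 | h4
          · rw [clam_of_mem h4 h2, max_eq_right h4]; ring
          · rw [clam_of_le h4, max_eq_left h4]; ring
        · rw [clam_of_mem h1 h3, min_eq_right h3]
          rcases le_total a s with h4 | h4
          · rw [clam_of_mem h4 h2, max_eq_right h4]; ring
          · rw [clam_of_le h4, max_eq_left h4]; ring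
  have hle : ∑ i, MeasureTheory.volume (Icc (l i) (h i) ∩ Icc s t) ≤
      MeasureTheory.volume (Icc al be ∩ Icc s t) := by
    rw [← hmeas]
    refine MeasureTheory.measure_mono (iUnion₂_subset fun i _ => ?_)
    exact inter_subset_inter_left _ (Icc_subset_Icc (H.lo i).le (H.hi i).le)
  rw [key al be H.hab.le] at hle
  simp_rw [key _ _ (H.lt _).le] at hle
  rw [← ENNReal.ofReal_sum_of_nonneg fun i _ => sub_nonneg.2 (clam_mono _ _ hst)] at hle
  rw [ENNReal.ofReal_le_ofReal_iff (sub_nonneg.2 (clam_mono _ _ hst))] at hle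
  unfold bt
  rw [← Finset.sum_sub_distrib]
  exact hle

theorem blen_pos : 0 < blen l h := by
  obtain ⟨i⟩ := H.ne
  exact Finset.sum_pos (fun i _ => sub_pos.2 (H.lt i)) ⟨i, Finset.mem_univ i⟩

theorem bt_al {t : ℝ} (ht : t ≤ al) : bt l h t = 0 :=
  Finset.sum_eq_zero fun i _ => clam_of_le (ht.trans (H.lo i).le)

theorem bt_be {t : ℝ} (ht : be ≤ t) : bt l h t = blen l h :=
  Finset.sum_congr rfl fun i _ => clam_of_ge (H.lt i).le ((H.hi i).le.trans ht)

theorem blen_le : blen l h ≤ be - al := by
  have h1 := H.bt_sub_le H.hab.le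
  rw [H.bt_al le_rfl, H.bt_be le_rfl, clam_of_ge H.hab.le le_rfl, clam_of_le le_rfl] at h1
  linarith

theorem bt_nonneg (t : ℝ) : 0 ≤ bt l h t := Finset.sum_nonneg fun i _ => clam_nonneg _ _ _

theorem bt_le (t : ℝ) : bt l h t ≤ clam al be t := by
  rcases le_total t al with h1 | h1
  · rw [H.bt_al h1]; exact clam_nonneg _ _ _
  · have := H.bt_sub_le h1
    rw [H.bt_al le_rfl, clam_of_le (t := al) le_rfl] at this
    linarith

/-- in the window -/
theorem eq_win {t : ℝ} (ht : t ∈ Icc al be) :
    sgG al be l h ς t = al + ς * (t - al) + (slG al be l h ς - ς) * bt l h t := by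
  unfold sgG slG
  rw [clam_of_mem ht.1 ht.2]
  ring

theorem out {t : ℝ} (ht : t ≤ al ∨ be ≤ t) : sgG al be l h ς t = t := by
  unfold sgG
  rcases ht with h1 | h1
  · rw [H.bt_al h1, clam_of_le h1]; ring
  · rw [H.bt_be h1, clam_of_ge H.hab.le h1, div_mul_cancel₀ _ H.blen_pos.ne']; ring

/-- **the difference of two values in the window** -/
theorem sub_eq {s t : ℝ} (hs : s ∈ Icc al be) (ht : t ∈ Icc al be) :
    sgG al be l h ς t - sgG al be l h ς s = slG al be l h ς * (bt l h t - bt l h s) +
      ς * ((t - s) - (bt l h t - bt l h s)) := by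
  rw [H.eq_win ht, H.eq_win hs]
  ring

theorem one_le_slG (h1 : ς ≤ 1) : 1 ≤ slG al be l h ς := by
  unfold slG
  have h2 : 1 - ς ≤ (1 - ς) * (be - al) / blen l h := by
    rw [le_div_iff₀ H.blen_pos]
    exact mul_le_mul_of_nonneg_left H.blen_le (by linarith)
  linarith

/-- the slope is close to one if the bands fill the window -/
theorem slG_le (h0 : 0 ≤ ς) (h1 : ς ≤ 1) {μ : ℝ} (hμ : 0 ≤ μ)
    (hB : be - al ≤ (1 + μ) * blen l h) : slG al be l h ς ≤ 1 + μ := by
  unfold slG
  have h2 : (1 - ς) * (be - al) / blen l h ≤ (1 - ς) * (1 + μ) := by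
    rw [div_le_iff₀ H.blen_pos, mul_assoc]
    exact mul_le_mul_of_nonneg_left hB (by linarith)
  have h3 : 0 ≤ ς * μ := mul_nonneg h0 hμ
  nlinarith

theorem slG_sub_nonneg (h1 : ς ≤ 1) : 0 ≤ slG al be l h ς - ς := by
  linarith [H.one_le_slG h1]

/-- lower bound everywhere -/
theorem le_sub (h1 : ς ≤ 1) {s t : ℝ} (hst : s ≤ t) :
    ς * (t - s) ≤ sgG al be l h ς t - sgG al be l h ς s := by
  have hA : 0 ≤ (be - al) / blen l h := div_nonneg (by linarith [H.hab]) H.blen_pos.le
  have h2 : 0 ≤ bt l h t - bt l h s := sub_nonneg.2 (bt_mono hst)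
  have h3 : clam al be t - clam al be s ≤ t - s := clam_sub_le hst
  have h4 : 0 ≤ (1 - ς) * ((be - al) / blen l h * (bt l h t - bt l h s)) :=
    mul_nonneg (by linarith) (mul_nonneg hA h2)
  have h5 : (1 - ς) * (clam al be t - clam al be s) ≤ (1 - ς) * (t - s) :=
    mul_le_mul_of_nonneg_left h3 (by linarith)
  unfold sgG
  have h6 : t + (1 - ς) * ((be - al) / blen l h * bt l h t - clam al be t) -
      (s + (1 - ς) * ((be - al) / blen l h * bt l h s - clam al be s)) =
      (t - s) + (1 - ς) * ((be - al) / blen l h * (bt l h t - bt l h s)) -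
      (1 - ς) * (clam al be t - clam al be s) := by ring
  rw [h6]
  linarith

theorem strictMono (h0 : 0 < ς) (h1 : ς ≤ 1) : StrictMono (sgG al be l h ς) := fun s t hst => by
  have h2 := H.le_sub h1 hst.le
  have h3 := mul_pos h0 (sub_pos.2 hst)
  linarith

omit H in
theorem continuous_bt : Continuous (bt l h) :=
  continuous_finsetSum _ fun i _ => clam_continuous _ _

omit H in
theorem continuous : Continuous (sgG al be l h ς) := by
  unfold sgG
  exact continuous_id.add (continuous_const.mul ((continuous_const.mul continuous_bt).sub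
    (clam_continuous _ _)))

/-- displacement: at most the length of the complement of the bands -/
theorem abs_sub_self_le (h0 : 0 ≤ ς) (h1 : ς ≤ 1) (t : ℝ) :
    |sgG al be l h ς t - t| ≤ be - al - blen l h := by
  have hB := H.blen_pos
  have hG : 0 ≤ be - al - blen l h := by linarith [H.blen_le]
  rcases le_total t al with h2 | h2
  · rw [H.out (Or.inl h2), sub_self, abs_zero]; exact hG
  rcases le_total be t with h3 | h3
  · rw [H.out (Or.inr h3), sub_self, abs_zero]; exact hG
  have e1 : sgG al be l h ς t - t = (1 - ς) * ((be - al - blen l h) * (bt l h t / blen l h) -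
      ((t - al) - bt l h t)) := by
    unfold sgG
    rw [clam_of_mem h2 h3]
    field_simp
    ring
  have h4 : bt l h t ≤ t - al := by
    have := H.bt_le t
    rwa [clam_of_mem h2 h3] at this
  have h5 : (t - al) - bt l h t ≤ be - al - blen l h := by
    have := H.bt_sub_le h3
    rw [H.bt_be le_rfl, clam_of_ge H.hab.le le_rfl, clam_of_mem h2 h3] at this
    linarith
  have h6 : 0 ≤ bt l h t / blen l h := div_nonneg (H.bt_nonneg t) hB.le
  have h7 : bt l h t / blen l h ≤ 1 := by
    rw [div_le_one hB]
    have := bt_mono (l := l) (h := h) h3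
    rwa [H.bt_be le_rfl] at this
  have h8 : |(be - al - blen l h) * (bt l h t / blen l h) - ((t - al) - bt l h t)| ≤
      be - al - blen l h := by
    rw [abs_le]
    constructor
    · have := mul_nonneg hG h6
      linarith
    · have := mul_le_mul_of_nonneg_left h7 hG
      linarith
  rw [e1, abs_mul, abs_of_nonneg (by linarith : 0 ≤ 1 - ς)]
  calc (1 - ς) * _ ≤ 1 * _ := mul_le_mul_of_nonneg_right (by linarith) (abs_nonneg _)
    _ ≤ _ := by rw [one_mul]; exact h8

/-- **the estimate in the window, one-sided** -/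
theorem sub_le (h0 : 0 ≤ ς) {s t : ℝ} (hs : s ∈ Icc al be) (ht : t ∈ Icc al be) (hst : s ≤ t) :
    sgG al be l h ς t - sgG al be l h ς s ≤
      slG al be l h ς * (bt l h t - bt l h s) + ς * (t - s) := by
  rw [H.sub_eq hs ht]
  have := mul_nonneg h0 (sub_nonneg.2 (bt_mono (l := l) (h := h) hst))
  linarith

/-- **the estimate in the window** -/
theorem abs_sub_le (h0 : 0 < ς) (h1 : ς ≤ 1) {s t : ℝ} (hs : s ∈ Icc al be) (ht : t ∈ Icc al be) :
    |sgG al be l h ς s - sgG al be l h ς t| ≤
      slG al be l h ς * ∑ i, |clam (l i) (h i) s - clam (l i) (h i) t| + ς * |s - t| := by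
  wlog hst : s ≤ t generalizing s t
  · have := this ht hs (le_of_not_ge hst)
    rw [abs_sub_comm, abs_sub_comm s t]
    simp only [abs_sub_comm (clam _ _ s)]
    exact this
  have h3 : ∑ i, |clam (l i) (h i) s - clam (l i) (h i) t| = bt l h t - bt l h s := by
    unfold bt
    rw [← Finset.sum_sub_distrib]
    refine Finset.sum_congr rfl fun i _ => ?_
    rw [abs_sub_comm, abs_of_nonneg (sub_nonneg.2 (clam_mono _ _ hst))]
  rw [h3, abs_sub_comm, abs_of_nonneg (sub_nonneg.2 ((H.strictMono h0 h1).monotone hst)),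
    abs_sub_comm s t, abs_of_nonneg (by linarith : 0 ≤ t - s)]
  exact H.sub_le h0.le hs ht hst

/-- Lipschitz bound everywhere -/
theorem lip (h0 : 0 < ς) (h1 : ς ≤ 1) (s t : ℝ) :
    |sgG al be l h ς s - sgG al be l h ς t| ≤ slG al be l h ς * |s - t| := by
  wlog hst : s ≤ t generalizing s t
  · have := this t s (le_of_not_ge hst)
    rwa [abs_sub_comm, abs_sub_comm s t]
  rw [abs_sub_comm, abs_of_nonneg (sub_nonneg.2 ((H.strictMono h0 h1).monotone hst)),
    abs_sub_comm s t, abs_of_nonneg (by linarith : 0 ≤ t - s)]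
  have hA := H.one_le_slG h1
  have h2 : bt l h t - bt l h s ≤ clam al be t - clam al be s := H.bt_sub_le hst
  have h3 : clam al be t - clam al be s ≤ t - s := clam_sub_le hst
  have h4 : 0 ≤ clam al be t - clam al be s := sub_nonneg.2 (clam_mono _ _ hst)
  have e : sgG al be l h ς t - sgG al be l h ς s = (t - s) +
      (slG al be l h ς - ς) * (bt l h t - bt l h s) - (1 - ς) * (clam al be t - clam al be s) := by
    unfold sgG slG
    ring
  rw [e]
  have h5 : (slG al be l h ς - ς) * (bt l h t - bt l h s) ≤
      (slG al be l h ς - ς) * (clam al be t - clam al be s) :=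
    mul_le_mul_of_nonneg_left h2 (H.slG_sub_nonneg h1)
  have h6 : (slG al be l h ς - 1) * (clam al be t - clam al be s) ≤
      (slG al be l h ς - 1) * (t - s) := mul_le_mul_of_nonneg_left h3 (by linarith)
  nlinarith

/-- on a band -/
theorem sub_band {i : ι} {s t : ℝ} (hs : s ∈ Icc (l i) (h i)) (ht : t ∈ Icc (l i) (h i)) :
    sgG al be l h ς t - sgG al be l h ς s = slG al be l h ς * (t - s) := by
  classical
  have h1 : ∀ s ∈ Icc (l i) (h i), s ∈ Icc al be := fun s hs =>
    ⟨(H.lo i).le.trans hs.1, hs.2.trans (H.hi i).le⟩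
  have h2 : bt l h t - bt l h s = t - s := by
    unfold bt
    rw [← Finset.sum_sub_distrib, Finset.sum_eq_single_of_mem i (Finset.mem_univ i)]
    · rw [clam_of_mem ht.1 ht.2, clam_of_mem hs.1 hs.2]; ring
    · intro j _ hj
      rcases H.dis i j hj.symm with h3 | h3
      · rw [clam_of_le (ht.2.trans h3.le), clam_of_le (hs.2.trans h3.le), sub_self]
      · rw [clam_of_ge (H.lt j).le (h3.le.trans ht.1), clam_of_ge (H.lt j).le (h3.le.trans hs.1),
          sub_self]
  rw [H.sub_eq (h1 s hs) (h1 t ht), h2, sub_self, mul_zero, add_zero]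

omit H in
theorem conicalOn_bt : ConicalOn (bt l h) univ := by
  classical
  unfold bt
  have : ∀ S : Finset ι, ConicalOn (fun t => ∑ i ∈ S, clam (l i) (h i) t) univ := by
    intro S
    induction S using Finset.induction_on with
    | empty => simpa using conicalOn_const (0 : ℝ) (isOpen_univ.conicalSet (X := (univ : Set ℝ)))
    | insert a S ha ih =>
      simp only [Finset.sum_insert ha]
      exact (clam_conicalOn _ _).add ih
  exact this Finset.univ

omit H in
theorem conicalOn : ConicalOn (sgG al be l h ς) univ := by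
  have h1 : ConicalOn (fun t => (be - al) / blen l h * bt l h t - clam al be t) univ :=
    (conicalOn_bt.const_smul _).sub (clam_conicalOn _ _)
  exact (conicalOn_id isOpen_univ.conicalSet).add (h1.const_smul (1 - ς))

/-- the inverse -/
theorem exists_L1 (h0 : 0 < ς) (h1 : ς ≤ 1) : ∃ k', L1 al be (sgG al be l h ς) k' := by
  obtain ⟨k', a1, a2, a3, a4, a5⟩ := exists_inv1 (H.strictMono h0 h1) continuous
    conicalOn (fun t => H.abs_sub_self_le h0.le h1 t)
  exact ⟨k', continuous, conicalOn, H.strictMono h0 h1, a2, a3, a1, a4, a5,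
    fun _ ht => H.out ht⟩

end

end BS

end P073.H429
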